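import Vale.Agent.P092.H729.TAB

/-!
TA-2: a minimal projection `e` of `𝒬^V` gives a central atom `[𝒬^V e H]`.
-/

open scoped InnerProductSpace

set_option linter.unusedSectionVars false
set_option autoImplicit false

namespace Vale.Agent.P092.H729

open Vale.Agent.P092.H432.TA

variable {H : Type*} [NormedAddCommGroup H] [InnerProductSpace ℂ H] [CompleteSpace H]
variable {A B : Type*} [Group A] [Group B]
variable {S : A →* (H →L[ℂ] H)} {R : B →* (H →L[ℂ] H)} {W : Set (H →L[ℂ] H)}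
variable {cA : Set (Subgroup A)} {cB : Set (Subgroup B)}

/-! ### closure properties of `QV` and `QQ` -/

theorem conj_eq {U U' : Subgroup A} {a : A} (h : ∀ x, x ∈ U' ↔ a⁻¹ * x * a ∈ U) :
    U' = U.map (MulAut.conj a).toMonoidHom := by
  ext x
  rw [h]
  constructor
  · intro hx
    exact ⟨_, hx, by simp [MulAut.conj_apply, mul_assoc]⟩
  · rintro ⟨u, hu, rfl⟩
    simpa [MulAut.conj_apply, mul_assoc] using hu

theorem conj_mem (hA : GIn cA) {U : Subgroup A} (hU : U ∈ cA) (a : A) :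
    U.map (MulAut.conj a).toMonoidHom ∈ cA := by
  obtain ⟨U', hU', h⟩ := hA.conj U hU a
  rwa [← conj_eq h]

theorem qv_one (hA : GIn cA) {V : Subgroup B} : (1 : H →L[ℂ] H) ∈ QV S R W cA V := by
  obtain ⟨U, hU⟩ := hA.ne
  exact ⟨U, hU, Q_one⟩

theorem qv_mul (hA : GIn cA) {V : Subgroup B} {x y : H →L[ℂ] H} (hx : x ∈ QV S R W cA V)
    (hy : y ∈ QV S R W cA V) : x * y ∈ QV S R W cA V := by
  obtain ⟨U, hU, hx⟩ := hx
  obtain ⟨U', hU', hy⟩ := hy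
  exact ⟨U ⊓ U', hA.inf _ hU _ hU', Q_mul (Q_mono inf_le_left le_rfl hx)
    (Q_mono inf_le_right le_rfl hy)⟩

theorem qv_add (hA : GIn cA) {V : Subgroup B} {x y : H →L[ℂ] H} (hx : x ∈ QV S R W cA V)
    (hy : y ∈ QV S R W cA V) : x + y ∈ QV S R W cA V := by
  obtain ⟨U, hU, hx⟩ := hx
  obtain ⟨U', hU', hy⟩ := hy
  exact ⟨U ⊓ U', hA.inf _ hU _ hU', Q_add (Q_mono inf_le_left le_rfl hx)
    (Q_mono inf_le_right le_rfl hy)⟩

theorem qv_sub (hA : GIn cA) {V : Subgroup B} {x y : H →L[ℂ] H} (hx : x ∈ QV S R W cA V)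
    (hy : y ∈ QV S R W cA V) : x - y ∈ QV S R W cA V := by
  obtain ⟨U, hU, hx⟩ := hx
  obtain ⟨U', hU', hy⟩ := hy
  exact ⟨U ⊓ U', hA.inf _ hU _ hU', Q_sub (Q_mono inf_le_left le_rfl hx)
    (Q_mono inf_le_right le_rfl hy)⟩

theorem qv_smul {V : Subgroup B} {x : H →L[ℂ] H} (c : ℂ) (hx : x ∈ QV S R W cA V) :
    c • x ∈ QV S R W cA V := by
  obtain ⟨U, hU, hx⟩ := hx
  exact ⟨U, hU, Q_smul c hx⟩

theorem qv_star (h : Sys S R W) {V : Subgroup B} {x : H →L[ℂ] H} (hx : x ∈ QV S R W cA V) :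
    star x ∈ QV S R W cA V := by
  obtain ⟨U, hU, hx⟩ := hx
  exact ⟨U, hU, Q_star h hx⟩

theorem qv_mono {V V' : Subgroup B} (hV : V' ≤ V) : QV S R W cA V ⊆ QV S R W cA V' := by
  rintro x ⟨U, hU, hx⟩
  exact ⟨U, hU, Q_mono le_rfl hV hx⟩

theorem qv_cj (h : Sys S R W) (hA : GIn cA) {V : Subgroup B} {x : H →L[ℂ] H}
    (hx : x ∈ QV S R W cA V) (a : A) : cj S a x ∈ QV S R W cA V := by
  obtain ⟨U, hU, hx⟩ := hx
  exact ⟨_, conj_mem hA hU a, cjS_mem h hx a⟩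

theorem qv_cjR (h : Sys S R W) {V : Subgroup B} {x : H →L[ℂ] H}
    (hx : x ∈ QV S R W cA V) (b : B) :
    cj R b x ∈ QV S R W cA (V.map (MulAut.conj b).toMonoidHom) := by
  obtain ⟨U, hU, hx⟩ := hx
  exact ⟨U, hU, cjR_mem h hx b⟩

theorem qv_comm_R {V : Subgroup B} {x : H →L[ℂ] H} (hx : x ∈ QV S R W cA V) {b : B} (hb : b ∈ V) :
    R b * x = x * R b := by
  obtain ⟨U, _, hx⟩ := hx
  exact hx.2.1 b hb

theorem qv_comm_W {V : Subgroup B} {x : H →L[ℂ] H} (hx : x ∈ QV S R W cA V) {w : H →L[ℂ] H}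
    (hw : w ∈ W) : w * x = x * w := by
  obtain ⟨U, _, hx⟩ := hx
  exact hx.2.2 w hw

theorem qq_of_qv {V : Subgroup B} (hV : V ∈ cB) {x : H →L[ℂ] H} (hx : x ∈ QV S R W cA V) :
    x ∈ QQ S R W cA cB := by
  obtain ⟨U, hU, hx⟩ := hx
  exact ⟨U, hU, V, hV, hx⟩

theorem qq_swap {x : H →L[ℂ] H} : x ∈ QQ R S W cB cA ↔ x ∈ QQ S R W cA cB :=
  ⟨fun ⟨V, hV, U, hU, hx⟩ => ⟨U, hU, V, hV, Q_swap.1 hx⟩,
   fun ⟨U, hU, V, hV, hx⟩ => ⟨V, hV, U, hU, Q_swap.1 hx⟩⟩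

theorem qq_one (hA : GIn cA) (hB : GIn cB) : (1 : H →L[ℂ] H) ∈ QQ S R W cA cB := by
  obtain ⟨V, hV⟩ := hB.ne
  exact qq_of_qv hV (qv_one hA)

theorem qq_mul (hA : GIn cA) (hB : GIn cB) {x y : H →L[ℂ] H} (hx : x ∈ QQ S R W cA cB)
    (hy : y ∈ QQ S R W cA cB) : x * y ∈ QQ S R W cA cB := by
  obtain ⟨U, hU, V, hV, hx⟩ := hx
  obtain ⟨U', hU', V', hV', hy⟩ := hy
  exact ⟨U ⊓ U', hA.inf _ hU _ hU', V ⊓ V', hB.inf _ hV _ hV',
    Q_mul (Q_mono inf_le_left inf_le_left hx) (Q_mono inf_le_right inf_le_right hy)⟩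

theorem qq_add (hA : GIn cA) (hB : GIn cB) {x y : H →L[ℂ] H} (hx : x ∈ QQ S R W cA cB)
    (hy : y ∈ QQ S R W cA cB) : x + y ∈ QQ S R W cA cB := by
  obtain ⟨U, hU, V, hV, hx⟩ := hx
  obtain ⟨U', hU', V', hV', hy⟩ := hy
  exact ⟨U ⊓ U', hA.inf _ hU _ hU', V ⊓ V', hB.inf _ hV _ hV',
    Q_add (Q_mono inf_le_left inf_le_left hx) (Q_mono inf_le_right inf_le_right hy)⟩

theorem qq_sub (hA : GIn cA) (hB : GIn cB) {x y : H →L[ℂ] H} (hx : x ∈ QQ S R W cA cB)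
    (hy : y ∈ QQ S R W cA cB) : x - y ∈ QQ S R W cA cB := by
  obtain ⟨U, hU, V, hV, hx⟩ := hx
  obtain ⟨U', hU', V', hV', hy⟩ := hy
  exact ⟨U ⊓ U', hA.inf _ hU _ hU', V ⊓ V', hB.inf _ hV _ hV',
    Q_sub (Q_mono inf_le_left inf_le_left hx) (Q_mono inf_le_right inf_le_right hy)⟩

theorem qq_star (h : Sys S R W) {x : H →L[ℂ] H} (hx : x ∈ QQ S R W cA cB) :
    star x ∈ QQ S R W cA cB := by
  obtain ⟨U, hU, V, hV, hx⟩ := hx
  exact ⟨U, hU, V, hV, Q_star h hx⟩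

theorem qq_cj (h : Sys S R W) (hA : GIn cA) {x : H →L[ℂ] H} (hx : x ∈ QQ S R W cA cB) (a : A) :
    cj S a x ∈ QQ S R W cA cB := by
  obtain ⟨U, hU, V, hV, hx⟩ := hx
  exact ⟨_, conj_mem hA hU a, V, hV, cjS_mem h hx a⟩

theorem qq_cjR (h : Sys S R W) (hB : GIn cB) {x : H →L[ℂ] H} (hx : x ∈ QQ S R W cA cB) (b : B) :
    cj R b x ∈ QQ S R W cA cB := by
  obtain ⟨U, hU, V, hV, hx⟩ := hx
  exact ⟨U, hU, _, conj_mem hB hV b, cjR_mem h hx b⟩

/-- conjugation moves the commutation with `QV` -/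
theorem qv_cj_comm (h : Sys S R W) (hA : GIn cA) {V : Subgroup B} {z : H →L[ℂ] H}
    (hz : ∀ x ∈ QV S R W cA V, x * z = z * x) (a : A) :
    ∀ x ∈ QV S R W cA V, x * cj S a z = cj S a z * x := by
  intro x hx
  have h1 := hz _ (qv_cj h hA hx a⁻¹)
  have h2 := congrArg (cj S a) h1
  rwa [cj_mul, cj_mul, cj_cj_inv] at h2

theorem cj_S_mul (a : A) (x : H →L[ℂ] H) : S a * x = cj S a x * S a := by
  rw [cj, mul_assoc, S_inv_mul, mul_one]

theorem proj_ge_comm {p q : H →L[ℂ] H} (hp : IsStarProjection p) (hq : IsStarProjection q)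
    (h : p * q = q) : q * p = q := by
  have := congrArg star h
  simpa [proj_star hp, proj_star hq] using this

theorem proj_ge_comm' {p q : H →L[ℂ] H} (hp : IsStarProjection p) (hq : IsStarProjection q)
    (h : p * q = q) : q * p = q := proj_ge_comm hp hq h

/-! ### the quadratic form of a projection -/

theorem inner_proj {p : H →L[ℂ] H} (hp : Prj p) (ξ : H) : ⟪ξ, p ξ⟫_ℂ = (‖p ξ‖ ^ 2 : ℝ) := by
  have h2 : ⟪(star p) ξ, p ξ⟫_ℂ = ⟪ξ, p (p ξ)⟫_ℂ := ContinuousLinearMap.adjoint_inner_left p _ _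
  rw [proj_star (isp hp)] at h2
  have h3 : p (p ξ) = p ξ := by
    simpa using congrArg (fun T : H →L[ℂ] H => T ξ) hp.idem
  rw [h3] at h2
  rw [← h2, inner_self_eq_norm_sq_to_K]
  norm_cast

/-! ### R-finiteness -/

theorem rfin_cjS (h : Sys S R W) {V : Subgroup B} {e : H →L[ℂ] H} (hf : RFin R V e) (a : A) :
    RFin R V (cj S a e) := by
  obtain ⟨C, hC⟩ := hf
  refine ⟨C, fun F ξ => ?_⟩
  have h1 : ∀ q : B ⧸ V, ‖cj S a e (R q.out⁻¹ ξ)‖ = ‖e (R q.out⁻¹ (S a⁻¹ ξ))‖ := by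
    intro q
    have h2 : cj S a e (R q.out⁻¹ ξ) = S a (e (S a⁻¹ (R q.out⁻¹ ξ))) := rfl
    have h3 : S a⁻¹ (R q.out⁻¹ ξ) = R q.out⁻¹ (S a⁻¹ ξ) :=
      congrArg (fun T : H →L[ℂ] H => T ξ) (h.SR a⁻¹ q.out⁻¹)
    rw [h2, norm_S h, h3]
  simp only [h1]
  have := hC F (S a⁻¹ ξ)
  rwa [norm_S h] at this

/-! ### the central atom -/

section Atom

variable {V : Subgroup B} {e : H →L[ℂ] H}

theorem cover_mem (h : Sys S R W) (hA : GIn cA) {U : Subgroup A} (he : e ∈ Q S R W U V) :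
    cov (QV S R W cA V) e ∈ Q S R W U V := by
  refine ⟨fun a ha => ?_, fun b hb => ?_, fun w hw => ?_⟩
  · refine cov_comm_norm (fun x hx => ⟨cj S a x, qv_cj h hA hx a, cj_S_mul a x⟩) (fun x hx => ?_)
      (he.1 a ha) ?_
    · rw [sadj h]
      exact ⟨cj S a⁻¹ x, qv_cj h hA hx a⁻¹, cj_S_mul a⁻¹ x⟩
    · rw [sadj h]
      exact he.1 a⁻¹ (U.inv_mem ha)
  · refine cov_comm_norm (fun x hx => ⟨x, hx, qv_comm_R hx hb⟩) (fun x hx => ⟨x, hx, ?_⟩)
      (he.2.1 b hb) ?_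
    · rw [radj h]; exact qv_comm_R hx (V.inv_mem hb)
    · rw [radj h]; exact he.2.1 b⁻¹ (V.inv_mem hb)
  · exact cov_comm_norm (fun x hx => ⟨x, hx, qv_comm_W hx hw⟩)
      (fun x hx => ⟨x, hx, qv_comm_W hx (wadj h hw)⟩) (he.2.2 w hw) (he.2.2 _ (wadj h hw))

theorem cover_comm (h : Sys S R W) (hA : GIn cA) :
    ∀ x ∈ QV S R W cA V, x * cov (QV S R W cA V) e = cov (QV S R W cA V) e * x :=
  fun _ hx => cov_comm_mem (fun _ hx _ hy => qv_mul hA hx hy) (fun _ hx => qv_star h hx) hx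

/-- the cover of a minimal projection is an atom of the centre -/
theorem cover_atom (he : MinP S R W cA V e) {c : H →L[ℂ] H} (hc : Prj c)
    (hcQ : c ∈ QV S R W cA V) (hcc : ∀ x ∈ QV S R W cA V, x * c = c * x) :
    c * cov (QV S R W cA V) e = cov (QV S R W cA V) e ∨ c * cov (QV S R W cA V) e = 0 := by
  obtain ⟨t, ht⟩ := he.min c hcQ
  have h1 : c * e = t • e := by
    rw [← ht, hcc e he.mem, mul_assoc, he.prj.idem]
  have h2 : t * t = t := by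
    have h3 : c * (c * e) = c * e := by rw [← mul_assoc, hc.idem]
    rw [h1, mul_smul_comm, h1, smul_smul] at h3
    have h4 : (t * t - t) • e = 0 := by rw [sub_smul, h3, sub_self]
    exact sub_eq_zero.1 ((smul_eq_zero.1 h4).resolve_right he.ne)
  rcases mul_self_eq_self_iff_of_domain h2 with h3 | h3
  · right
    exact cov_zero hcc (by rw [h1, h3, zero_smul])
  · left
    exact cov_le hcc (by rw [h1, h3, one_smul])
where
  mul_self_eq_self_iff_of_domain {t : ℂ} (h : t * t = t) : t = 0 ∨ t = 1 := by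
    have : t * (t - 1) = 0 := by rw [mul_sub, h, mul_one, sub_self]
    rcases mul_eq_zero.1 this with h | h
    · exact Or.inl h
    · exact Or.inr (sub_eq_zero.1 h)

end Atom

/-- the stabiliser of an operator under conjugation by `S` -/
def stab (S : A →* (H →L[ℂ] H)) (z : H →L[ℂ] H) : Subgroup A where
  carrier := {a | cj S a z = z}
  one_mem' := cj_one' z
  mul_mem' := fun {a b} ha hb => by
    change cj S (a * b) z = z
    rw [← cj_cj, show cj S b z = z from hb, show cj S a z = z from ha]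
  inv_mem' := fun {a} ha => by
    change cj S a⁻¹ z = z
    have h1 : cj S a z = z := ha
    have h2 := cj_inv_cj (S := S) a z
    rw [h1] at h2
    exact h2

theorem mem_stab {z : H →L[ℂ] H} {a : A} : a ∈ stab S z ↔ cj S a z = z := Iff.rfl

/-- translates of a central atom are equal or orthogonal -/
theorem atom_sep (h : Sys S R W) (hA : GIn cA) {V : Subgroup B} {z : H →L[ℂ] H}
    (hzQ : z ∈ QV S R W cA V) (hz : Prj z) (hz0 : z ≠ 0)
    (hzc : ∀ x ∈ QV S R W cA V, x * z = z * x)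
    (hat : ∀ c ∈ QV S R W cA V, Prj c → (∀ x ∈ QV S R W cA V, x * c = c * x) →
      c * z = z ∨ c * z = 0) {a : A} (ha : a ∉ stab S z) : z * cj S a z = 0 := by
  have h1 := hat _ (qv_cj h hA hzQ a) (cj_prj h a hz) (qv_cj_comm h hA hzc a)
  have h2 := hat _ (qv_cj h hA hzQ a⁻¹) (cj_prj h a⁻¹ hz) (qv_cj_comm h hA hzc a⁻¹)
  rcases h1 with h1 | h1
  · exfalso
    -- `cj a z * z = z`
    have h3 : z * cj S a z = z := proj_ge_comm (isp (cj_prj h a hz)) (isp hz) h1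
    rcases h2 with h2 | h2
    · have h4 := congrArg (cj S a) h2
      rw [cj_mul, cj_cj_inv] at h4
      exact ha (mem_stab.2 (h4.symm.trans h3))
    · have h4 := congrArg (cj S a) h2
      rw [cj_mul, cj_cj_inv, cj_zero] at h4
      exact hz0 (h3.symm.trans h4)
  · exact proj_orth_comm (isp (cj_prj h a hz)) (isp hz) h1

/-- a projection which is, up to a scalar, dominated by a finite sum of translates of `e` -/
theorem rfin_of_sum (h : Sys S R W) {V : Subgroup B} {e z : H →L[ℂ] H} (hz : Prj z) (he : Prj e)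
    (hf : RFin R V e) {ι : Type*} (s : Finset ι) (f : ι → A) {c : ℂ} (hc0 : 0 < c.re)
    (hc : ∑ i ∈ s, cj S (f i) e = c • z) : RFin R V z := by
  have hq : ∀ ξ, c.re * ‖z ξ‖ ^ 2 = ∑ i ∈ s, ‖cj S (f i) e ξ‖ ^ 2 := by
    intro ξ
    have h1 : ⟪ξ, (∑ i ∈ s, cj S (f i) e) ξ⟫_ℂ = (∑ i ∈ s, ‖cj S (f i) e ξ‖ ^ 2 : ℝ) := by
      rw [sum_apply, inner_sum, Complex.ofReal_sum]
      exact Finset.sum_congr rfl fun i _ => inner_proj (cj_prj h (f i) he) ξ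
    rw [hc] at h1
    have h2 : ⟪ξ, (c • z) ξ⟫_ℂ = c * (‖z ξ‖ ^ 2 : ℝ) := by
      rw [smul_apply, inner_smul_right, inner_proj hz]
    rw [h2] at h1
    have h3 := congrArg Complex.re h1
    rwa [Complex.re_mul_ofReal, Complex.ofReal_re] at h3
  have hfs : ∀ i, RFin R V (cj S (f i) e) := fun i => rfin_cjS h hf (f i)
  choose C hC using hfs
  refine ⟨c.re⁻¹ * ∑ i ∈ s, C i, fun F ξ => ?_⟩
  have h1 : ∀ q : B ⧸ V, ‖z (R q.out⁻¹ ξ)‖ ^ 2 =
      c.re⁻¹ * ∑ i ∈ s, ‖cj S (f i) e (R q.out⁻¹ ξ)‖ ^ 2 := by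
    intro q
    rw [← hq, ← mul_assoc, inv_mul_cancel₀ hc0.ne', one_mul]
  calc ∑ q ∈ F, ‖z (R q.out⁻¹ ξ)‖ ^ 2
      = c.re⁻¹ * ∑ i ∈ s, ∑ q ∈ F, ‖cj S (f i) e (R q.out⁻¹ ξ)‖ ^ 2 := by
        rw [Finset.sum_comm, Finset.mul_sum]
        exact Finset.sum_congr rfl fun q _ => h1 q
    _ ≤ c.re⁻¹ * ∑ i ∈ s, C i * ‖ξ‖ ^ 2 := by
        refine mul_le_mul_of_nonneg_left ?_ (inv_nonneg.2 hc0.le)
        exact Finset.sum_le_sum fun i _ => hC i F ξ
    _ = _ := by rw [← Finset.sum_mul, mul_assoc]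

/-- TA-2 -/
theorem catom_of_min (h : Sys S R W) (hA : GIn cA) {V : Subgroup B}
    (hE : ∀ x ∈ Q S R W ⊤ V, ∃ c : ℂ, x = c • (1 : H →L[ℂ] H)) {e : H →L[ℂ] H}
    (he : MinP S R W cA V e) (hf : RFin R V e)
    (hn : (∀ a, cj S a (cov (QV S R W cA V) e) = cov (QV S R W cA V) e) → False) :
    ∃ U, CAtom S R W cA V U (cov (QV S R W cA V) e) := by
  classical
  set z := cov (QV S R W cA V) e with hzdef
  obtain ⟨Ue, hUe, heQ⟩ := he.mem
  have hzQ : z ∈ Q S R W Ue V := cover_mem h hA heQ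
  have hz : Prj z := cov_prj
  have hz0 : z ≠ 0 := cov_ne_zero (qv_one hA) he.ne
  have hzc : ∀ x ∈ QV S R W cA V, x * z = z * x := cover_comm h hA
  have hat : ∀ c ∈ QV S R W cA V, Prj c → (∀ x ∈ QV S R W cA V, x * c = c * x) →
      c * z = z ∨ c * z = 0 := fun c hcQ hc hcc => cover_atom he hc hcQ hcc
  have hze : z * e = e := cov_mul_self (qv_one hA)
  set L := stab S z with hL
  have hUL : Ue ≤ L := fun a ha => mem_stab.2 (cj_eq_iff.2 (hzQ.1 a ha))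
  have hLmem : L ∈ cA := by
    rcases hA.g1 L ⟨Ue, hUe, hUL⟩ with h1 | h1
    · exact h1
    · exact (hn fun a => mem_stab.1 (show a ∈ L by rw [h1]; exact Subgroup.mem_top a)).elim
  have hzL : z ∈ Q S R W L V := ⟨fun a ha => cj_eq_iff.1 (mem_stab.1 ha), hzQ.2.1, hzQ.2.2⟩
  have hsep : ∀ a, a ∉ L → z * cj S a z = 0 := fun a ha =>
    atom_sep h hA ⟨Ue, hUe, hzQ⟩ hz hz0 hzc hat ha
  refine ⟨L, hLmem, hzL, hz, hz0, hzc, hat, hsep, ?_⟩
  -- the finite sum of the translates of `e` over `L / Ue`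
  set N := Ue.subgroupOf L with hN
  have hfi : N.FiniteIndex := ⟨hA.g0 Ue hUe L hLmem⟩
  have : Fintype (L ⧸ N) := Subgroup.fintypeQuotientOfFiniteIndex
  set y : H →L[ℂ] H := ∑ q : L ⧸ N, cj S (q.out : A) e with hy
  have hcoset : ∀ l : L, ∀ q : L ⧸ N, cj S (l : A) (cj S (q.out : A) e)
      = cj S (((l • q : L ⧸ N).out : L) : A) e := by
    intro l q
    have h1 : (l • q : L ⧸ N) = ((l * q.out : L) : L ⧸ N) := by
      conv_lhs => rw [← QuotientGroup.out_eq' q]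
      rfl
    obtain ⟨n, hn⟩ := QuotientGroup.mk_out_eq_mul N (l * q.out)
    rw [h1, hn, cj_cj, ← Subgroup.coe_mul, Subgroup.coe_mul L (l * q.out) (n : L), ← cj_cj]
    congr 1
    exact (cj_eq_iff.2 (heQ.1 _ (Subgroup.mem_subgroupOf.1 n.2))).symm
  have hyL : ∀ l ∈ L, S l * y = y * S l := by
    intro l hl
    rw [← cj_eq_iff]
    have h1 : cj S l y = ∑ q : L ⧸ N, cj S l (cj S (q.out : A) e) := by
      simp only [hy, cj, Finset.mul_sum, Finset.sum_mul]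
    rw [h1]
    have h2 : ∀ q : L ⧸ N, cj S l (cj S (q.out : A) e) =
        cj S ((((⟨l, hl⟩ : L) • q : L ⧸ N).out : L) : A) e := fun q => hcoset ⟨l, hl⟩ q
    simp only [h2]
    exact Equiv.sum_comp (MulAction.toPerm (⟨l, hl⟩ : L) : Equiv.Perm (L ⧸ N))
      (fun q : L ⧸ N => cj S (q.out : A) e)
  have hyQ : y ∈ Q S R W L V := by
    refine ⟨hyL, fun b hb => ?_, fun w hw => ?_⟩
    · rw [hy, Finset.mul_sum, Finset.sum_mul]
      exact Finset.sum_congr rfl fun q _ => (cjS_mem h heQ _).2.1 b hb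
    · rw [hy, Finset.mul_sum, Finset.sum_mul]
      exact Finset.sum_congr rfl fun q _ => (cjS_mem h heQ _).2.2 w hw
  have hzq : ∀ q : L ⧸ N, z * cj S (q.out : A) e = cj S (q.out : A) e := by
    intro q
    have h1 : cj S (q.out : A) z = z := mem_stab.1 q.out.2
    conv_lhs => rw [← h1]
    rw [← cj_mul, hze]
  have hezq : ∀ q : L ⧸ N, cj S (q.out : A) e * z = cj S (q.out : A) e := fun q =>
    proj_ge_comm' (isp hz) (isp (cj_prj h _ he.prj)) (hzq q)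
  have hzy : z * y * z = y := by
    rw [hy, Finset.mul_sum, Finset.sum_mul]
    exact Finset.sum_congr rfl fun q _ => by rw [hzq, hezq]
  obtain ⟨c, hc⟩ := trick h hE hz hzL hsep hyQ
  rw [hzy] at hc
  -- positivity of the scalar
  have hc0 : 0 < c.re := by
    obtain ⟨ξ, hξ⟩ : ∃ ξ, e ξ ≠ 0 := by
      by_contra hne
      push Not at hne
      exact he.ne (by ext ξ; simpa using hne ξ)
    have h1 : ⟪ξ, y ξ⟫_ℂ = (∑ q : L ⧸ N, ‖cj S (q.out : A) e ξ‖ ^ 2 : ℝ) := by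
      rw [hy, sum_apply, inner_sum, Complex.ofReal_sum]
      exact Finset.sum_congr rfl fun i _ => inner_proj (cj_prj h _ he.prj) ξ
    rw [hc, smul_apply, inner_smul_right, inner_proj hz] at h1
    have h2 : c.re * ‖z ξ‖ ^ 2 = ∑ q : L ⧸ N, ‖cj S (q.out : A) e ξ‖ ^ 2 := by
      have h3 := congrArg Complex.re h1
      rwa [Complex.re_mul_ofReal, Complex.ofReal_re] at h3
    have h3 : ‖e ξ‖ ^ 2 ≤ ∑ q : L ⧸ N, ‖cj S (q.out : A) e ξ‖ ^ 2 := by
      have h4 : cj S (((1 : L) : L ⧸ N).out : A) e = e := by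
        obtain ⟨n, hn⟩ := QuotientGroup.mk_out_eq_mul N (1 : L)
        rw [hn, one_mul]
        exact cj_eq_iff.2 (heQ.1 _ (Subgroup.mem_subgroupOf.1 n.2))
      calc ‖e ξ‖ ^ 2 = ‖cj S (((1 : L) : L ⧸ N).out : A) e ξ‖ ^ 2 := by rw [h4]
        _ ≤ _ := Finset.single_le_sum (f := fun q : L ⧸ N => ‖cj S (q.out : A) e ξ‖ ^ 2)
            (fun q _ => sq_nonneg _) (Finset.mem_univ _)
    have h5 : 0 < ‖e ξ‖ ^ 2 := by positivity
    have h6 : 0 < c.re * ‖z ξ‖ ^ 2 := by rw [h2]; exact h5.trans_le h3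
    exact pos_of_mul_pos_left h6 (sq_nonneg _)
  exact rfin_of_sum h hz he.prj hf Finset.univ (fun q : L ⧸ N => (q.out : A)) hc0 hc

end Vale.Agent.P092.H729
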