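import Vale.Agent.P092.H432.TA.Defs

/-!
Tools for Theorem A of project B (two commuting unitary representations, commutant form).
-/

open scoped InnerProductSpace

set_option linter.unusedSectionVars false

set_option autoImplicit false

namespace Vale.Agent.P092.H729

open Vale.Agent.P092.H432.TA

variable {H : Type*} [NormedAddCommGroup H] [InnerProductSpace ℂ H] [CompleteSpace H]
variable {A B : Type*} [Group A] [Group B]

/-! ### Projections and invariant subspaces -/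

theorem comm_proj (K : Submodule ℂ H) [K.HasOrthogonalProjection] (x : H →L[ℂ] H)
    (h1 : ∀ k ∈ K, x k ∈ K) (h2 : ∀ k ∈ K, (star x) k ∈ K) :
    x * K.starProjection = K.starProjection * x := by
  ext ζ
  have hx : K.starProjection (x ζ) = x (K.starProjection ζ) := by
    apply Submodule.eq_starProjection_of_mem_orthogonal (h1 _ (K.starProjection_apply_mem ζ))
    rw [← map_sub, Submodule.mem_orthogonal]
    intro k hk
    rw [← ContinuousLinearMap.adjoint_inner_left]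
    exact Submodule.inner_right_of_mem_orthogonal (h2 k hk) (K.sub_starProjection_mem_orthogonal ζ)
  simpa using hx.symm

theorem proj_star {p : H →L[ℂ] H} (hp : IsStarProjection p) : star p = p := hp.isSelfAdjoint

theorem proj_mul {p : H →L[ℂ] H} (hp : IsStarProjection p) : p * p = p := hp.isIdempotentElem

theorem isStarProjection_starProjection (K : Submodule ℂ H) [K.HasOrthogonalProjection] :
    IsStarProjection K.starProjection := by
  exact ⟨K.isIdempotentElem_starProjection, _root_.isSelfAdjoint_starProjection K⟩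

/-- two projections with `p * q = p` commute -/
theorem proj_le_comm {p q : H →L[ℂ] H} (hp : IsStarProjection p) (hq : IsStarProjection q)
    (h : p * q = p) : q * p = p := by
  have := congrArg star h
  simpa [proj_star hp, proj_star hq] using this

theorem proj_orth_comm {p q : H →L[ℂ] H} (hp : IsStarProjection p) (hq : IsStarProjection q)
    (h : p * q = 0) : q * p = 0 := by
  have := congrArg star h
  simpa [proj_star hp, proj_star hq] using this

theorem norm_proj_le {p : H →L[ℂ] H} (hp : IsStarProjection p) (ζ : H) : ‖p ζ‖ ≤ ‖ζ‖ := by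
  have h1 : ‖p ζ‖ ^ 2 = (⟪p ζ, ζ⟫_ℂ).re := by
    have : ⟪p ζ, p ζ⟫_ℂ = ⟪p ζ, ζ⟫_ℂ := by
      have h2 : ⟪(star p) (p ζ), ζ⟫_ℂ = ⟪p ζ, p ζ⟫_ℂ := ContinuousLinearMap.adjoint_inner_left p _ _
      rw [← h2, proj_star hp]
      congr 1
      have := congrArg (fun T : H →L[ℂ] H => T ζ) (proj_mul hp)
      simpa using this
    rw [← this, inner_self_eq_norm_sq_to_K]
    norm_cast
  have h2 : (⟪p ζ, ζ⟫_ℂ).re ≤ ‖p ζ‖ * ‖ζ‖ := (Complex.re_le_norm _).trans (norm_inner_le_norm _ _)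
  rcases eq_or_lt_of_le (norm_nonneg (p ζ)) with h | h
  · rw [← h]; exact norm_nonneg _
  · nlinarith

/-! ### The system of two commuting representations -/

variable {S : A →* (H →L[ℂ] H)} {R : B →* (H →L[ℂ] H)} {W : Set (H →L[ℂ] H)}

theorem sys_swap (h : Sys S R W) : Sys R S W :=
  ⟨h.Radj, h.Sadj, fun b a => (h.SR a b).symm, h.WR, h.WS, h.Wadj⟩

theorem sadj (h : Sys S R W) (a : A) : star (S a) = S a⁻¹ := h.Sadj a

theorem radj (h : Sys S R W) (b : B) : star (R b) = R b⁻¹ := h.Radj b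

theorem wadj (h : Sys S R W) {w : H →L[ℂ] H} (hw : w ∈ W) : star w ∈ W := h.Wadj w hw

theorem isp {e : H →L[ℂ] H} (h : Prj e) : IsStarProjection e := ⟨h.idem, h.adj⟩

theorem prj_of {e : H →L[ℂ] H} (h : IsStarProjection e) : Prj e := ⟨h.isIdempotentElem, h.isSelfAdjoint⟩

theorem Q_swap {U : Subgroup A} {V : Subgroup B} {x : H →L[ℂ] H} :
    x ∈ Q R S W V U ↔ x ∈ Q S R W U V :=
  ⟨fun h => ⟨h.2.1, h.1, h.2.2⟩, fun h => ⟨h.2.1, h.1, h.2.2⟩⟩

theorem Q_mono {U U' : Subgroup A} {V V' : Subgroup B} (hU : U' ≤ U) (hV : V' ≤ V) :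
    Q S R W U V ⊆ Q S R W U' V' :=
  fun _ hx => ⟨fun a ha => hx.1 a (hU ha), fun b hb => hx.2.1 b (hV hb), hx.2.2⟩

theorem Q_one {U : Subgroup A} {V : Subgroup B} : (1 : H →L[ℂ] H) ∈ Q S R W U V :=
  ⟨fun a _ => by simp, fun b _ => by simp, fun w _ => by simp⟩

theorem Q_zero {U : Subgroup A} {V : Subgroup B} : (0 : H →L[ℂ] H) ∈ Q S R W U V :=
  ⟨fun a _ => by simp, fun b _ => by simp, fun w _ => by simp⟩

theorem Q_add {U : Subgroup A} {V : Subgroup B} {x y : H →L[ℂ] H}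
    (hx : x ∈ Q S R W U V) (hy : y ∈ Q S R W U V) : x + y ∈ Q S R W U V :=
  ⟨fun a ha => by rw [mul_add, add_mul, hx.1 a ha, hy.1 a ha],
   fun b hb => by rw [mul_add, add_mul, hx.2.1 b hb, hy.2.1 b hb],
   fun w hw => by rw [mul_add, add_mul, hx.2.2 w hw, hy.2.2 w hw]⟩

theorem Q_smul {U : Subgroup A} {V : Subgroup B} {x : H →L[ℂ] H} (c : ℂ)
    (hx : x ∈ Q S R W U V) : c • x ∈ Q S R W U V :=
  ⟨fun a ha => by rw [mul_smul_comm, smul_mul_assoc, hx.1 a ha],
   fun b hb => by rw [mul_smul_comm, smul_mul_assoc, hx.2.1 b hb],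
   fun w hw => by rw [mul_smul_comm, smul_mul_assoc, hx.2.2 w hw]⟩

theorem Q_neg {U : Subgroup A} {V : Subgroup B} {x : H →L[ℂ] H}
    (hx : x ∈ Q S R W U V) : -x ∈ Q S R W U V :=
  ⟨fun a ha => by rw [mul_neg, neg_mul, hx.1 a ha],
   fun b hb => by rw [mul_neg, neg_mul, hx.2.1 b hb],
   fun w hw => by rw [mul_neg, neg_mul, hx.2.2 w hw]⟩

theorem Q_sub {U : Subgroup A} {V : Subgroup B} {x y : H →L[ℂ] H}
    (hx : x ∈ Q S R W U V) (hy : y ∈ Q S R W U V) : x - y ∈ Q S R W U V := by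
  rw [sub_eq_add_neg]; exact Q_add hx (Q_neg hy)

theorem Q_mul {U : Subgroup A} {V : Subgroup B} {x y : H →L[ℂ] H}
    (hx : x ∈ Q S R W U V) (hy : y ∈ Q S R W U V) : x * y ∈ Q S R W U V :=
  ⟨fun a ha => by rw [← mul_assoc, hx.1 a ha, mul_assoc, hy.1 a ha, mul_assoc],
   fun b hb => by rw [← mul_assoc, hx.2.1 b hb, mul_assoc, hy.2.1 b hb, mul_assoc],
   fun w hw => by rw [← mul_assoc, hx.2.2 w hw, mul_assoc, hy.2.2 w hw, mul_assoc]⟩

theorem Q_star (h : Sys S R W) {U : Subgroup A} {V : Subgroup B} {x : H →L[ℂ] H}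
    (hx : x ∈ Q S R W U V) : star x ∈ Q S R W U V := by
  refine ⟨fun a ha => ?_, fun b hb => ?_, fun w hw => ?_⟩
  · have := congrArg star (hx.1 a⁻¹ (U.inv_mem ha))
    rw [star_mul, star_mul, sadj h, inv_inv] at this
    exact this.symm
  · have := congrArg star (hx.2.1 b⁻¹ (V.inv_mem hb))
    rw [star_mul, star_mul, radj h, inv_inv] at this
    exact this.symm
  · have := congrArg star (hx.2.2 (star w) (wadj h hw))
    rw [star_mul, star_mul, star_star] at this
    exact this.symm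

theorem S_mul_inv (S : A →* (H →L[ℂ] H)) (a : A) : S a * S a⁻¹ = 1 := by
  rw [← map_mul, mul_inv_cancel, map_one]

theorem S_inv_mul (S : A →* (H →L[ℂ] H)) (a : A) : S a⁻¹ * S a = 1 := by
  rw [← map_mul, inv_mul_cancel, map_one]

/-- conjugation -/
def cj (S : A →* (H →L[ℂ] H)) (a : A) (x : H →L[ℂ] H) : H →L[ℂ] H := S a * x * S a⁻¹

theorem cj_one (a : A) : cj S a 1 = 1 := by rw [cj, mul_one, S_mul_inv]

theorem cj_one' (x : H →L[ℂ] H) : cj S 1 x = x := by simp [cj]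

theorem cj_zero (a : A) : cj S a 0 = 0 := by simp [cj]

theorem cj_add (a : A) (x y : H →L[ℂ] H) : cj S a (x + y) = cj S a x + cj S a y := by
  simp only [cj, mul_add, add_mul]

theorem cj_smul (a : A) (c : ℂ) (x : H →L[ℂ] H) : cj S a (c • x) = c • cj S a x := by
  simp only [cj, mul_smul_comm, smul_mul_assoc]

theorem cj_mul (a : A) (x y : H →L[ℂ] H) : cj S a (x * y) = cj S a x * cj S a y := by
  simp only [cj]
  calc S a * (x * y) * S a⁻¹ = S a * x * (1 : H →L[ℂ] H) * y * S a⁻¹ := by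
        simp only [mul_one, mul_assoc]
    _ = S a * x * (S a⁻¹ * S a) * y * S a⁻¹ := by rw [S_inv_mul]
    _ = _ := by simp only [mul_assoc]

theorem cj_cj (a b : A) (x : H →L[ℂ] H) : cj S a (cj S b x) = cj S (a * b) x := by
  simp only [cj, mul_inv_rev, map_mul, mul_assoc]

theorem cj_inv_cj (a : A) (x : H →L[ℂ] H) : cj S a⁻¹ (cj S a x) = x := by
  rw [cj_cj, inv_mul_cancel, cj_one']

theorem cj_cj_inv (a : A) (x : H →L[ℂ] H) : cj S a (cj S a⁻¹ x) = x := by
  rw [cj_cj, mul_inv_cancel, cj_one']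

theorem cj_inj {a : A} {x y : H →L[ℂ] H} (h : cj S a x = cj S a y) : x = y := by
  rw [← cj_inv_cj (S := S) a x, h, cj_inv_cj]

theorem cj_eq_zero {a : A} {x : H →L[ℂ] H} : cj S a x = 0 ↔ x = 0 :=
  ⟨fun h => cj_inj (S := S) (a := a) (by rw [h, cj_zero]), fun h => by rw [h, cj_zero]⟩

theorem cj_star (hS : ∀ a, star (S a) = S a⁻¹) (a : A) (x : H →L[ℂ] H) :
    cj S a (star x) = star (cj S a x) := by
  simp only [cj, star_mul, hS, inv_inv, mul_assoc]

theorem cj_proj (hS : ∀ a, star (S a) = S a⁻¹) (a : A) {p : H →L[ℂ] H}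
    (hp : IsStarProjection p) : IsStarProjection (cj S a p) := by
  refine ⟨?_, ?_⟩
  · change cj S a p * cj S a p = cj S a p
    rw [← cj_mul, proj_mul hp]
  · change star (cj S a p) = cj S a p
    rw [← cj_star hS, proj_star hp]

/-- commuting with `S a` means being fixed by the conjugation -/
theorem cj_eq_iff {a : A} {x : H →L[ℂ] H} : cj S a x = x ↔ S a * x = x * S a := by
  constructor
  · intro h
    calc S a * x = S a * x * (S a⁻¹ * S a) := by rw [S_inv_mul, mul_one]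
      _ = cj S a x * S a := by simp only [cj, mul_assoc]
      _ = _ := by rw [h]
  · intro h
    rw [cj, h, mul_assoc, S_mul_inv, mul_one]

theorem cj_prj (h : Sys S R W) (a : A) {p : H →L[ℂ] H} (hp : Prj p) : Prj (cj S a p) :=
  prj_of (cj_proj (sadj h) a (isp hp))

theorem norm_S (h : Sys S R W) (a : A) (ζ : H) : ‖S a ζ‖ = ‖ζ‖ := by
  have h1 : ‖S a ζ‖ ^ 2 = ‖ζ‖ ^ 2 := by
    have h2 : ⟪(star (S a)) (S a ζ), ζ⟫_ℂ = ⟪S a ζ, S a ζ⟫_ℂ :=
      ContinuousLinearMap.adjoint_inner_left (S a) _ _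
    rw [sadj h] at h2
    have h3 : S a⁻¹ (S a ζ) = ζ := by
      have := congrArg (fun T : H →L[ℂ] H => T ζ) (S_inv_mul S a)
      simpa using this
    rw [h3, inner_self_eq_norm_sq_to_K, inner_self_eq_norm_sq_to_K] at h2
    exact_mod_cast h2.symm
  exact (pow_left_inj₀ (norm_nonneg _) (norm_nonneg _) two_ne_zero).1 h1

theorem comm_of_cj {a : A} {x y : H →L[ℂ] H} (h : cj S a x * y = y * cj S a x) :
    x * cj S a⁻¹ y = cj S a⁻¹ y * x := by
  have := congrArg (cj S a⁻¹) h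
  rwa [cj_mul, cj_mul, cj_inv_cj] at this

theorem cjS_mem (h : Sys S R W) {U : Subgroup A} {V : Subgroup B} {x : H →L[ℂ] H}
    (hx : x ∈ Q S R W U V) (a : A) : cj S a x ∈ Q S R W (U.map (MulAut.conj a).toMonoidHom) V := by
  refine ⟨?_, ?_, ?_⟩
  · rintro _ ⟨u, hu, rfl⟩
    rw [← cj_eq_iff, cj_cj]
    have : (MulAut.conj a).toMonoidHom u * a = a * u := by
      simp [MulAut.conj_apply]
    rw [this, ← cj_cj, cj_eq_iff.2 (hx.1 u hu)]
  · intro b hb
    have h1 := hx.2.1 b hb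
    have h2 := h.SR a b
    have h3 := h.SR a⁻¹ b
    calc R b * cj S a x = R b * S a * x * S a⁻¹ := by simp only [cj, mul_assoc]
      _ = S a * (R b * x) * S a⁻¹ := by rw [← h2]; simp only [mul_assoc]
      _ = S a * x * (R b * S a⁻¹) := by rw [h1]; simp only [mul_assoc]
      _ = cj S a x * R b := by rw [← h3]; simp only [cj, mul_assoc]
  · intro w hw
    have h1 := hx.2.2 w hw
    have h2 := h.WS w hw a
    have h3 := h.WS w hw a⁻¹
    calc w * cj S a x = w * S a * x * S a⁻¹ := by simp only [cj, mul_assoc]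
      _ = S a * (w * x) * S a⁻¹ := by rw [h2]; simp only [mul_assoc]
      _ = S a * x * (w * S a⁻¹) := by rw [h1]; simp only [mul_assoc]
      _ = cj S a x * w := by rw [h3]; simp only [cj, mul_assoc]

theorem cjR_mem (h : Sys S R W) {U : Subgroup A} {V : Subgroup B} {x : H →L[ℂ] H}
    (hx : x ∈ Q S R W U V) (b : B) : cj R b x ∈ Q S R W U (V.map (MulAut.conj b).toMonoidHom) :=
  Q_swap.1 (cjS_mem (sys_swap h) (Q_swap.1 hx) b)

theorem cjSR (h : Sys S R W) (a : A) (b : B) (x : H →L[ℂ] H) :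
    cj S a (cj R b x) = cj R b (cj S a x) := by
  simp only [cj]
  have h2 := h.SR a b
  have h3 := h.SR a⁻¹ b⁻¹
  calc S a * (R b * x * R b⁻¹) * S a⁻¹ = (S a * R b) * x * (R b⁻¹ * S a⁻¹) := by
        simp only [mul_assoc]
    _ = (R b * S a) * x * (S a⁻¹ * R b⁻¹) := by rw [h2, h3]
    _ = _ := by simp only [mul_assoc]

/-! ### Sums over orthogonal blocks -/

section OrthSum

variable {ι : Type*}

theorem inner_proj_orth {p q : H →L[ℂ] H} (hp : IsStarProjection p) (h : p * q = 0) (x y : H) :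
    ⟪p x, q y⟫_ℂ = 0 := by
  have h2 : ⟪(star p) x, q y⟫_ℂ = ⟪x, p (q y)⟫_ℂ := ContinuousLinearMap.adjoint_inner_left p _ _
  rw [proj_star hp] at h2
  rw [h2]
  have : p (q y) = 0 := by
    have := congrArg (fun T : H →L[ℂ] H => T y) h
    simpa using this
  rw [this, inner_zero_right]

theorem orthFam {p : ι → (H →L[ℂ] H)} (hp : ∀ i, IsStarProjection (p i))
    (ho : ∀ i j, i ≠ j → p i * p j = 0) :
    OrthogonalFamily ℂ (fun i => (LinearMap.range (p i : H →ₗ[ℂ] H) : Submodule ℂ H))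
      (fun i => (LinearMap.range (p i : H →ₗ[ℂ] H)).subtypeₗᵢ) := by
  intro i j hij v w
  obtain ⟨v, v', hv⟩ := v
  obtain ⟨w, w', hw⟩ := w
  change ⟪v, w⟫_ℂ = 0
  rw [← hv, ← hw]
  exact inner_proj_orth (hp i) (ho i j hij) v' w'

theorem sum_proj {p : ι → (H →L[ℂ] H)} (hp : ∀ i, IsStarProjection (p i))
    (ho : ∀ i j, i ≠ j → p i * p j = 0) (s : Finset ι) : IsStarProjection (∑ i ∈ s, p i) := by
  classical
  refine ⟨?_, ?_⟩
  · change (∑ i ∈ s, p i) * (∑ i ∈ s, p i) = ∑ i ∈ s, p i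
    rw [Finset.sum_mul_sum]
    refine Finset.sum_congr rfl fun i hi => ?_
    rw [Finset.sum_eq_single i]
    · exact proj_mul (hp i)
    · intro j _ hj
      exact ho i j (Ne.symm hj)
    · intro h; exact absurd hi h
  · change star (∑ i ∈ s, p i) = ∑ i ∈ s, p i
    rw [star_sum]
    exact Finset.sum_congr rfl fun i _ => proj_star (hp i)

theorem norm_sq_sum {p y : ι → (H →L[ℂ] H)} (hp : ∀ i, IsStarProjection (p i))
    (ho : ∀ i j, i ≠ j → p i * p j = 0) (hy : ∀ i, p i * y i = y i) (ζ : H) (s : Finset ι) :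
    ‖∑ i ∈ s, y i ζ‖ ^ 2 = ∑ i ∈ s, ‖y i ζ‖ ^ 2 := by
  have hm : ∀ i, y i ζ ∈ LinearMap.range (p i : H →ₗ[ℂ] H) := fun i =>
    ⟨y i ζ, by
      have := congrArg (fun T : H →L[ℂ] H => T ζ) (hy i)
      simpa using this⟩
  exact (orthFam hp ho).norm_sum (fun i => ⟨y i ζ, hm i⟩) s

theorem bessel {p : ι → (H →L[ℂ] H)} (hp : ∀ i, IsStarProjection (p i))
    (ho : ∀ i j, i ≠ j → p i * p j = 0) (ζ : H) (s : Finset ι) :
    ∑ i ∈ s, ‖p i ζ‖ ^ 2 ≤ ‖ζ‖ ^ 2 := by
  rw [← norm_sq_sum hp ho (fun i => proj_mul (hp i)) ζ s]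
  have h1 := norm_proj_le (sum_proj hp ho s) ζ
  have h2 : (∑ i ∈ s, p i) ζ = ∑ i ∈ s, p i ζ := by
    simp
  rw [h2] at h1
  exact pow_le_pow_left₀ (norm_nonneg _) h1 2

/-- sums of operators over orthogonal blocks -/
theorem orthsum {p y : ι → (H →L[ℂ] H)} (hp : ∀ i, IsStarProjection (p i))
    (ho : ∀ i j, i ≠ j → p i * p j = 0) (hy1 : ∀ i, p i * y i = y i) (hy2 : ∀ i, y i * p i = y i)
    (C : ℝ) (hC : ∀ i, ‖y i‖ ≤ C) : ∃ Y : H →L[ℂ] H, ∀ ζ, HasSum (fun i => y i ζ) (Y ζ) := by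
  classical
  have hle : ∀ ζ i, ‖y i ζ‖ ^ 2 ≤ C ^ 2 * ‖p i ζ‖ ^ 2 := by
    intro ζ i
    have h1 : y i ζ = y i (p i ζ) := by
      have := congrArg (fun T : H →L[ℂ] H => T ζ) (hy2 i)
      simpa using this.symm
    have h2 : ‖y i ζ‖ ≤ C * ‖p i ζ‖ := by
      rw [h1]
      exact ((y i).le_opNorm _).trans (mul_le_mul_of_nonneg_right (hC i) (norm_nonneg _))
    calc ‖y i ζ‖ ^ 2 ≤ (C * ‖p i ζ‖) ^ 2 := pow_le_pow_left₀ (norm_nonneg _) h2 2
      _ = _ := by ring
  have hfin : ∀ ζ (s : Finset ι), ∑ i ∈ s, ‖y i ζ‖ ^ 2 ≤ C ^ 2 * ‖ζ‖ ^ 2 := by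
    intro ζ s
    calc ∑ i ∈ s, ‖y i ζ‖ ^ 2 ≤ ∑ i ∈ s, C ^ 2 * ‖p i ζ‖ ^ 2 := Finset.sum_le_sum fun i _ => hle ζ i
      _ = C ^ 2 * ∑ i ∈ s, ‖p i ζ‖ ^ 2 := by rw [Finset.mul_sum]
      _ ≤ _ := mul_le_mul_of_nonneg_left (bessel hp ho ζ s) (sq_nonneg _)
  have hsum : ∀ ζ, Summable (fun i => y i ζ) := by
    intro ζ
    have hm : ∀ i, y i ζ ∈ LinearMap.range (p i : H →ₗ[ℂ] H) := fun i =>
      ⟨y i ζ, by
        have := congrArg (fun T : H →L[ℂ] H => T ζ) (hy1 i)
        simpa using this⟩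
    have h2 : Summable (fun i => ‖(⟨y i ζ, hm i⟩ : LinearMap.range (p i : H →ₗ[ℂ] H))‖ ^ 2) :=
      summable_of_sum_le (fun i => sq_nonneg _) (c := C ^ 2 * ‖ζ‖ ^ 2) (fun s => by
        simpa using hfin ζ s)
    exact ((orthFam hp ho).summable_iff_norm_sq_summable (fun i => ⟨y i ζ, hm i⟩)).2 h2
  have hbd : ∀ ζ, ‖∑' i, y i ζ‖ ≤ |C| * ‖ζ‖ := by
    intro ζ
    refine le_of_tendsto ((hsum ζ).hasSum.norm) (Filter.Eventually.of_forall fun s => ?_)
    have h1 : ‖∑ i ∈ s, y i ζ‖ ^ 2 ≤ (|C| * ‖ζ‖) ^ 2 := by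
      rw [norm_sq_sum hp ho hy1 ζ s]
      calc _ ≤ _ := hfin ζ s
        _ = _ := by rw [mul_pow, sq_abs]
    exact le_of_sq_le_sq h1 (by positivity)
  refine ⟨LinearMap.mkContinuous
    { toFun := fun ζ => ∑' i, y i ζ
      map_add' := fun ζ η => by
        simp only [map_add]
        exact (hsum ζ).tsum_add (hsum η)
      map_smul' := fun c ζ => by
        simp only [map_smul, RingHom.id_apply]
        exact (hsum ζ).tsum_const_smul c } |C| hbd, fun ζ => ?_⟩
  exact (hsum ζ).hasSum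

end OrthSum

/-! ### The trick: sums over the translates of a projection -/

section Trick

/-- conjugation by `q.out`, for a coset `q` of the stabiliser -/
theorem cj_out {L : Subgroup A} {y : H →L[ℂ] H} (hy : ∀ a ∈ L, S a * y = y * S a) (a : A) :
    cj S ((a : A ⧸ L).out) y = cj S a y := by
  obtain ⟨l, hl⟩ := QuotientGroup.mk_out_eq_mul L a
  rw [hl, ← cj_cj, cj_eq_iff.2 (hy l.1 l.2)]

theorem trans_orth {L : Subgroup A} {e : H →L[ℂ] H}
    (ho : ∀ x, x ∉ L → e * cj S x e = 0) {i j : A ⧸ L} (hij : i ≠ j) :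
    cj S i.out e * cj S j.out e = 0 := by
  have h1 : i.out⁻¹ * j.out ∉ L := by
    intro h
    apply hij
    rw [← QuotientGroup.out_eq' i, ← QuotientGroup.out_eq' j]
    exact QuotientGroup.eq.2 h
  have h2 := congrArg (cj S i.out) (ho _ h1)
  rw [cj_mul, cj_cj, cj_zero, mul_inv_cancel_left] at h2
  exact h2

theorem exists_sum (h : Sys S R W) {L : Subgroup A} {V : Subgroup B}
    (hE : ∀ x ∈ Q S R W ⊤ V, ∃ c : ℂ, x = c • (1 : H →L[ℂ] H)) {e : H →L[ℂ] H}
    (he : Prj e) (ho : ∀ x, x ∉ L → e * cj S x e = 0) {y : H →L[ℂ] H}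
    (hy : y ∈ Q S R W L V) (hy1 : e * y = y) (hy2 : y * e = y) :
    ∃ c : ℂ, ∀ ζ, HasSum (fun q : A ⧸ L => cj S q.out y ζ) (c • ζ) := by
  obtain ⟨Y, hY⟩ := orthsum (p := fun q : A ⧸ L => cj S q.out e)
    (y := fun q : A ⧸ L => cj S q.out y) (fun q => cj_proj (sadj h) _ (isp he))
    (fun i j hij => trans_orth ho hij)
    (fun q => by rw [← cj_mul, hy1]) (fun q => by rw [← cj_mul, hy2]) ‖y‖ (fun q => by
      have hu : ∀ a, ‖S a‖ ≤ 1 := by
        intro a
        refine ContinuousLinearMap.opNorm_le_bound _ zero_le_one fun ζ => ?_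
        rw [one_mul, norm_S h]
      calc ‖cj S q.out y‖ ≤ ‖S q.out * y‖ * ‖S (q.out)⁻¹‖ := norm_mul_le _ _
        _ ≤ (‖S q.out‖ * ‖y‖) * ‖S (q.out)⁻¹‖ :=
          mul_le_mul_of_nonneg_right (norm_mul_le _ _) (norm_nonneg _)
        _ ≤ (1 * ‖y‖) * 1 := by gcongr <;> exact hu _
        _ = ‖y‖ := by ring)
  have hcoset : ∀ (a : A) (q : A ⧸ L), cj S a (cj S q.out y) = cj S ((a • q : A ⧸ L).out) y := by
    intro a q
    rw [cj_cj, ← cj_out hy.1 (a * q.out)]
    congr 2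
    rw [← smul_eq_mul, ← MulAction.Quotient.smul_coe, QuotientGroup.out_eq']
  have hYQ : Y ∈ Q S R W ⊤ V := by
    refine ⟨fun a _ => ?_, fun b hb => ?_, fun w hw => ?_⟩
    · rw [← cj_eq_iff]
      ext ζ
      have h1 : HasSum (fun q : A ⧸ L => cj S a (cj S q.out y) ζ) (cj S a Y ζ) := by
        have := (hY (S a⁻¹ ζ)).mapL (S a)
        exact this
      have h2 : HasSum (fun q : A ⧸ L => cj S ((a • q : A ⧸ L).out) y ζ) (Y ζ) :=
        ((MulAction.toPerm a : Equiv.Perm (A ⧸ L)).hasSum_iff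
          (f := fun q : A ⧸ L => cj S q.out y ζ)).2 (hY ζ)
      simp only [hcoset] at h1
      exact h1.unique h2
    · ext ζ
      have h1 : HasSum (fun q : A ⧸ L => R b (cj S q.out y ζ)) (R b (Y ζ)) := (hY ζ).mapL (R b)
      have h2 := hY (R b ζ)
      have h3 : ∀ q : A ⧸ L, R b (cj S q.out y ζ) = cj S q.out y (R b ζ) := by
        intro q
        have := (cjS_mem h hy q.out).2.1 b hb
        simpa using congrArg (fun T : H →L[ℂ] H => T ζ) this
      simp only [h3] at h1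
      exact h1.unique h2
    · ext ζ
      have h1 : HasSum (fun q : A ⧸ L => w (cj S q.out y ζ)) (w (Y ζ)) := (hY ζ).mapL w
      have h2 := hY (w ζ)
      have h3 : ∀ q : A ⧸ L, w (cj S q.out y ζ) = cj S q.out y (w ζ) := by
        intro q
        have := (cjS_mem h hy q.out).2.2 w hw
        simpa using congrArg (fun T : H →L[ℂ] H => T ζ) this
      simp only [h3] at h1
      exact h1.unique h2
  obtain ⟨c, hc⟩ := hE Y hYQ
  refine ⟨c, fun ζ => ?_⟩
  have := hY ζ
  rw [hc] at this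
  simpa using this

/-- the value of the sum on the block of `e` itself -/
theorem sum_block {L : Subgroup A} {e : H →L[ℂ] H}
    (ho : ∀ x, x ∉ L → e * cj S x e = 0) {y : H →L[ℂ] H}
    (hy : ∀ a ∈ L, S a * y = y * S a) (hy1 : e * y = y) {c : ℂ}
    (hc : ∀ ζ, HasSum (fun q : A ⧸ L => cj S q.out y ζ) (c • ζ)) : y = c • e := by
  ext ζ
  have h1 : HasSum (fun q : A ⧸ L => e (cj S q.out y ζ)) (e (c • ζ)) := (hc ζ).mapL e
  have h2 : HasSum (fun q : A ⧸ L => e (cj S q.out y ζ)) (e (cj S ((1 : A) : A ⧸ L).out y ζ)) := by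
    refine hasSum_single _ fun q hq => ?_
    have hx : q.out ∉ L := by
      intro hx
      apply hq
      rw [← QuotientGroup.out_eq' q]
      exact QuotientGroup.eq.2 (by simpa using hx)
    have h3 : e * cj S q.out y = 0 := by
      have : cj S q.out y = cj S q.out e * cj S q.out y := by rw [← cj_mul, hy1]
      rw [this, ← mul_assoc, ho _ hx, zero_mul]
    simpa using congrArg (fun T : H →L[ℂ] H => T ζ) h3
  have h3 := h1.unique h2
  rw [cj_out hy, cj_one'] at h3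
  have h4 : e (y ζ) = y ζ := by simpa using congrArg (fun T : H →L[ℂ] H => T ζ) hy1
  rw [h4] at h3
  rw [← h3]
  simp

/-- TRICK -/
theorem trick (h : Sys S R W) {L : Subgroup A} {V : Subgroup B}
    (hE : ∀ x ∈ Q S R W ⊤ V, ∃ c : ℂ, x = c • (1 : H →L[ℂ] H)) {e : H →L[ℂ] H}
    (he : Prj e) (heQ : e ∈ Q S R W L V)
    (ho : ∀ x, x ∉ L → e * cj S x e = 0) {y : H →L[ℂ] H}
    (hy : y ∈ Q S R W L V) : ∃ c : ℂ, e * y * e = c • e := by
  have h1 : e * (e * y * e) = e * y * e := by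
    rw [← mul_assoc, ← mul_assoc, he.idem]
  have h2 : e * y * e * e = e * y * e := by
    rw [mul_assoc, he.idem]
  have h3 : e * y * e ∈ Q S R W L V := Q_mul (Q_mul heQ hy) heQ
  obtain ⟨c, hc⟩ := exists_sum h hE he ho h3 h1 h2
  exact ⟨c, sum_block ho h3.1 h1 hc⟩

/-- the translates of `e` are a partition of unity -/
theorem partition (h : Sys S R W) {L : Subgroup A} {V : Subgroup B}
    (hE : ∀ x ∈ Q S R W ⊤ V, ∃ c : ℂ, x = c • (1 : H →L[ℂ] H)) {e : H →L[ℂ] H}
    (he : Prj e) (he0 : e ≠ 0) (heQ : e ∈ Q S R W L V)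
    (ho : ∀ x, x ∉ L → e * cj S x e = 0) (ζ : H) :
    HasSum (fun q : A ⧸ L => cj S q.out e ζ) ζ := by
  obtain ⟨c, hc⟩ := exists_sum h hE he ho heQ (he.idem) (he.idem)
  have h1 := sum_block ho heQ.1 (he.idem) hc
  have h2 : c = 1 := by
    by_contra hne
    apply he0
    have : (c - 1) • e = 0 := by rw [sub_smul, one_smul, ← h1, sub_self]
    exact (smul_eq_zero.1 this).resolve_left (sub_ne_zero.2 hne)
  simpa [h2] using hc ζ

/-- an operator killed by all translates of `e` is zero -/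
theorem eq_zero_of_trans (h : Sys S R W) {L : Subgroup A} {V : Subgroup B}
    (hE : ∀ x ∈ Q S R W ⊤ V, ∃ c : ℂ, x = c • (1 : H →L[ℂ] H)) {e : H →L[ℂ] H}
    (he : Prj e) (he0 : e ≠ 0) (heQ : e ∈ Q S R W L V)
    (ho : ∀ x, x ∉ L → e * cj S x e = 0) {y : H →L[ℂ] H} (hy : ∀ x, y * cj S x e = 0) : y = 0 := by
  ext ζ
  have h1 : HasSum (fun q : A ⧸ L => y (cj S q.out e ζ)) (y ζ) :=
    (partition h hE he he0 heQ ho ζ).mapL y
  have h2 : ∀ q : A ⧸ L, y (cj S q.out e ζ) = 0 := fun q => by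
    simpa using congrArg (fun T : H →L[ℂ] H => T ζ) (hy q.out)
  simp only [h2] at h1
  simpa using h1.unique hasSum_zero

end Trick

/-! ### COVER -/

section Cover

/-- the closed span of `X e H` -/
noncomputable def covK (X : Set (H →L[ℂ] H)) (e : H →L[ℂ] H) : Submodule ℂ H :=
  (Submodule.span ℂ {ζ : H | ∃ x ∈ X, ∃ η : H, ζ = x (e η)}).topologicalClosure

instance (X : Set (H →L[ℂ] H)) (e : H →L[ℂ] H) : (covK X e).HasOrthogonalProjection := by
  unfold covK; infer_instance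

/-- the projection onto the closed span of `X e H` -/
noncomputable def cov (X : Set (H →L[ℂ] H)) (e : H →L[ℂ] H) : H →L[ℂ] H :=
  (covK X e).starProjection

variable {X : Set (H →L[ℂ] H)} {e : H →L[ℂ] H}

theorem cov_prj : Prj (cov X e) := prj_of (isStarProjection_starProjection _)

theorem mem_covK {x : H →L[ℂ] H} (hx : x ∈ X) (η : H) : x (e η) ∈ covK X e :=
  Submodule.le_topologicalClosure _ (Submodule.subset_span ⟨x, hx, η, rfl⟩)

theorem cov_apply {x : H →L[ℂ] H} (hx : x ∈ X) (η : H) : cov X e (x (e η)) = x (e η) :=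
  Submodule.starProjection_eq_self_iff.2 (mem_covK hx η)

theorem cov_mul {x : H →L[ℂ] H} (hx : x ∈ X) : cov X e * (x * e) = x * e := by
  ext η; exact cov_apply hx η

/-- two continuous operators agreeing on `X e H` agree on the closed span -/
theorem covK_induction {T : H →L[ℂ] H} (h : ∀ x ∈ X, ∀ η, T (x (e η)) = 0) :
    ∀ k ∈ covK X e, T k = 0 := by
  have h1 : covK X e ≤ LinearMap.ker (T : H →ₗ[ℂ] H) := by
    refine Submodule.topologicalClosure_minimal _ ?_ (T.isClosed_ker)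
    rw [Submodule.span_le]
    rintro _ ⟨x, hx, η, rfl⟩
    exact h x hx η
  exact fun k hk => h1 hk

/-- an operator mapping `X e H` into the closed span preserves it -/
theorem covK_map {T : H →L[ℂ] H} {K : Submodule ℂ H} (hK : IsClosed (K : Set H))
    (h : ∀ x ∈ X, ∀ η, T (x (e η)) ∈ K) : ∀ k ∈ covK X e, T k ∈ K := by
  have h1 : covK X e ≤ K.comap (T : H →ₗ[ℂ] H) := by
    refine Submodule.topologicalClosure_minimal _ ?_ (hK.preimage T.continuous)
    rw [Submodule.span_le]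
    rintro _ ⟨x, hx, η, rfl⟩
    exact h x hx η
  exact fun k hk => h1 hk

theorem covK_closed : IsClosed (covK X e : Set H) := Submodule.isClosed_topologicalClosure _

theorem cov_comm {T : H →L[ℂ] H} (h1 : ∀ x ∈ X, ∀ η, T (x (e η)) ∈ covK X e)
    (h2 : ∀ x ∈ X, ∀ η, (star T) (x (e η)) ∈ covK X e) : T * cov X e = cov X e * T :=
  comm_proj _ T (covK_map covK_closed h1) (covK_map covK_closed h2)

/-- the cover commutes with `X` -/
theorem cov_comm_mem (hm : ∀ x ∈ X, ∀ y ∈ X, x * y ∈ X) (hs : ∀ x ∈ X, star x ∈ X)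
    {y : H →L[ℂ] H} (hy : y ∈ X) : y * cov X e = cov X e * y :=
  cov_comm (fun x hx η => mem_covK (hm y hy x hx) η) (fun x hx η => mem_covK (hm _ (hs y hy) x hx) η)

/-- the cover commutes with every `T` which normalises `X` and commutes with `e` -/
theorem cov_comm_norm {T : H →L[ℂ] H} (h1 : ∀ x ∈ X, ∃ x' ∈ X, T * x = x' * T)
    (h2 : ∀ x ∈ X, ∃ x' ∈ X, star T * x = x' * star T) (he : T * e = e * T)
    (he' : star T * e = e * star T) : T * cov X e = cov X e * T := by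
  refine cov_comm (fun x hx η => ?_) (fun x hx η => ?_)
  · obtain ⟨x', hx', h⟩ := h1 x hx
    have : T (x (e η)) = x' (e (T η)) := by
      have e1 : T (x (e η)) = x' (T (e η)) := congrArg (fun A : H →L[ℂ] H => A (e η)) h
      have e2 : T (e η) = e (T η) := congrArg (fun A : H →L[ℂ] H => A η) he
      rw [e1, e2]
    rw [this]
    exact mem_covK hx' _
  · obtain ⟨x', hx', h⟩ := h2 x hx
    have : (star T) (x (e η)) = x' (e ((star T) η)) := by
      have e1 : (star T) (x (e η)) = x' ((star T) (e η)) :=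
        congrArg (fun A : H →L[ℂ] H => A (e η)) h
      have e2 : (star T) (e η) = e ((star T) η) := congrArg (fun A : H →L[ℂ] H => A η) he'
      rw [e1, e2]
    rw [this]
    exact mem_covK hx' _

theorem cov_mul_self (h1 : (1 : H →L[ℂ] H) ∈ X) : cov X e * e = e := by
  have := cov_mul (e := e) h1
  rwa [one_mul] at this

theorem self_mul_cov (h1 : (1 : H →L[ℂ] H) ∈ X) (he : Prj e) : e * cov X e = e := by
  have h2 := congrArg star (cov_mul_self (e := e) h1)
  rw [star_mul, proj_star (isp he), proj_star (isp cov_prj)] at h2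
  exact h2

theorem cov_ne_zero (h1 : (1 : H →L[ℂ] H) ∈ X) (he : e ≠ 0) : cov X e ≠ 0 := by
  intro h
  apply he
  rw [← cov_mul_self (e := e) h1, h, zero_mul]

/-- an operator vanishing on `X e H` vanishes on the cover -/
theorem mul_cov_zero {T : H →L[ℂ] H} (h : ∀ x ∈ X, T * x * e = 0) : T * cov X e = 0 := by
  ext ζ
  exact covK_induction (fun x hx η => congrArg (fun A : H →L[ℂ] H => A η) (h x hx)) _
    (Submodule.starProjection_apply_mem _ ζ)

theorem mul_cov_eq {T T' : H →L[ℂ] H} (h : ∀ x ∈ X, T * x * e = T' * x * e) :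
    T * cov X e = T' * cov X e := by
  have := mul_cov_zero (X := X) (e := e) (T := T - T') (fun x hx => by
    rw [sub_mul, sub_mul, h x hx, sub_self])
  rwa [sub_mul, sub_eq_zero] at this

/-- if `c` commutes with `X` and `c e = 0` then `c` kills the cover -/
theorem cov_zero {c : H →L[ℂ] H} (hc : ∀ x ∈ X, x * c = c * x) (h : c * e = 0) :
    c * cov X e = 0 :=
  mul_cov_zero fun x hx => by rw [← hc x hx, mul_assoc, h, mul_zero]

/-- if `c` commutes with `X` and `c e = e` then `c` dominates the cover -/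
theorem cov_le {c : H →L[ℂ] H} (hc : ∀ x ∈ X, x * c = c * x) (h : c * e = e) :
    c * cov X e = cov X e := by
  have := mul_cov_eq (X := X) (e := e) (T := c) (T' := 1) (fun x hx => by
    rw [← hc x hx, mul_assoc, h, one_mul])
  rwa [one_mul] at this

end Cover

end Vale.Agent.P092.H729
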