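import Vale.Agent.P092.H729.Zo

/-!
P092 (helper729), Team N, block [N-RK]: (a) and (b) of #5439 (2), and the 0-1 laws, in the letters
of H618.RkData and H560.RkDefs.
-/

set_option linter.unusedSectionVars false
set_option linter.unusedVariables false

namespace Vale.Agent.P092.H729.Rk

open scoped InnerProductSpace
open ContinuousLinearMap

section general

variable {K : Type*} [NormedAddCommGroup K] [InnerProductSpace ℂ K] [CompleteSpace K]

/-- a closed subspace which contains the ranges of all `e u`, `u` with small support, is all. -/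
theorem top_of_local {Y : Type*} [TopologicalSpace Y] [CompactSpace Y] [T2Space Y]
    (e : C(Y, ℂ) →⋆ₐ[ℂ] (K →L[ℂ] K)) {V : Submodule ℂ K} (hV : IsClosed (V : Set K))
    (h : ∀ y : Y, ∃ C : Set Y, IsClosed C ∧ y ∉ C ∧
      ∀ u : C(Y, ℂ), Disjoint (tsupport u) C → ∀ ξ, e u ξ ∈ V) : V = ⊤ := by
  refine eq_top_of_orth hV ?_
  rw [eq_bot_iff]
  intro ζ hζ
  rw [Submodule.mem_bot]
  by_contra hne
  have h1 : ¬ ∀ z ∈ vs e ζ, (1 : C(Y, ℂ)) z = 0 := by
    intro hc
    have := (vs_iff e ζ 1).2 hc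
    rw [map_one] at this
    exact hne this
  push Not at h1
  obtain ⟨y, hy, _⟩ := h1
  obtain ⟨C, hC, hyC, hu⟩ := h y
  obtain ⟨u, hu1, hu2⟩ := exists_bump hC hyC
  have h2 : e u ζ = 0 := by
    have h3 : ((‖e u ζ‖ ^ 2 : ℝ) : ℂ) = ⟪e (star u * u) ζ, ζ⟫_ℂ := by
      have e1 : ((‖e u ζ‖ ^ 2 : ℝ) : ℂ) = ⟪e u ζ, e u ζ⟫_ℂ := by
        rw [inner_self_eq_norm_sq_to_K]; norm_cast
      rw [e1, map_mul, map_star, star_eq_adjoint]
      change _ = ⟪adjoint (e u) (e u ζ), ζ⟫_ℂ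
      rw [adjoint_inner_left]
    have h4 : e (star u * u) ζ ∈ V := by
      refine hu _ ?_ ζ
      refine Disjoint.mono_left ?_ hu2
      refine closure_mono fun x hx => ?_
      intro h0
      apply hx
      change star (u x) * u x = 0
      rw [h0, mul_zero]
    have h5 : ⟪e (star u * u) ζ, ζ⟫_ℂ = 0 := (Submodule.mem_orthogonal _ _).1 hζ _ h4
    rw [h5] at h3
    have h6 : ‖e u ζ‖ ^ 2 = 0 := by exact_mod_cast h3
    exact norm_eq_zero.1 (pow_eq_zero_iff (two_ne_zero) |>.1 h6)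
  have := hy u h2
  rw [hu1] at this
  exact one_ne_zero this

theorem tsupport_star {Y : Type*} [TopologicalSpace Y] (u : C(Y, ℂ)) :
    tsupport (star u : C(Y, ℂ)) ⊆ tsupport u := by
  refine closure_mono fun x hx h0 => hx ?_
  change star (u x) = 0
  rw [h0, star_zero]

end general

section data

variable {K : Type} [NormedAddCommGroup K] [InnerProductSpace ℂ K] [CompleteSpace K] {N : ℕ}
  {Y : ℕ → Type} [∀ d, MetricSpace (Y d)] [∀ d, CompactSpace (Y d)]
  {I : ∀ i j, Y i → Y j → Prop} {S : ℕ → Type} {R' : ∀ i j, S i → S j → Prop}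
  {Γ H : Type} [Group Γ] [Group H] [∀ d, MulAction Γ (Y d)]
  [∀ d, ContinuousConstSMul Γ (Y d)] [∀ j, MulAction H (S j)]
  {lamG : Γ →* (K →L[ℂ] K)} {π : H →* (K →L[ℂ] K)} {W : Set (K →L[ℂ] K)}
  {lam : S N → (C(Y N, ℂ) →⋆ₐ[ℂ] (K →L[ℂ] K))}
  {bet : S 1 → (C(Y 1, ℂ) →⋆ₐ[ℂ] (K →L[ℂ] K))}

theorem hyp_closed (D : H618.RkData N I R' Γ H lamG π W lam bet) (d : ℕ) {O : Set (Y d)}
    (hO : IsClosed O) : IsClosed (hyp (I d N) O) :=
  isClosed_hyp (D.tgeo.closed d N) hO

/-- words lie in the word algebra -/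
theorem word_mem_WA {j : ℕ} (X : S j) {T : K →L[ℂ] K}
    (hT : T ∈ Submonoid.closure (Sx lam (JX (N := N) R' X))) :
    T ∈ H618.WA (Y := Y) R' lam X := by
  induction hT using Submonoid.closure_induction with
  | mem a ha =>
    obtain ⟨M, hM, f, rfl⟩ := ha
    exact StarAlgebra.subset_adjoin ℂ _ ⟨M, f, hM, rfl⟩
  | one => exact one_mem _
  | mul x y _ _ hx hy => exact mul_mem hx hy

/-- (b), main point: `Ran β_c(u) ⊆ R[c](hyperplanes meeting U)` -/
theorem bet_mem (D : H618.RkData N I R' Γ H lamG π W lam bet) (c : S 1) {u : C(Y 1, ℂ)}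
    {U : Set (Y 1)} (hU : IsClosed U) (hu : tsupport u ⊆ U) (ξ : K) :
    bet c u ξ ∈ R lam (JX R' c) (hyp (I 1 N) U) := by
  refine mem_R_of_tsupport (hyp_closed D 1 hU) fun T hT M hM h hh => ?_
  have hw := D.w0 c (star T) (star_mem (word_mem_WA c hT)) M hM (star u) (star h) (by
    intro x hx y hy hI
    exact (Set.disjoint_left.1 hh) (tsupport_star h hy) ⟨x, hu (tsupport_star u hx), hI⟩)
  have h2 := congrArg star hw
  rw [star_mul, star_mul, star_star, star_zero, map_star, map_star, star_star, star_star] at h2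
  exact congrArg (fun A : K →L[ℂ] K => A ξ) h2

theorem bet_pj (D : H618.RkData N I R' Γ H lamG π W lam bet) (c : S 1) {u : C(Y 1, ℂ)}
    {U : Set (Y 1)} (hU : IsClosed U) (hu : tsupport u ⊆ U) :
    pj (R lam {M | R' 1 N c M} (H560.hat (I 1 N) U)) * bet c u = bet c u := by
  ext ξ
  exact pj_self (bet_mem D c hU hu ξ)

/-- small closed balls -/
theorem ball_sm {Y : Type*} [PseudoMetricSpace Y] (y : Y) {ε : ℝ} (hε : 0 < ε) :
    Metric.closedBall y (ε / 2) ∈ Sm (Y := Y) ε := by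
  refine ⟨Metric.isClosed_closedBall, fun a ha b hb => ?_⟩
  calc dist a b ≤ dist a y + dist b y := dist_triangle_right _ _ _
    _ ≤ ε / 2 + ε / 2 := add_le_add ha hb
    _ = ε := by ring

/-- general form of (a), (b): a calculus `e` whose small values lie in the `R (hyp O)` -/
theorem q_top_of {d j : ℕ} (X : S j) (e : C(Y d, ℂ) →⋆ₐ[ℂ] (K →L[ℂ] K))
    (he : ∀ (U : Set (Y d)), IsClosed U → ∀ u : C(Y d, ℂ), tsupport u ⊆ U → ∀ ξ,
      e u ξ ∈ R lam (JX R' X) (hyp (I d N) U)) : q lam (JX (N := N) R' X) (I d N) = ⊤ := by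
  unfold q G
  rw [eq_top_iff]
  refine le_iInf fun ε => ?_
  rw [top_of_local e (isClosed_Qb (lm := lam) (J := JX R' X) (I d N) Set.univ ε.1) fun y => ?_]
  refine ⟨(Metric.ball y (ε.1 / 2))ᶜ, Metric.isOpen_ball.isClosed_compl, ?_, fun u hu ξ => ?_⟩
  · intro h
    exact h (Metric.mem_ball_self (half_pos ε.2))
  · have h1 : tsupport u ⊆ Metric.closedBall y (ε.1 / 2) := by
      intro x hx
      have : x ∈ Metric.ball y (ε.1 / 2) := by
        by_contra hc
        exact (Set.disjoint_left.1 hu) hx hc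
      exact Metric.ball_subset_closedBall this
    refine le_sp (fun O : {O : Set (Y d) // O ∈ Sm (Y := Y d) ε.1 ∧ (O ∩ Set.univ).Nonempty} =>
      R lam (JX R' X) (hyp (I d N) O.1)) ⟨Metric.closedBall y (ε.1 / 2), ball_sm y ε.2, ?_⟩
      (he _ Metric.isClosed_closedBall u h1 ξ)
    exact ⟨y, Metric.mem_closedBall_self (half_pos ε.2).le, trivial⟩

/-- (b) -/
theorem q_pt (D : H618.RkData N I R' Γ H lamG π W lam bet) (c : S 1) :
    q lam (JX (N := N) R' c) (I 1 N) = ⊤ :=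
  q_top_of c (bet c) fun _ hU _ hu ξ => bet_mem D c hU hu ξ

theorem full_pt (D : H618.RkData N I R' Γ H lamG π W lam bet) (c : S 1) :
    H560.Full (fun C : Set (Y N) => pj (R lam {M | R' 1 N c M} C)) (I 1 N) :=
  full_of_top (JX_nonempty D le_rfl D.hN c) (q_pt D c)

/-- (b) for all subspaces: `d_j ≥ 1` -/
theorem q_one (D : H618.RkData N I R' Γ H lamG π W lam bet) {j : ℕ} (h1 : 1 ≤ j)
    (hj : j ≤ N) (X : S j) : q lam (JX (N := N) R' X) (I 1 N) = ⊤ := by
  obtain ⟨c, hc⟩ := D.sgeo.pnt j h1 hj X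
  exact q_top_mono D hc (q_pt D c)

/-! ### The hyperplanes -/

theorem JX_top (D : H618.RkData N I R' Γ H lamG π W lam bet) (M : S N) :
    JX (N := N) R' M = {M} := by
  ext M'
  change R' N N M M' ↔ M' = M
  rw [D.sgeo.refl]
  exact eq_comm

theorem hyp_top (D : H618.RkData N I R' Γ H lamG π W lam bet) (O : Set (Y N)) :
    hyp (I N N) O = O := by
  ext z
  constructor
  · rintro ⟨y, hy, h⟩
    rwa [← (D.tgeo.refl N y z).1 h]
  · intro hz
    exact ⟨z, hz, (D.tgeo.refl N z z).2 rfl⟩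

theorem comm_word_top {M : S N} {T : K →L[ℂ] K}
    (hT : T ∈ Submonoid.closure (Sx lam ({M} : Set (S N)))) (h : C(Y N, ℂ)) :
    lam M h * T = T * lam M h := by
  refine comm_word ?_ hT
  rintro _ ⟨M', hM', f, rfl⟩
  rw [Set.mem_singleton_iff.1 hM', ← map_mul, ← map_mul, mul_comm]

/-- `R` of a hyperplane is the spectral subspace -/
theorem mem_R_top {M : S N} {C : Set (Y N)} {ξ : K} :
    ξ ∈ R lam ({M} : Set (S N)) C ↔ ∀ h : C(Y N, ℂ), (∀ z ∈ C, h z = 0) → lam M h ξ = 0 := by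
  constructor
  · intro h f hf
    exact h 1 (Submonoid.one_mem _) M rfl f hf
  · intro h T hT M' hM' f hf
    rw [Set.mem_singleton_iff.1 hM']
    have := congrArg (fun A : K →L[ℂ] K => A ξ) (comm_word_top hT f)
    change lam M f (T ξ) = T (lam M f ξ) at this
    rw [this, h f hf, map_zero]

theorem lam_mem_R {M : S N} {C : Set (Y N)} {f : C(Y N, ℂ)} (hf : ∀ z ∉ C, f z = 0) (ξ : K) :
    lam M f ξ ∈ R lam ({M} : Set (S N)) C := by
  rw [mem_R_top]
  intro h hh
  have : h * f = 0 := by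
    ext z
    change h z * f z = 0
    by_cases hz : z ∈ C
    · rw [hh z hz, zero_mul]
    · rw [hf z hz, mul_zero]
  have e : lam M h (lam M f ξ) = lam M (h * f) ξ := by rw [map_mul]; rfl
  rw [e, this, map_zero]; rfl

theorem lam_mem (D : H618.RkData N I R' Γ H lamG π W lam bet) (M : S N) {U : Set (Y N)}
    {u : C(Y N, ℂ)} (hu : tsupport u ⊆ U) (ξ : K) :
    lam M u ξ ∈ R lam (JX R' M) (hyp (I N N) U) := by
  rw [JX_top D, hyp_top D]
  refine lam_mem_R (fun z hz => ?_) ξ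
  by_contra hne
  exact hz (hu (subset_tsupport _ hne))

/-- (a) -/
theorem q_hyp (D : H618.RkData N I R' Γ H lamG π W lam bet) (M : S N) :
    q lam (JX (N := N) R' M) (I N N) = ⊤ :=
  q_top_of M (lam M) fun _ _ _ hu ξ => lam_mem D M hu ξ

theorem full_top (D : H618.RkData N I R' Γ H lamG π W lam bet) (M : S N) :
    H560.Full (fun C : Set (Y N) => pj (R lam {M' | R' N N M M'} C)) (I N N) :=
  full_of_top (JX_nonempty D D.hN le_rfl M) (q_hyp D M)

theorem lam_pj (D : H618.RkData N I R' Γ H lamG π W lam bet) (M : S N) {U : Set (Y N)}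
    {u : C(Y N, ℂ)} (hu : tsupport u ⊆ U) :
    pj (R lam {M' | R' N N M M'} (H560.hat (I N N) U)) * lam M u = lam M u := by
  ext ξ
  exact pj_self (lam_mem D M hu ξ)

end data

end Vale.Agent.P092.H729.Rk
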