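import Vale.Agent.P092.H729.Rk2
import Vale.Agent.P092.H560.RkDefs
import Vale.Agent.P092.H618.RkDefs

/-!
P092 (helper729), Team N, block [N-RK]: the 0-1 law [ZO] in the letters of H560.RkDefs and
H618.RkDefs.  `pX lam J C` = projection onto `R lam J C`.
-/

set_option linter.unusedSectionVars false
set_option linter.unusedVariables false

namespace Vale.Agent.P092.H729.Rk

open scoped InnerProductSpace
open ContinuousLinearMap

section general

variable {K : Type*} [NormedAddCommGroup K] [InnerProductSpace ℂ K] [CompleteSpace K]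
variable {Z : Type*} [TopologicalSpace Z] [CompactSpace Z] [T2Space Z]
variable {ι : Type*} {lm : ι → (C(Z, ℂ) →⋆ₐ[ℂ] (K →L[ℂ] K))} {J J' : Set ι}

theorem pj_top : pj (⊤ : Submodule ℂ K) = 1 := by
  ext x; exact pj_self trivial

theorem pj_bot : pj (⊥ : Submodule ℂ K) = 0 := by
  ext x
  have h0 : pj (⊥ : Submodule ℂ K) x ∈ (⊥ : Submodule ℂ K) := by
    apply pj_mem
    rw [Submodule.bot_coe]
    exact isClosed_singleton
  exact (Submodule.mem_bot ℂ).1 h0

/-- (i) the family of the projections of the closed sets -/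
theorem cpv (hJ : J.Nonempty) : H560.CPV (fun C : Set Z => pj (R lm J C)) := by
  refine ⟨fun C _ => pj_adj _, fun C D hC hD => ?_, ?_, ?_⟩
  · rw [pj_inf (R_closed C) (R_closed D) (Good.comm Sx_star (good_R C) (good_R D)),
      R_inter hC hD]
  · rw [R_univ, pj_top]
  · rw [R_empty hJ, pj_bot]

/-- (iii) fewer hyperplanes -/
theorem pj_R_le (h : J' ⊆ J) (C : Set Z) :
    pj (R lm J' C) * pj (R lm J C) = pj (R lm J C) := by
  ext x
  exact pj_self (R_anti h C (pj_mem (R_closed C) x))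

theorem pj_R_comm (h : J' ⊆ J) (C D : Set Z) :
    pj (R lm J C) * pj (R lm J' D) = pj (R lm J' D) * pj (R lm J C) :=
  Good.comm₂ Sx_star Sx_star (Sx_mono h) (good_R C) (good_R D)

theorem pj_R_le' (h : J' ⊆ J) (C : Set Z) :
    pj (R lm J C) * pj (R lm J' C) = pj (R lm J C) := by
  rw [pj_R_comm h, pj_R_le h]

theorem commute_R (h : J' ⊆ J) (C D : Set Z) :
    Commute (pj (R lm J C)) (pj (R lm J' D)) := pj_R_comm h C D

/-- `T` commuting with all `lm i f`, `i ∈ J`, commutes with the projections -/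
theorem commute_pj_R {T : K →L[ℂ] K} (hT : ∀ i ∈ J, ∀ f, T * lm i f = lm i f * T) (C : Set Z) :
    Commute T (pj (R lm J C)) := by
  refine ((good_R C).pj_comm_c Sx_star (b := T) ?_).symm
  rintro _ ⟨i, hi, f, rfl⟩
  exact hT i hi f

theorem lm_commute_pj_R {i : ι} (hi : i ∈ J) (f : C(Z, ℂ)) (C : Set Z) :
    Commute (lm i f) (pj (R lm J C)) :=
  ((good_R C).pj_comm_S Sx_star _ (mem_Sx hi f)).symm

variable {Y : Type*} [MetricSpace Y]

theorem hat_eq (I : Y → Z → Prop) (O : Set Y) : H560.hat I O = hyp I O := rfl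

/-- `NN` is the orthogonal complement of `Qb` -/
theorem mem_NN_iff (hJ : J.Nonempty) (I : Y → Z → Prop) (ε : ℝ) (ζ : K) :
    ζ ∈ H560.NN (fun C : Set Z => pj (R lm J C)) I ε ↔ ζ ∈ (Qb lm J I Set.univ ε)ᗮ := by
  rw [H560.mem_NN, Submodule.mem_orthogonal]
  constructor
  · intro h u hu
    have key : ∀ v ∈ Qb lm J I Set.univ ε, ⟪ζ, v⟫_ℂ = 0 := by
      intro v hv
      have := map_sp (W := (⊥ : Submodule ℂ ℂ)) (by rw [Submodule.bot_coe]; exact isClosed_singleton)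
        (innerSL ℂ ζ) (V := fun O : {O : Set Y // O ∈ Sm (Y := Y) ε ∧ (O ∩ Set.univ).Nonempty} =>
          R lm J (hyp I O.1)) (fun O w hw => ?_) v hv
      · exact (Submodule.mem_bot ℂ).1 this
      · rw [Submodule.mem_bot]
        change ⟪ζ, w⟫_ℂ = 0
        have e : pj (R lm J (hyp I O.1)) ζ = 0 := h O.1 O.2.1
        rw [← pj_self hw, ← pj_symm, e, inner_zero_left]
    have := key u hu
    rw [← inner_conj_symm, this, map_zero]
  · intro h O hO
    rcases O.eq_empty_or_nonempty with rfl | hne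
    · have : H560.hat I ∅ = ∅ := by
        ext z; simp [H560.hat]
      change pj (R lm J (H560.hat I ∅)) ζ = 0
      rw [this, R_empty hJ, pj_bot]; rfl
    · have hm : ∀ w ∈ R lm J (hyp I O), w ∈ Qb lm J I Set.univ ε := by
        intro w hw
        exact le_sp (fun O : {O : Set Y // O ∈ Sm (Y := Y) ε ∧ (O ∩ Set.univ).Nonempty} =>
          R lm J (hyp I O.1)) ⟨O, hO, by rwa [Set.inter_univ]⟩ hw
      change pj (R lm J (hyp I O)) ζ = 0
      have h1 := h _ (hm _ (pj_mem (R_closed _) ζ))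
      have h2 : ⟪pj (R lm J (hyp I O)) ζ, pj (R lm J (hyp I O)) ζ⟫_ℂ = 0 := by
        rw [← pj_symm, pj_self (pj_mem (R_closed _) ζ)]
        exact h1
      exact inner_self_eq_zero.1 h2

theorem isClosed_Qb (I : Y → Z → Prop) (B : Set Y) (ε : ℝ) :
    IsClosed (Qb lm J I B ε : Set K) := isClosed_sp _

theorem full_of_top (hJ : J.Nonempty) {I : Y → Z → Prop} (h : q lm J I = ⊤) :
    H560.Full (fun C : Set Z => pj (R lm J C)) I := by
  intro ε hε
  rw [eq_bot_iff]
  intro ζ hζ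
  rw [mem_NN_iff hJ] at hζ
  have h1 : Qb lm J I Set.univ ε = ⊤ := by
    rw [eq_top_iff, ← h]
    exact G_le_Qb hε
  rw [h1, Submodule.top_orthogonal_eq_bot] at hζ
  exact hζ

theorem top_of_full (hJ : J.Nonempty) {I : Y → Z → Prop}
    (h : H560.Full (fun C : Set Z => pj (R lm J C)) I) : q lm J I = ⊤ := by
  rw [eq_top_iff]
  unfold q G
  refine le_iInf fun ε => ?_
  have h1 := h ε.1 ε.2
  have h2 : (Qb lm J I Set.univ ε.1)ᗮ = ⊥ := by
    rw [eq_bot_iff, ← h1]
    intro ζ hζ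
    rwa [mem_NN_iff hJ]
  rw [eq_top_of_orth (isClosed_Qb _ _ _) h2]

theorem null_of_bot (hJ : J.Nonempty) {I : Y → Z → Prop} (h : q lm J I = ⊥) :
    H560.Null (fun C : Set Z => pj (R lm J C)) I := by
  intro ζ κ hκ
  set V : {ε : ℝ // 0 < ε} → Submodule ℂ K := fun ε => (Qb lm J I Set.univ ε.1)ᗮ with hV
  have hd : Directed (· ≤ ·) V := by
    intro a b
    refine ⟨⟨min a.1 b.1, lt_min a.2 b.2⟩, ?_, ?_⟩
    · exact Submodule.orthogonal_le (Qb_mono subset_rfl (min_le_left _ _))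
    · exact Submodule.orthogonal_le (Qb_mono subset_rfl (min_le_right _ _))
  have : Nonempty {ε : ℝ // 0 < ε} := ⟨⟨1, one_pos⟩⟩
  have htop : (⨆ ε, V ε).topologicalClosure = ⊤ := by
    rw [Submodule.topologicalClosure_eq_top_iff, ← Submodule.iInf_orthogonal]
    rw [eq_bot_iff, ← h]
    unfold q G
    refine le_iInf fun ε => (iInf_le _ ε).trans ?_
    have : ((Qb lm J I Set.univ ε.1)ᗮ)ᗮ = (Qb lm J I Set.univ ε.1).topologicalClosure :=
      Submodule.orthogonal_orthogonal_eq_closure _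
    rw [hV]
    change ((Qb lm J I Set.univ ε.1)ᗮ)ᗮ ≤ _
    rw [this, cl_eq (isClosed_Qb _ _ _)]
  have hmem : ζ ∈ closure ((⨆ ε, V ε : Submodule ℂ K) : Set K) := by
    have : ζ ∈ (⨆ ε, V ε).topologicalClosure := htop ▸ trivial
    exact this
  obtain ⟨ζ', hζ', hlt⟩ := Metric.mem_closure_iff.1 hmem κ hκ
  obtain ⟨ε, hε⟩ := (Submodule.mem_iSup_of_directed V hd).1 hζ'
  refine ⟨ε.1, ε.2, ζ', (mem_NN_iff hJ I ε.1 ζ').2 hε, ?_⟩
  rw [← dist_eq_norm]
  exact hlt.le

end general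

section data

variable {K : Type} [NormedAddCommGroup K] [InnerProductSpace ℂ K] [CompleteSpace K] {N : ℕ}
  {Y : ℕ → Type} [∀ d, MetricSpace (Y d)] [∀ d, CompactSpace (Y d)]
  {I : ∀ i j, Y i → Y j → Prop} {S : ℕ → Type} {R' : ∀ i j, S i → S j → Prop}
  {Γ H : Type} [Group Γ] [Group H] [∀ d, MulAction Γ (Y d)]
  [∀ d, ContinuousConstSMul Γ (Y d)] [∀ j, MulAction H (S j)]
  {lamG : Γ →* (K →L[ℂ] K)} {π : H →* (K →L[ℂ] K)} {W : Set (K →L[ℂ] K)}
  {lam : S N → (C(Y N, ℂ) →⋆ₐ[ℂ] (K →L[ℂ] K))}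
  {bet : S 1 → (C(Y 1, ℂ) →⋆ₐ[ℂ] (K →L[ℂ] K))}

/-- the hyperplanes of the source through `X` -/
def JX (R' : ∀ i j, S i → S j → Prop) {j : ℕ} (X : S j) : Set (S N) := {M | R' j N X M}

theorem JX_nonempty (D : H618.RkData N I R' Γ H lamG π W lam bet) {j : ℕ} (h1 : 1 ≤ j)
    (hj : j ≤ N) (X : S j) : (JX (N := N) R' X).Nonempty := D.sgeo.hyp j h1 hj X

theorem JX_anti (D : H618.RkData N I R' Γ H lamG π W lam bet) {i j : ℕ} {X : S i} {X' : S j}
    (h : R' i j X X') : JX (N := N) R' X' ⊆ JX R' X :=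
  fun M hM => D.sgeo.trans i j N X X' M h hM

theorem lam_pi (D : H618.RkData N I R' Γ H lamG π W lam bet) (g : H) (M : S N)
    (f : C(Y N, ℂ)) (ξ : K) : lam M f (π g ξ) = π g (lam (g⁻¹ • M) f ξ) := by
  have h := D.covπ g (g⁻¹ • M) f
  rw [smul_inv_smul] at h
  rw [← h]
  have h2 : π g⁻¹ * π g = 1 := by rw [← map_mul, inv_mul_cancel, map_one]
  have : (π g * lam (g⁻¹ • M) f * π g⁻¹) (π g ξ) =
      π g (lam (g⁻¹ • M) f ((π g⁻¹ * π g) ξ)) := rfl
  rw [this, h2]; rfl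

theorem lam_gam (D : H618.RkData N I R' Γ H lamG π W lam bet) (γ : Γ) (M : S N)
    (f : C(Y N, ℂ)) (ξ : K) :
    lam M f (lamG γ ξ) = lamG γ (lam M (f.comp ⟨fun y => γ • y, continuous_const_smul γ⟩) ξ) := by
  have h := D.covG γ M (f.comp ⟨fun y => γ • y, continuous_const_smul γ⟩)
  have e : ((f.comp ⟨fun y => γ • y, continuous_const_smul γ⟩).comp
      ⟨fun y => γ⁻¹ • y, continuous_const_smul γ⁻¹⟩) = f := by
    ext y
    change f (γ • γ⁻¹ • y) = f y
    rw [smul_inv_smul]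
  rw [e] at h
  have h2 : lamG γ⁻¹ * lamG γ = 1 := by rw [← map_mul, inv_mul_cancel, map_one]
  rw [← h]
  have : (lamG γ * lam M (f.comp ⟨fun y => γ • y, continuous_const_smul γ⟩) * lamG γ⁻¹)
      (lamG γ ξ) = lamG γ (lam M (f.comp ⟨fun y => γ • y, continuous_const_smul γ⟩)
        ((lamG γ⁻¹ * lamG γ) ξ)) := rfl
  rw [this, h2]; rfl

/-- covariance of `R` under `π g` -/
theorem R_pi (D : H618.RkData N I R' Γ H lamG π W lam bet) (g : H) {j : ℕ} (X : S j)
    (C : Set (Y N)) : ∀ ζ ∈ R lam (JX R' X) C, π g ζ ∈ R lam (JX R' (g • X)) C := by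
  refine R_map (π g) (fun M => g⁻¹ • M) (ContinuousMap.id _) (fun M hM => ?_) (fun M _ f ξ => ?_)
    fun z hz => hz
  · have := D.sgeo.act g⁻¹ j N (g • X) M hM
    rwa [inv_smul_smul] at this
  · rw [ContinuousMap.comp_id]
    exact lam_pi D g M f ξ

/-- covariance of `R` under `lamG γ` -/
theorem R_gam (D : H618.RkData N I R' Γ H lamG π W lam bet) (γ : Γ) {j : ℕ} (X : S j)
    {C C' : Set (Y N)} (hC : ∀ z ∈ C, γ • z ∈ C') :
    ∀ ζ ∈ R lam (JX R' X) C, lamG γ ζ ∈ R lam (JX R' X) C' :=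
  R_map (lamG γ) id ⟨fun y => γ • y, continuous_const_smul γ⟩ (fun _ hM => hM)
    (fun M _ f ξ => lam_gam D γ M f ξ) hC

theorem q_pi (D : H618.RkData N I R' Γ H lamG π W lam bet) (g : H) {j : ℕ} (X : S j) (d : ℕ) :
    ∀ ζ ∈ q lam (JX R' X) (I d N), π g ζ ∈ q lam (JX R' (g • X)) (I d N) := by
  refine q_map (π g) (fun M => g⁻¹ • M) (ContinuousMap.id _) (ContinuousMap.id _)
    (fun M hM => ?_) (fun M _ f ξ => ?_) fun y z h => h
  · have := D.sgeo.act g⁻¹ j N (g • X) M hM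
    rwa [inv_smul_smul] at this
  · rw [ContinuousMap.comp_id]
    exact lam_pi D g M f ξ

theorem q_gam (D : H618.RkData N I R' Γ H lamG π W lam bet) (γ : Γ) {j : ℕ} (X : S j) (d : ℕ) :
    ∀ ζ ∈ q lam (JX R' X) (I d N), lamG γ ζ ∈ q lam (JX R' X) (I d N) :=
  q_map (lamG γ) id ⟨fun y => γ • y, continuous_const_smul γ⟩
    ⟨fun y => γ • y, continuous_const_smul γ⟩ (fun _ hM => hM)
    (fun M _ f ξ => lam_gam D γ M f ξ) fun y z h => D.gI γ d N y z h

/-- (ii) the 0-1 law for `q` -/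
theorem q_zo (D : H618.RkData N I R' Γ H lamG π W lam bet) {j : ℕ} (h1 : 1 ≤ j) (hj : j ≤ N)
    (X : S j) (d : ℕ) :
    q lam (JX (N := N) R' X) (I d N) = ⊤ ∨ q lam (JX (N := N) R' X) (I d N) = ⊥ := by
  have hcl : IsClosed (q lam (JX (N := N) R' X) (I d N) : Set K) := (good_q _).cl
  have hz := D.zo j h1 hj X (pj (q lam (JX R' X) (I d N))) (pj_adj _) (pj_idem _) ?_ ?_ ?_
  · rcases hz with h | h
    · right
      rw [eq_bot_iff]
      intro ζ hζ
      have := pj_self hζ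
      rw [h] at this
      exact (Submodule.mem_bot ℂ).2 this.symm
    · left
      rw [eq_top_iff]
      intro ζ _
      have := pj_mem hcl ζ
      rw [h] at this
      exact this
  · intro γ
    refine pj_comm hcl (q_gam D γ X d) ?_
    intro v hv
    rw [star_eq_adjoint, D.uG]
    exact q_gam D γ⁻¹ X d v hv
  · intro w hw
    have : ∀ w ∈ W, ∀ a ∈ Sx lam (JX (N := N) R' X), w * a = a * w := by
      rintro w hw _ ⟨M, _, f, rfl⟩
      exact D.covW w hw M f
    exact (good_q (lm := lam) (I := JX R' X) (I d N)).pj_comm_c Sx_star (this w hw)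
  · intro g hg
    refine pj_comm hcl ?_ ?_
    · intro v hv
      have := q_pi D g X d v hv
      rwa [hg] at this
    · intro v hv
      rw [star_eq_adjoint, D.uπ]
      have := q_pi D g⁻¹ X d v hv
      rwa [show g⁻¹ • X = X by rw [inv_smul_eq_iff, hg]] at this

/-- (ii) in the letters of H560 -/
theorem full_or_null (D : H618.RkData N I R' Γ H lamG π W lam bet) {j : ℕ} (h1 : 1 ≤ j)
    (hj : j ≤ N) (X : S j) (d : ℕ) :
    H560.Full (fun C : Set (Y N) => pj (R lam {M | R' j N X M} C)) (I d N) ∨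
      H560.Null (fun C : Set (Y N) => pj (R lam {M | R' j N X M} C)) (I d N) := by
  have hJ := JX_nonempty D h1 hj X
  rcases q_zo D h1 hj X d with h | h
  · exact Or.inl (full_of_top hJ h)
  · exact Or.inr (null_of_bot hJ h)

/-- transitivity: `q` is full at `X` iff it is full at `g • X` -/
theorem q_top_smul (D : H618.RkData N I R' Γ H lamG π W lam bet) (g : H) {j : ℕ} {X : S j}
    {d : ℕ} (h : q lam (JX (N := N) R' X) (I d N) = ⊤) :
    q lam (JX (N := N) R' (g • X)) (I d N) = ⊤ := by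
  rw [eq_top_iff]
  intro ζ _
  have h2 : π g * π g⁻¹ = 1 := by rw [← map_mul, mul_inv_cancel, map_one]
  have h3 : ζ = π g (π g⁻¹ ζ) := by
    have : (π g * π g⁻¹) ζ = ζ := by rw [h2]; rfl
    exact this.symm
  rw [h3]
  exact q_pi D g X d _ (h ▸ trivial)

/-- fullness does not depend on `X` of dimension `j` -/
theorem q_top_all (D : H618.RkData N I R' Γ H lamG π W lam bet) {j : ℕ} (h1 : 1 ≤ j)
    (hj : j ≤ N) {X : S j} {d : ℕ} (h : q lam (JX (N := N) R' X) (I d N) = ⊤) (X' : S j) :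
    q lam (JX (N := N) R' X') (I d N) = ⊤ := by
  obtain ⟨g, rfl⟩ := D.sgeo.tra j h1 hj X X'
  exact q_top_smul D g h

/-- (c) fullness goes up -/
theorem q_top_mono (D : H618.RkData N I R' Γ H lamG π W lam bet) {i j : ℕ} {X : S i} {X' : S j}
    (hR : R' i j X X') {d : ℕ} (h : q lam (JX (N := N) R' X) (I d N) = ⊤) :
    q lam (JX (N := N) R' X') (I d N) = ⊤ := by
  rw [eq_top_iff, ← h]
  exact q_anti (JX_anti D hR) _

end data

end Vale.Agent.P092.H729.Rk
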