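import Vale.Agent.P092.H729.HMi

/-!
P092 (helper729), Team N, block [N-GAPB] (1) = HMK of #6876: the Hilbert space of an operator
valued positive kernel.

`E x y` (`x y : X`) is a positive kernel with values in `B(K)`, `Kh E` the Hilbert space with the
vectors `del E x v`, `⟪del x v, del y w⟫ = ⟪E y x v, w⟫`. Kernel preserving maps and operators which
commute with the kernel act on `Kh E`.
-/

set_option linter.unusedSectionVars false
set_option linter.unusedVariables false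

namespace Vale.Agent.P092.H729.Krn

open scoped InnerProductSpace
open Filter Topology ContinuousLinearMap

section gen

variable {X : Type} {K : Type} [NormedAddCommGroup K] [InnerProductSpace ℂ K] [CompleteSpace K]

/-- the criterion for positivity -/
theorem psd_of {E : Matrix X X (K →L[ℂ] K)} (her : ∀ x y, adjoint (E x y) = E y x)
    (pos : ∀ f : X →₀ K, 0 ≤ (f.sum fun x v => f.sum fun y w => ⟪E y x v, w⟫_ℂ).re) :
    E.PosSemidef := by
  have h := (RKHS.posSemidef_tfae (𝕜 := ℂ) (K := E)).out 0 2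
  rw [h]
  refine ⟨?_, fun f => pos f⟩
  ext x y : 1
  rw [Matrix.conjTranspose_apply]
  exact her y x

variable (E : Matrix X X (K →L[ℂ] K)) [hE : Fact E.PosSemidef]

/-- the Hilbert space of the kernel -/
abbrev Kh : Type := RKHS.OfKernel E

/-- the vectors of the Hilbert space of the kernel -/
noncomputable def del (x : X) : K →L[ℂ] Kh E := RKHS.kerFun (RKHS.OfKernel E) x

theorem inner_del (x y : X) (v w : K) : ⟪del E x v, del E y w⟫_ℂ = ⟪E y x v, w⟫_ℂ := by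
  have h := RKHS.kernel_inner (RKHS.OfKernel E) y x v w
  rw [RKHS.OfKernel.kernel_ofKernel] at h
  exact h.symm

/-- finite sums of the vectors `del x v` -/
noncomputable def lc : (X →₀ K) →ₗ[ℂ] Kh E :=
  Finsupp.lsum ℂ fun x => ((del E x : K →L[ℂ] Kh E) : K →ₗ[ℂ] Kh E)

theorem lc_apply (f : X →₀ K) : lc E f = f.sum fun x v => del E x v := rfl

theorem lc_single (x : X) (v : K) : lc E (Finsupp.single x v) = del E x v := by
  rw [lc_apply]
  exact Finsupp.sum_single_index (h := fun x v => del E x v) (map_zero _)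

theorem inner_lc (f g : X →₀ K) :
    ⟪lc E f, lc E g⟫_ℂ = f.sum fun x v => g.sum fun y w => ⟪E y x v, w⟫_ℂ := by
  rw [lc_apply, lc_apply, Finsupp.sum_inner]
  refine Finsupp.sum_congr fun x _ => ?_
  rw [Finsupp.inner_sum]
  exact Finsupp.sum_congr fun y _ => inner_del E x y _ _

theorem norm_lc_sq (f : X →₀ K) :
    ‖lc E f‖ ^ 2 = (f.sum fun x v => f.sum fun y w => ⟪E y x v, w⟫_ℂ).re := by
  rw [← inner_lc, ← inner_self_eq_norm_sq (𝕜 := ℂ)]
  rfl

theorem dense_lc : DenseRange (lc E) := by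
  have h := RKHS.kerFun_dense (RKHS.OfKernel E)
  have h2 : (Submodule.span ℂ {RKHS.kerFun (RKHS.OfKernel E) x v | (x : X) (v : K)}) ≤
      LinearMap.range (lc E) := by
    rw [Submodule.span_le]
    rintro _ ⟨x, v, rfl⟩
    exact ⟨Finsupp.single x v, lc_single E x v⟩
  have h3 : (LinearMap.range (lc E)).topologicalClosure = ⊤ :=
    top_unique (h ▸ Submodule.topologicalClosure_mono h2)
  have h4 := (Submodule.dense_iff_topologicalClosure_eq_top).2 h3
  rwa [LinearMap.coe_range] at h4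

/-- two bounded operators which agree on the vectors `del x v` are equal -/
theorem ext_del {F : Type} [NormedAddCommGroup F] [InnerProductSpace ℂ F]
    {A B : Kh E →L[ℂ] F} (h : ∀ x v, A (del E x v) = B (del E x v)) : A = B := by
  have h1 : (A : Kh E → F) = B := by
    refine (dense_lc E).equalizer A.continuous B.continuous ?_
    funext f
    change A (lc E f) = B (lc E f)
    rw [lc_apply, map_finsuppSum, map_finsuppSum]
    exact Finsupp.sum_congr fun x _ => h x _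
  exact DFunLike.coe_injective h1

variable {F : Type} [NormedAddCommGroup F] [InnerProductSpace ℂ F] [CompleteSpace F]

/-- the family `g` as a map on finite sums -/
noncomputable def lg (g : X → K →L[ℂ] F) : (X →₀ K) →ₗ[ℂ] F :=
  Finsupp.lsum ℂ fun x => ((g x : K →L[ℂ] F) : K →ₗ[ℂ] F)

theorem lg_apply (g : X → K →L[ℂ] F) (f : X →₀ K) : lg g f = f.sum fun x v => g x v := rfl

theorem lg_single (g : X → K →L[ℂ] F) (x : X) (v : K) : lg g (Finsupp.single x v) = g x v := by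
  rw [lg_apply]
  exact Finsupp.sum_single_index (h := fun x v => g x v) (map_zero _)

/-- the extension of a bounded family -/
noncomputable def ext (g : X → K →L[ℂ] F) : Kh E →L[ℂ] F := (lg g).extendOfNorm (lc E)

theorem ext_apply {g : X → K →L[ℂ] F} {C : ℝ} (h : ∀ f, ‖lg g f‖ ≤ C * ‖lc E f‖)
    (x : X) (v : K) : ext E g (del E x v) = g x v := by
  unfold ext
  rw [← lc_single, LinearMap.extendOfNorm_eq (dense_lc E) ⟨C, h⟩, lg_single]

theorem norm_ext {g : X → K →L[ℂ] F} {C : ℝ} (h : ∀ f, ‖lg g f‖ ≤ C * ‖lc E f‖)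
    (ξ : Kh E) : ‖ext E g ξ‖ ≤ C * ‖ξ‖ :=
  LinearMap.norm_extendOfNorm_apply_le (dense_lc E) C h ξ

/-- an isometric family -/
theorem norm_lg_of {g : X → K →L[ℂ] F} (h : ∀ x y v w, ⟪g x v, g y w⟫_ℂ = ⟪E y x v, w⟫_ℂ)
    (f : X →₀ K) : ‖lg g f‖ = ‖lc E f‖ := by
  have h1 : ‖lg g f‖ ^ 2 = ‖lc E f‖ ^ 2 := by
    rw [norm_lc_sq, ← inner_self_eq_norm_sq (𝕜 := ℂ), lg_apply, Finsupp.sum_inner]
    refine congrArg Complex.re ?_
    refine Finsupp.sum_congr fun x _ => ?_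
    rw [Finsupp.inner_sum]
    exact Finsupp.sum_congr fun y _ => h x y _ _
  exact (pow_left_inj₀ (norm_nonneg _) (norm_nonneg _) two_ne_zero).1 h1

theorem norm_lg_le {g : X → K →L[ℂ] F} (h : ∀ x y v w, ⟪g x v, g y w⟫_ℂ = ⟪E y x v, w⟫_ℂ)
    (f : X →₀ K) : ‖lg g f‖ ≤ 1 * ‖lc E f‖ := by
  rw [norm_lg_of E h, one_mul]

theorem iso_ext {g : X → K →L[ℂ] F} (h : ∀ x y v w, ⟪g x v, g y w⟫_ℂ = ⟪E y x v, w⟫_ℂ)
    (ξ : Kh E) : ‖ext E g ξ‖ = ‖ξ‖ := by
  refine (dense_lc E).induction (fun η hη => ?_)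
    (isClosed_eq (ext E g).continuous.norm continuous_norm) ξ
  obtain ⟨f, rfl⟩ := hη
  unfold ext
  rw [LinearMap.extendOfNorm_eq (dense_lc E) ⟨1, norm_lg_le E h⟩, norm_lg_of E h]

theorem norm_lg_sq (g : X → K →L[ℂ] F) (f : X →₀ K) :
    ‖lg g f‖ ^ 2 = (f.sum fun a v => f.sum fun b w => ⟪g a v, g b w⟫_ℂ).re := by
  rw [← inner_self_eq_norm_sq (𝕜 := ℂ), lg_apply, Finsupp.sum_inner]
  refine congrArg Complex.re ?_
  refine Finsupp.sum_congr fun x _ => ?_
  rw [Finsupp.inner_sum]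

/-! ### Operators which move the kernel -/

/-- `x` moves the kernel along `σ` -/
structure Mv (σ : X ≃ X) (x : K →L[ℂ] K) : Prop where
  l : ∀ a b, x * E a b = E (σ a) (σ b) * x
  r : ∀ a b, E a b * adjoint x = adjoint x * E (σ a) (σ b)

/-- the operator `del a v ↦ del (σ a) (x v)` -/
noncomputable def mov (σ : X ≃ X) (x : K →L[ℂ] K) : Kh E →L[ℂ] Kh E :=
  ext E fun a => (del E (σ a)).comp x

theorem Mv.le {σ : X ≃ X} {x : K →L[ℂ] K} (h : Mv E σ x) (f : X →₀ K) :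
    ‖lg (fun a => (del E (σ a)).comp x) f‖ ≤ ‖x‖ * ‖lc E f‖ := by
  have hy : ∀ v : K, ⟪adjoint x (x v), v⟫_ℂ = ((‖x v‖ ^ 2 : ℝ) : ℂ) := by
    intro v
    rw [adjoint_inner_left, inner_self_eq_norm_sq_to_K]
    norm_cast
  have h0 : 0 ≤ ((‖x‖ ^ 2 : ℝ) : ℂ) • (1 : K →L[ℂ] K) - adjoint x * x := by
    rw [nonneg_iff_isPositive, isPositive_def']
    refine ⟨?_, fun v => ?_⟩
    · refine IsSelfAdjoint.sub ?_ ?_
      · rw [IsSelfAdjoint, star_smul, star_one]
        congr 1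
        exact Complex.conj_ofReal _
      · exact IsSelfAdjoint.star_mul_self x
    · rw [reApplyInnerSelf_apply, sub_apply, inner_sub_left]
      change 0 ≤ RCLike.re (⟪((‖x‖ ^ 2 : ℝ) : ℂ) • v, v⟫_ℂ - ⟪adjoint x (x v), v⟫_ℂ)
      rw [hy, inner_smul_left, Complex.conj_ofReal, inner_self_eq_norm_sq_to_K]
      have e : ((‖x‖ ^ 2 : ℝ) : ℂ) * ((‖v‖ : ℂ) ^ 2) - ((‖x v‖ ^ 2 : ℝ) : ℂ) =
          ((‖x‖ ^ 2 * ‖v‖ ^ 2 - ‖x v‖ ^ 2 : ℝ) : ℂ) := by push_cast; ring
      change 0 ≤ Complex.re (((‖x‖ ^ 2 : ℝ) : ℂ) * ((‖v‖ : ℂ) ^ 2) - ((‖x v‖ ^ 2 : ℝ) : ℂ))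
      rw [e, Complex.ofReal_re, ← mul_pow, sub_nonneg]
      exact pow_le_pow_left₀ (norm_nonneg _) (x.le_opNorm v) 2
  set y : K →L[ℂ] K := ((‖x‖ ^ 2 : ℝ) : ℂ) • (1 : K →L[ℂ] K) - adjoint x * x with hyd
  set s : K →L[ℂ] K := CFC.sqrt y with hs
  have hss : s * s = y := CFC.sqrt_mul_sqrt_self y h0
  have hsa : adjoint s = s := by
    have h1 : 0 ≤ s := CFC.sqrt_nonneg y
    exact (IsSelfAdjoint.of_nonneg h1).star_eq
  have hyc : ∀ a b, Commute y (E a b) := by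
    intro a b
    have e : adjoint x * x * E a b = E a b * (adjoint x * x) := by
      rw [mul_assoc, h.l, ← mul_assoc, ← h.r, mul_assoc]
    rw [commute_iff_eq, hyd, sub_mul, mul_sub, e, smul_mul_assoc, one_mul, mul_smul_comm, mul_one]
  have hsc : ∀ a b, Commute s (E a b) := by
    intro a b
    rw [hs, CFC.sqrt_eq_cfc]
    exact (hyc a b).cfc_nnreal _
  have key : ∀ a b v w, ⟪(del E a).comp s v, (del E b).comp s w⟫_ℂ =
      ((‖x‖ ^ 2 : ℝ) : ℂ) * ⟪E b a v, w⟫_ℂ -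
        ⟪(del E (σ a)).comp x v, (del E (σ b)).comp x w⟫_ℂ := by
    intro a b v w
    change ⟪del E a (s v), del E b (s w)⟫_ℂ = ((‖x‖ ^ 2 : ℝ) : ℂ) * ⟪E b a v, w⟫_ℂ -
        ⟪del E (σ a) (x v), del E (σ b) (x w)⟫_ℂ
    rw [inner_del, inner_del]
    have e1 : ⟪E b a (s v), s w⟫_ℂ = ⟪y (E b a v), w⟫_ℂ := by
      have e2 : y (E b a v) = s (E b a (s v)) := by
        have e3 : y * E b a = s * (E b a * s) := by
          rw [← hss, mul_assoc, (hsc b a).eq]
        exact congrArg (fun A : K →L[ℂ] K => A v) e3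
      rw [e2]
      have e6 := adjoint_inner_left s w (E b a (s v))
      rw [hsa] at e6
      exact e6.symm
    have e4 : ⟪E (σ b) (σ a) (x v), x w⟫_ℂ = ⟪(adjoint x * x) (E b a v), w⟫_ℂ := by
      have e5 : E (σ b) (σ a) (x v) = x (E b a v) :=
        congrArg (fun A : K →L[ℂ] K => A v) (h.l b a).symm
      rw [e5]
      change _ = ⟪adjoint x (x (E b a v)), w⟫_ℂ
      rw [adjoint_inner_left]
    rw [e1, e4, hyd, sub_apply, inner_sub_left]
    congr 1
    change ⟪((‖x‖ ^ 2 : ℝ) : ℂ) • (E b a v), w⟫_ℂ = _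
    rw [inner_smul_left, Complex.conj_ofReal]
  have h1 := norm_lg_sq (fun a => (del E a).comp s) f
  have h2 := norm_lg_sq (fun a => (del E (σ a)).comp x) f
  have h3 := norm_lc_sq E f
  have h4 : (f.sum fun a v => f.sum fun b w => ⟪(del E a).comp s v, (del E b).comp s w⟫_ℂ) =
      ((‖x‖ ^ 2 : ℝ) : ℂ) * (f.sum fun a v => f.sum fun b w => ⟪E b a v, w⟫_ℂ) -
      (f.sum fun a v => f.sum fun b w =>
        ⟪(del E (σ a)).comp x v, (del E (σ b)).comp x w⟫_ℂ) := by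
    simp only [Finsupp.sum, key, Finset.mul_sum, Finset.sum_sub_distrib]
  have h5 : 0 ≤ ‖x‖ ^ 2 * ‖lc E f‖ ^ 2 - ‖lg (fun a => (del E (σ a)).comp x) f‖ ^ 2 := by
    rw [h2, h3]
    have h6 := sq_nonneg ‖lg (fun a => (del E a).comp s) f‖
    rw [h1, h4, Complex.sub_re, Complex.re_ofReal_mul] at h6
    exact h6
  rw [← mul_pow, sub_nonneg] at h5
  exact (pow_le_pow_iff_left₀ (norm_nonneg _) (by positivity) two_ne_zero).1 h5

theorem Mv.apply {σ : X ≃ X} {x : K →L[ℂ] K} (h : Mv E σ x) (a : X) (v : K) :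
    mov E σ x (del E a v) = del E (σ a) (x v) :=
  ext_apply E (h.le E) a v

theorem Mv.norm_le {σ : X ≃ X} {x : K →L[ℂ] K} (h : Mv E σ x) (ξ : Kh E) :
    ‖mov E σ x ξ‖ ≤ ‖x‖ * ‖ξ‖ :=
  norm_ext E (h.le E) ξ

theorem Mv.adj {σ : X ≃ X} {x : K →L[ℂ] K} (h : Mv E σ x) : Mv E σ.symm (adjoint x) where
  l a b := by
    have := h.r (σ.symm a) (σ.symm b)
    rw [Equiv.apply_symm_apply, Equiv.apply_symm_apply] at this
    exact this.symm
  r a b := by
    have := h.l (σ.symm a) (σ.symm b)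
    rw [Equiv.apply_symm_apply, Equiv.apply_symm_apply] at this
    rw [adjoint_adjoint]
    exact this.symm

theorem Mv.adjoint_eq {σ : X ≃ X} {x : K →L[ℂ] K} (h : Mv E σ x) :
    adjoint (mov E σ x) = mov E σ.symm (adjoint x) := by
  refine ext_del E fun a v => ?_
  refine ext_inner_right ℂ fun η => ?_
  have hp : ∀ η : Kh E, ⟪adjoint (mov E σ x) (del E a v), η⟫_ℂ =
      ⟪mov E σ.symm (adjoint x) (del E a v), η⟫_ℂ := by
    intro η
    refine (dense_lc E).induction (fun η hη => ?_) ?_ η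
    · obtain ⟨f, rfl⟩ := hη
      rw [lc_apply, Finsupp.inner_sum, Finsupp.inner_sum]
      refine Finsupp.sum_congr fun b _ => ?_
      rw [adjoint_inner_left, h.apply, h.adj.apply, inner_del, inner_del]
      have := congrArg (fun A : K →L[ℂ] K => A v) (h.r b (σ.symm a))
      rw [Equiv.apply_symm_apply] at this
      change E b (σ.symm a) (adjoint x v) = adjoint x (E (σ b) a v) at this
      rw [this, adjoint_inner_left]
    · exact isClosed_eq (by fun_prop) (by fun_prop)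
  exact hp η

theorem Mv.mul {σ τ : X ≃ X} {x y : K →L[ℂ] K} (h : Mv E σ x) (h' : Mv E τ y) :
    Mv E (τ.trans σ) (x * y) where
  l a b := by
    rw [mul_assoc, h'.l, ← mul_assoc, h.l, mul_assoc]; rfl
  r a b := by
    have e : adjoint (x * y) = adjoint y * adjoint x := star_mul x y
    rw [e, ← mul_assoc, h'.r, mul_assoc, h.r, ← mul_assoc]; rfl

theorem Mv.mov_mul {σ τ : X ≃ X} {x y : K →L[ℂ] K} (h : Mv E σ x) (h' : Mv E τ y) :
    mov E σ x * mov E τ y = mov E (τ.trans σ) (x * y) := by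
  refine ext_del E fun a v => ?_
  rw [(h.mul E h').apply]
  change mov E σ x (mov E τ y (del E a v)) = _
  rw [h'.apply, h.apply]
  rfl

theorem mv_one : Mv E (Equiv.refl X) (1 : K →L[ℂ] K) where
  l a b := by rw [one_mul, mul_one]; rfl
  r a b := by
    have e : adjoint (1 : K →L[ℂ] K) = 1 := star_one _
    rw [e, one_mul, mul_one]; rfl

theorem mov_one : mov E (Equiv.refl X) (1 : K →L[ℂ] K) = 1 := by
  refine ext_del E fun a v => ?_
  rw [(mv_one E).apply]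
  rfl

end gen

/-! ### The orbit lemma -/

section orb

open Vale.Agent.P092.H933 (HoweMoore)

variable {S : Type} [Group S] [TopologicalSpace S]

/-- contractive representations are isometric -/
theorem iso_of_le {H : Type} [NormedAddCommGroup H] [InnerProductSpace ℂ H]
    {U : S →* (H →L[ℂ] H)} (hle : ∀ g ξ, ‖U g ξ‖ ≤ ‖ξ‖) (g : S) (ξ : H) : ‖U g ξ‖ = ‖ξ‖ := by
  refine le_antisymm (hle g ξ) ?_
  have e : U g⁻¹ (U g ξ) = ξ := by
    have e1 : U g⁻¹ * U g = 1 := by rw [← map_mul, inv_mul_cancel, map_one]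
    exact congrArg (fun A : H →L[ℂ] H => A ξ) e1
  calc ‖ξ‖ = ‖U g⁻¹ (U g ξ)‖ := by rw [e]
    _ ≤ ‖U g ξ‖ := hle _ _

/-- continuity of a representation on the space of a kernel -/
theorem cont_of {X : Type} {K : Type} [NormedAddCommGroup K] [InnerProductSpace ℂ K]
    [CompleteSpace K] (M : Matrix X X (K →L[ℂ] K)) [Fact M.PosSemidef]
    {U : S →* (Kh M →L[ℂ] Kh M)} (iso : ∀ g ξ, ‖U g ξ‖ = ‖ξ‖)
    (h : ∀ a v, Continuous fun g => U g (del M a v)) (ξ : Kh M) : Continuous fun g => U g ξ := by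
  refine (dense_lc M).induction (P := fun ξ => Continuous fun g => U g ξ)
    (fun η hη => ?_) ?_ ξ
  · obtain ⟨f, rfl⟩ := hη
    have e : (fun g => U g (lc M f)) = fun g => ∑ a ∈ f.support, U g (del M a (f a)) := by
      funext g
      rw [lc_apply, Finsupp.sum, map_sum]
    rw [e]
    exact continuous_finsetSum _ fun a _ => h a _
  · rw [← isSeqClosed_iff_isClosed]
    intro u η hu hlim
    have h1 : TendstoUniformly (fun n g => U g (u n)) (fun g => U g η) atTop := by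
      rw [Metric.tendstoUniformly_iff]
      intro ε hε
      have h2 := (Metric.tendsto_nhds.1 hlim) ε hε
      filter_upwards [h2] with n hn g
      rw [dist_eq_norm, ← map_sub, iso, ← dist_eq_norm, dist_comm]
      exact hn
    exact h1.continuous (Frequently.of_forall hu)

/-- **Orbit lemma**: if `⟪v (x g), v (x h)⟫ = ⟪v g, v h⟫`, then `⟪v h, η⟫` has a limit at
infinity. -/
theorem orbit_lim (hS : HoweMoore S) [IsTopologicalGroup S] {H : Type} [NormedAddCommGroup H]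
    [InnerProductSpace ℂ H] [CompleteSpace H] (v : S → H)
    (hv : ∀ x g h, ⟪v (x * g), v (x * h)⟫_ℂ = ⟪v g, v h⟫_ℂ) (hc : Continuous v) (η : H) :
    ∃ z : ℂ, Tendsto (fun h => ⟪v h, η⟫_ℂ) (cocompact S) (𝓝 z) := by
  let M : Matrix S S (ℂ →L[ℂ] ℂ) := Matrix.of fun g h => ⟪v g, v h⟫_ℂ • (1 : ℂ →L[ℂ] ℂ)
  have hM : ∀ g h (a : ℂ), M g h a = ⟪v g, v h⟫_ℂ * a := fun g h a => rfl
  have hMi : ∀ g h (a b : ℂ), ⟪M g h a, b⟫_ℂ = ⟪a • v h, b • v g⟫_ℂ := by
    intro g h a b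
    rw [hM, inner_smul_left, inner_smul_right, RCLike.inner_apply, map_mul, inner_conj_symm]
    ring
  have : Fact M.PosSemidef := ⟨psd_of (fun g h => by
      refine ContinuousLinearMap.ext fun a => ?_
      refine ext_inner_right ℂ fun b => ?_
      rw [adjoint_inner_left, ← inner_conj_symm, hMi, hMi, inner_conj_symm]) (fun f => by
      have e : (f.sum fun x v => f.sum fun y w => ⟪M y x v, w⟫_ℂ) =
          ((‖f.sum fun x a => a • v x‖ ^ 2 : ℝ) : ℂ) := by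
        have e1 := inner_self_eq_norm_sq_to_K (𝕜 := ℂ) (f.sum fun x a => a • v x)
        rw [Complex.ofReal_pow]
        refine Eq.trans ?_ e1
        rw [Finsupp.sum_inner]
        refine Finsupp.sum_congr fun x _ => ?_
        rw [Finsupp.inner_sum]
        exact Finsupp.sum_congr fun y _ => hMi y x _ _
      rw [e, Complex.ofReal_re]
      positivity)⟩
  have hJi : ∀ x y (a b : ℂ), ⟪(toSpanSingleton ℂ (v x)) a, (toSpanSingleton ℂ (v y)) b⟫_ℂ =
      ⟪M y x a, b⟫_ℂ := fun x y a b => by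
    rw [hMi, toSpanSingleton_apply, toSpanSingleton_apply]
  let J : Kh M →L[ℂ] H := ext M fun h => toSpanSingleton ℂ (v h)
  have hJ : ∀ h a, J (del M h a) = a • v h := fun h a =>
    (ext_apply M (norm_lg_le M hJi) h a).trans (toSpanSingleton_apply ..)
  have hJn : ∀ ξ, ‖J ξ‖ = ‖ξ‖ := iso_ext M hJi
  have mv : ∀ x, Mv M (Equiv.mulLeft x) (1 : ℂ →L[ℂ] ℂ) := by
    intro x
    have e : ∀ a b, M (x * a) (x * b) = M a b := by
      intro a b
      refine ContinuousLinearMap.ext fun c => ?_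
      rw [hM, hM, hv]
    refine ⟨fun a b => ?_, fun a b => ?_⟩
    · rw [one_mul, mul_one]; exact (e a b).symm
    · have e1 : adjoint (1 : ℂ →L[ℂ] ℂ) = 1 := star_one _
      rw [e1, one_mul, mul_one]; exact (e a b).symm
  let U : S →* (Kh M →L[ℂ] Kh M) :=
    { toFun := fun x => mov M (Equiv.mulLeft x) 1
      map_one' := by
        have : (Equiv.mulLeft (1 : S)) = Equiv.refl S := by ext a; exact one_mul a
        rw [this]; exact mov_one M
      map_mul' := fun x y => by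
        rw [(mv x).mov_mul M (mv y), one_mul]
        congr 1
        ext a
        exact mul_assoc x y a }
  have hU : ∀ x a c, U x (del M a c) = del M (x * a) c := fun x a c => (mv x).apply M a c
  have hUn : ∀ g ξ, ‖U g ξ‖ = ‖ξ‖ := iso_of_le fun g ξ => by
    refine ((mv g).norm_le M ξ).trans ?_
    exact (mul_le_mul_of_nonneg_right (norm_id_le : ‖ContinuousLinearMap.id ℂ ℂ‖ ≤ 1)
      (norm_nonneg _)).trans_eq (one_mul _)
  have hdc : ∀ c, Continuous fun g => del M g c := by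
    intro c
    have h1 : Isometry J := AddMonoidHomClass.isometry_of_norm J hJn
    refine h1.isEmbedding.continuous_iff.2 ?_
    have e : (J ∘ fun g => del M g c) = fun g => c • v g := by
      funext g; exact hJ g c
    rw [e]
    exact hc.const_smul c
  obtain ⟨z, hz⟩ := HMi.hm_lim hS U hUn (cont_of M hUn fun a c => by
    have e : (fun g => U g (del M a c)) = fun g => del M (g * a) c := by
      funext g; exact hU g a c
    rw [e]
    exact (hdc c).comp (continuous_mul_const a)) (del M 1 1) (adjoint J η)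
  refine ⟨z, hz.congr fun h => ?_⟩
  rw [hU, mul_one, adjoint_inner_right, hJ, one_smul]

end orb

/-! ### The limit -/

section tw

open Vale.Agent.P092.H933 (HoweMoore)

variable {S : Type} [Group S] [TopologicalSpace S] [IsTopologicalGroup S]
variable {K H : Type} [NormedAddCommGroup K] [InnerProductSpace ℂ K] [CompleteSpace K]
  [NormedAddCommGroup H] [InnerProductSpace ℂ H] [CompleteSpace H]

/-- `R` is closed under adjoints and normalised by `S`, and every operator in the commutant of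
`R` commutes with `S` -/
structure Dt (π : S →* (K →L[ℂ] K)) (πh : S →* (H →L[ℂ] H))
    (R : Set ((K →L[ℂ] K) × (H →L[ℂ] H))) : Prop where
  adj : ∀ p ∈ R, (adjoint p.1, adjoint p.2) ∈ R
  nrm : ∀ p ∈ R, ∀ h, (π h * p.1 * π h⁻¹, πh h * p.2 * πh h⁻¹) ∈ R
  cm : ∀ T : K →L[ℂ] K, (∀ p ∈ R, T * p.1 = p.1 * T) → ∀ g, T * π g = π g * T
  iso : ∀ g ξ, ‖π g ξ‖ = ‖ξ‖
  isoh : ∀ g ξ, ‖πh g ξ‖ = ‖ξ‖
  cont : ∀ ξ, Continuous fun g => π g ξ
  conth : ∀ ξ, Continuous fun g => πh g ξ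

variable {π : S →* (K →L[ℂ] K)} {πh : S →* (H →L[ℂ] H)} {R : Set ((K →L[ℂ] K) × (H →L[ℂ] H))}

theorem Dt.act_mem (D : Dt π πh R) (h : S) {T : K →L[ℂ] H} (hT : T ∈ HMi.Tw R) :
    (πh h).comp (T.comp (π h⁻¹)) ∈ HMi.Tw R := by
  intro p hp
  have h1 := hT _ (D.nrm p hp h⁻¹)
  rw [inv_inv] at h1
  have e2 : π h * π h⁻¹ = 1 := by rw [← map_mul, mul_inv_cancel, map_one]
  have e3 : πh h * πh h⁻¹ = 1 := by rw [← map_mul, mul_inv_cancel, map_one]
  ext ξ
  change πh h (T (π h⁻¹ (p.1 ξ))) = p.2 (πh h (T (π h⁻¹ ξ)))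
  have h2 := congrArg (fun A : K →L[ℂ] H => A (π h⁻¹ ξ)) h1
  change T (π h⁻¹ (p.1 (π h (π h⁻¹ ξ)))) = πh h⁻¹ (p.2 (πh h (T (π h⁻¹ ξ)))) at h2
  have e4 : π h (π h⁻¹ ξ) = ξ := congrArg (fun A : K →L[ℂ] K => A ξ) e2
  rw [e4] at h2
  rw [h2]
  exact congrArg (fun A : H →L[ℂ] H => A _) e3

theorem Dt.comm (D : Dt π πh R) {T T' : K →L[ℂ] H} (hT : T ∈ HMi.Tw R) (hT' : T' ∈ HMi.Tw R)
    (g : S) : ((adjoint T).comp T') * π g = π g * ((adjoint T).comp T') := by
  refine D.cm _ (fun p hp => ?_) g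
  have h1 := hT _ (D.adj p hp)
  have h2 : (adjoint T).comp p.2 = p.1.comp (adjoint T) := by
    have := congrArg adjoint h1
    rw [adjoint_comp, adjoint_comp, adjoint_adjoint, adjoint_adjoint] at this
    exact this.symm
  change ((adjoint T).comp T').comp p.1 = p.1.comp ((adjoint T).comp T')
  rw [comp_assoc, hT' p hp, ← comp_assoc, h2, comp_assoc]

theorem Dt.tendsto (D : Dt π πh R) (hS : HoweMoore S) {Ω : K} {T : K →L[ℂ] H}
    (hT : T ∈ HMi.Tw R) (v : H) :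
    ∃ z : ℂ, Tendsto (fun h => ⟪T (π h Ω), πh h v⟫_ℂ) (cocompact S) (𝓝 z) := by
  obtain ⟨z, hz⟩ := orbit_lim hS (fun h => πh h (T (π h⁻¹ Ω))) (fun x g h => by
      have e1 : ∀ g, πh (x * g) (T (π (x * g)⁻¹ Ω)) =
          πh x ((πh g).comp (T.comp (π g⁻¹)) (π x⁻¹ Ω)) := by
        intro g
        rw [mul_inv_rev, map_mul, map_mul]
        rfl
      rw [e1, e1, HMi.inner_iso D.isoh, ← adjoint_inner_right]
      have e2 := congrArg (fun A : K →L[ℂ] K => A Ω)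
        (D.comm (D.act_mem g hT) (D.act_mem h hT) x⁻¹)
      change adjoint ((πh g).comp (T.comp (π g⁻¹))) ((πh h).comp (T.comp (π h⁻¹)) (π x⁻¹ Ω)) =
        π x⁻¹ (adjoint ((πh g).comp (T.comp (π g⁻¹))) ((πh h).comp (T.comp (π h⁻¹)) Ω)) at e2
      rw [e2, HMi.inner_iso D.iso, adjoint_inner_right]
      rfl) (HMi.cont_app D.isoh D.conth (T.continuous.comp ((D.cont Ω).comp continuous_inv))) v
  have hinv : Tendsto (fun h : S => h⁻¹) (cocompact S) (cocompact S) :=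
    (Homeomorph.inv S).isClosedEmbedding.tendsto_cocompact
  refine ⟨z, (hz.comp hinv).congr fun h => ?_⟩
  change ⟪πh h⁻¹ (T (π h⁻¹⁻¹ Ω)), v⟫_ℂ = _
  rw [inv_inv, HMi.inner_move D.isoh, inv_inv]

end tw

section lim

open Vale.Agent.P092.H933 (HoweMoore)

variable {Γ S : Type} [Group Γ] [Group S] [TopologicalSpace S] [IsTopologicalGroup S]
variable {K : Type} [NormedAddCommGroup K] [InnerProductSpace ℂ K] [CompleteSpace K]

/-- **[N-GAPB] (1), the Hilbert space part**, with the weak hypothesis `sc'` of #7240: the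
commutant of `lam` and `Z` commutes with `S`. -/
theorem krn_lim' (hS : HoweMoore S) (E : Γ → Γ → (K →L[ℂ] K)) (A : Γ → (K →L[ℂ] K))
    (herm : ∀ γ γ', adjoint (E γ γ') = E γ' γ)
    (psd : ∀ (s : Finset Γ) (ξ : Γ → K) (ζ : K), 0 ≤ ‖ζ‖ ^ 2 +
      2 * (∑ γ ∈ s, ⟪ζ, A γ (ξ γ)⟫_ℂ).re + (∑ γ ∈ s, ∑ γ' ∈ s, ⟪ξ γ', E γ' γ (ξ γ)⟫_ℂ).re)
    (lam : Γ →* (K →L[ℂ] K)) (ladj : ∀ γ, adjoint (lam γ) = lam γ⁻¹)
    (covE : ∀ s γ γ', lam s * E γ γ' = E (s * γ) (s * γ') * lam s)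
    (covA : ∀ s γ, lam s * A γ = A (s * γ) * lam s)
    (Z : Set (K →L[ℂ] K)) (Zadj : ∀ z ∈ Z, adjoint z ∈ Z)
    (ZE : ∀ z ∈ Z, ∀ γ γ', z * E γ γ' = E γ γ' * z) (ZA : ∀ z ∈ Z, ∀ γ, z * A γ = A γ * z)
    (ρ : S →* (K →L[ℂ] K)) (radj : ∀ g, adjoint (ρ g) = ρ g⁻¹)
    (rcont : ∀ ξ, Continuous fun g => ρ g ξ) (rE : ∀ g γ γ', ρ g * E γ γ' = E γ γ' * ρ g)
    (rZ : ∀ g, ∀ z ∈ Z, ρ g * z * ρ g⁻¹ ∈ Z) (rlam : ∀ g γ, ρ g * lam γ = lam γ * ρ g)
    (sc' : ∀ T : K →L[ℂ] K, (∀ γ, T * lam γ = lam γ * T) → (∀ z ∈ Z, T * z = z * T) →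
      ∀ g, T * ρ g = ρ g * T) (Ω : K) :
    ∃ z : ℂ, Tendsto (fun h => ⟪ρ h Ω, A 1 (ρ h Ω)⟫_ℂ) (cocompact S) (𝓝 z) := by
  have hps : (Matrix.of E).PosSemidef := psd_of (fun a b => herm a b) (fun f => by
    have := psd f.support f 0
    rw [norm_zero] at this
    simp only [inner_zero_left, Finset.sum_const_zero, Complex.zero_re, mul_zero, add_zero,
      ne_eq, OfNat.ofNat_ne_zero, not_false_eq_true, zero_pow, zero_add] at this
    have e : (f.sum fun x v => f.sum fun y w => ⟪Matrix.of E y x v, w⟫_ℂ) =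
        (starRingEnd ℂ) (∑ γ ∈ f.support, ∑ γ' ∈ f.support, ⟪f γ', E γ' γ (f γ)⟫_ℂ) := by
      rw [map_sum, Finsupp.sum]
      refine Finset.sum_congr rfl fun a _ => ?_
      rw [map_sum, Finsupp.sum]
      refine Finset.sum_congr rfl fun b _ => ?_
      rw [inner_conj_symm]
      rfl
    rw [e, Complex.conj_re]
    exact this)
  have : Fact (Matrix.of E).PosSemidef := ⟨hps⟩
  -- the contraction
  have hB : ∀ f : Γ →₀ K, ‖lg A f‖ ≤ 1 * ‖lc (Matrix.of E) f‖ := by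
    intro f
    rw [one_mul]
    refine (pow_le_pow_iff_left₀ (norm_nonneg _) (norm_nonneg _) two_ne_zero).1 ?_
    rw [norm_lc_sq]
    have h1 := psd f.support f (-(lg A f))
    have h2 : (∑ γ ∈ f.support, ⟪-(lg A f), A γ (f γ)⟫_ℂ) = -((‖lg A f‖ ^ 2 : ℝ) : ℂ) := by
      rw [← inner_sum]
      have : ∑ γ ∈ f.support, A γ (f γ) = lg A f := rfl
      rw [this, inner_neg_left, inner_self_eq_norm_sq_to_K]
      norm_cast
    have e : (f.sum fun x v => f.sum fun y w => ⟪Matrix.of E y x v, w⟫_ℂ) =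
        (starRingEnd ℂ) (∑ γ ∈ f.support, ∑ γ' ∈ f.support, ⟪f γ', E γ' γ (f γ)⟫_ℂ) := by
      rw [map_sum, Finsupp.sum]
      refine Finset.sum_congr rfl fun a _ => ?_
      rw [map_sum, Finsupp.sum]
      refine Finset.sum_congr rfl fun b _ => ?_
      rw [inner_conj_symm]
      rfl
    rw [e, Complex.conj_re]
    rw [h2, norm_neg, Complex.neg_re, Complex.ofReal_re] at h1
    linarith
  set M : Matrix Γ Γ (K →L[ℂ] K) := Matrix.of E with hM
  let B : Kh M →L[ℂ] K := ext M A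
  have hBa : ∀ a v, B (del M a v) = A a v := fun a v => ext_apply M hB a v
  -- the movers
  have mz : ∀ z ∈ Z, Mv M (Equiv.refl Γ) z := fun z hz =>
    ⟨fun a b => ZE z hz a b, fun a b => (ZE _ (Zadj z hz) a b).symm⟩
  have ml : ∀ s, Mv M (Equiv.mulLeft s) (lam s) := fun s =>
    ⟨fun a b => covE s a b, fun a b => by
      rw [ladj]
      have := covE s⁻¹ (s * a) (s * b)
      rw [inv_mul_cancel_left, inv_mul_cancel_left] at this
      exact this.symm⟩
  have mr : ∀ g, Mv M (Equiv.refl Γ) (ρ g) := fun g =>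
    ⟨fun a b => rE g a b, fun a b => by rw [radj]; exact (rE _ a b).symm⟩
  -- the representation of `S`
  let πh : S →* (Kh M →L[ℂ] Kh M) :=
    { toFun := fun g => mov M (Equiv.refl Γ) (ρ g)
      map_one' := by rw [map_one]; exact mov_one M
      map_mul' := fun g h => by rw [map_mul, (mr g).mov_mul M (mr h)]; rfl }
  have hπh : ∀ g, πh g = mov M (Equiv.refl Γ) (ρ g) := fun g => rfl
  have rn : ∀ g ξ, ‖ρ g ξ‖ = ‖ξ‖ := by
    intro g ξ
    have h1 : ⟪ρ g ξ, ρ g ξ⟫_ℂ = ⟪ξ, ξ⟫_ℂ := by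
      rw [← adjoint_inner_left, radj]
      have : ρ g⁻¹ (ρ g ξ) = ξ := by
        have e : ρ g⁻¹ * ρ g = 1 := by rw [← map_mul, inv_mul_cancel, map_one]
        exact congrArg (fun A : K →L[ℂ] K => A ξ) e
      rw [this]
    rw [inner_self_eq_norm_sq_to_K, inner_self_eq_norm_sq_to_K] at h1
    have h2 : ‖ρ g ξ‖ ^ 2 = ‖ξ‖ ^ 2 := by exact_mod_cast h1
    exact (pow_left_inj₀ (norm_nonneg _) (norm_nonneg _) two_ne_zero).1 h2
  have ion : ∀ g, ‖ρ g‖ ≤ 1 := fun g =>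
    (ρ g).opNorm_le_bound zero_le_one fun ξ => by rw [rn, one_mul]
  have isoh : ∀ g ξ, ‖πh g ξ‖ = ‖ξ‖ := iso_of_le fun g ξ => by
    refine ((mr g).norm_le M ξ).trans ?_
    exact (mul_le_mul_of_nonneg_right (ion g) (norm_nonneg _)).trans_eq (one_mul _)
  have conth : ∀ ξ, Continuous fun g => πh g ξ := cont_of M isoh fun a v => by
    have e : (fun g => πh g (del M a v)) = fun g => del M a (ρ g v) := by
      funext g; exact (mr g).apply M a v
    rw [e]
    exact (del M a).continuous.comp (rcont v)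
  -- the pairs
  let R : Set ((K →L[ℂ] K) × (Kh M →L[ℂ] Kh M)) :=
    {p | (∃ z ∈ Z, p = (z, mov M (Equiv.refl Γ) z)) ∨
      ∃ s, p = (lam s, mov M (Equiv.mulLeft s) (lam s))}
  have Rz : ∀ z ∈ Z, (z, mov M (Equiv.refl Γ) z) ∈ R := fun z hz => Or.inl ⟨z, hz, rfl⟩
  have Rl : ∀ s, (lam s, mov M (Equiv.mulLeft s) (lam s)) ∈ R := fun s => Or.inr ⟨s, rfl⟩
  have D : Dt ρ πh R := by
    refine ⟨?_, ?_, ?_, rn, isoh, rcont, conth⟩
    · rintro p (⟨z, hz, rfl⟩ | ⟨s, rfl⟩)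
      · dsimp only
        rw [(mz z hz).adjoint_eq]
        exact Rz _ (Zadj z hz)
      · dsimp only
        rw [(ml s).adjoint_eq, ladj]
        have := Rl s⁻¹
        have e : (Equiv.mulLeft s⁻¹ : Γ ≃ Γ) = (Equiv.mulLeft s).symm := by
          ext a; rfl
        rwa [e] at this
    · rintro p (⟨z, hz, rfl⟩ | ⟨s, rfl⟩) h
      · dsimp only
        rw [hπh, hπh, (mr h).mov_mul M (mz z hz), ((mr h).mul M (mz z hz)).mov_mul M (mr h⁻¹)]
        exact Rz _ (rZ h z hz)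
      · dsimp only
        rw [hπh, hπh, (mr h).mov_mul M (ml s), ((mr h).mul M (ml s)).mov_mul M (mr h⁻¹)]
        have e : ρ h * lam s * ρ h⁻¹ = lam s := by
          rw [rlam, mul_assoc, ← map_mul, mul_inv_cancel, map_one, mul_one]
        rw [e]
        exact Rl s
    · intro T hT
      exact sc' T (fun s => hT _ (Rl s)) (fun z hz => hT _ (Rz z hz))
  -- the intertwiner
  have hBR : ∀ p ∈ R, B.comp p.2 = p.1.comp B := by
    rintro p (⟨z, hz, rfl⟩ | ⟨s, rfl⟩)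
    · refine ext_del M fun a v => ?_
      change B (mov M (Equiv.refl Γ) z (del M a v)) = z (B (del M a v))
      rw [(mz z hz).apply, hBa, hBa]
      exact congrArg (fun A : K →L[ℂ] K => A v) (ZA z hz a).symm
    · refine ext_del M fun a v => ?_
      change B (mov M (Equiv.mulLeft s) (lam s) (del M a v)) = lam s (B (del M a v))
      rw [(ml s).apply, hBa, hBa]
      exact congrArg (fun A : K →L[ℂ] K => A v) (covA s a).symm
  have hT : adjoint B ∈ HMi.Tw R := by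
    intro p hp
    have h1 := hBR _ (D.adj p hp)
    have h2 := congrArg adjoint h1
    rw [adjoint_comp, adjoint_comp] at h2
    dsimp only at h2
    rw [adjoint_adjoint, adjoint_adjoint] at h2
    exact h2.symm
  obtain ⟨z, hz⟩ := D.tendsto (Ω := Ω) hS hT (del M 1 Ω)
  refine ⟨z, hz.congr fun h => ?_⟩
  have e : πh h (del M 1 Ω) = del M 1 (ρ h Ω) := (mr h).apply M 1 Ω
  rw [adjoint_inner_left, e, hBa]

/-- **[N-GAPB] (1), the Hilbert space part** (literal of #7059). -/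
theorem krn_lim (hS : HoweMoore S) (E : Γ → Γ → (K →L[ℂ] K)) (A : Γ → (K →L[ℂ] K))
    (herm : ∀ γ γ', adjoint (E γ γ') = E γ' γ)
    (psd : ∀ (s : Finset Γ) (ξ : Γ → K) (ζ : K), 0 ≤ ‖ζ‖ ^ 2 +
      2 * (∑ γ ∈ s, ⟪ζ, A γ (ξ γ)⟫_ℂ).re + (∑ γ ∈ s, ∑ γ' ∈ s, ⟪ξ γ', E γ' γ (ξ γ)⟫_ℂ).re)
    (lam : Γ →* (K →L[ℂ] K)) (ladj : ∀ γ, adjoint (lam γ) = lam γ⁻¹)
    (covE : ∀ s γ γ', lam s * E γ γ' = E (s * γ) (s * γ') * lam s)
    (covA : ∀ s γ, lam s * A γ = A (s * γ) * lam s)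
    (Z : Set (K →L[ℂ] K)) (Zadj : ∀ z ∈ Z, adjoint z ∈ Z)
    (ZE : ∀ z ∈ Z, ∀ γ γ', z * E γ γ' = E γ γ' * z) (ZA : ∀ z ∈ Z, ∀ γ, z * A γ = A γ * z)
    (ρ : S →* (K →L[ℂ] K)) (radj : ∀ g, adjoint (ρ g) = ρ g⁻¹)
    (rcont : ∀ ξ, Continuous fun g => ρ g ξ) (rE : ∀ g γ γ', ρ g * E γ γ' = E γ γ' * ρ g)
    (rZ : ∀ g, ∀ z ∈ Z, ρ g * z * ρ g⁻¹ ∈ Z) (rlam : ∀ g γ, ρ g * lam γ = lam γ * ρ g)
    (sc : ∀ T : K →L[ℂ] K, (∀ γ, T * lam γ = lam γ * T) → (∀ z ∈ Z, T * z = z * T) →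
      ∃ c : ℂ, T = c • (1 : K →L[ℂ] K)) (Ω : K) (hΩ : ‖Ω‖ = 1) :
    ∃ z : ℂ, Tendsto (fun h => ⟪ρ h Ω, A 1 (ρ h Ω)⟫_ℂ) (cocompact S) (𝓝 z) :=
  krn_lim' hS E A herm psd lam ladj covE covA Z Zadj ZE ZA ρ radj rcont rE rZ rlam
    (fun T h1 h2 g => by
      obtain ⟨c, rfl⟩ := sc T h1 h2
      rw [smul_mul_assoc, mul_smul_comm, one_mul, mul_one]) Ω

end lim

end Vale.Agent.P092.H729.Krn
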