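import Mathlib

/-!
P092, Team C (r = 1), block [C7-R] (helper729): the block lemma.  `P j` a total family of
projections, `y` the pinching of a projection `q` by the `P j`; eigenprojections of `y`.
-/

set_option autoImplicit false
set_option linter.all false

namespace Vale.Agent.P092.H729

section blk

variable {B : Type*} [Ring B] [StarRing B] [Algebra ℂ B] [StarModule ℂ B]

/-- Positivity of a `*`-algebra. -/
def Psv (B : Type*) [Ring B] [StarRing B] : Prop :=
  ∀ a b : B, star a * a + star b * b = 0 → a = 0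

theorem Psv.eq_zero (hB : Psv B) {a : B} (h : star a * a = 0) : a = 0 :=
  hB a 0 (by rw [h, mul_zero, add_zero])

/-- `star a * a = φ • (star b * b)` with `b ≠ 0` forces `φ` to be a nonnegative real. -/
theorem Psv.nonneg (hB : Psv B) {a b : B} {φ : ℂ} (h : star a * a = φ • (star b * b))
    (hb : b ≠ 0) : ∃ r : ℝ, 0 ≤ r ∧ φ = r := by
  have hbb : star b * b ≠ 0 := fun h0 => hb (hB.eq_zero h0)
  have h1 : star a * a = (starRingEnd ℂ) φ • (star b * b) := by
    have := congrArg star h
    rw [star_mul, star_star, star_smul, star_mul, star_star] at this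
    exact this
  have h2 : (φ - (starRingEnd ℂ) φ) • (star b * b) = 0 := by
    rw [sub_smul, ← h, ← h1, sub_self]
  have h3 : φ - (starRingEnd ℂ) φ = 0 := (smul_eq_zero.1 h2).resolve_right hbb
  have h4 : (φ.re : ℂ) = φ := Complex.conj_eq_iff_re.1 (sub_eq_zero.1 h3).symm
  refine ⟨φ.re, ?_, h4.symm⟩
  by_contra hneg
  push Not at hneg
  have h5 : star a * a + star (((Real.sqrt (-φ.re) : ℝ) : ℂ) • b) *
      (((Real.sqrt (-φ.re) : ℝ) : ℂ) • b) = 0 := by
    rw [star_smul, smul_mul_smul_comm]
    have h6 : star ((Real.sqrt (-φ.re) : ℝ) : ℂ) * ((Real.sqrt (-φ.re) : ℝ) : ℂ) = -φ := by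
      rw [Complex.star_def, Complex.conj_ofReal, ← Complex.ofReal_mul,
        Real.mul_self_sqrt (by linarith), Complex.ofReal_neg, h4]
    rw [h6, neg_smul, ← h, add_neg_cancel]
  have h7 := hB _ _ (by rw [add_comm] at h5; exact h5)
  have h8 : ((Real.sqrt (-φ.re) : ℝ) : ℂ) ≠ 0 := by
    rw [Complex.ofReal_ne_zero]
    exact (Real.sqrt_pos.2 (by linarith)).ne'
  exact hb ((smul_eq_zero.1 h7).resolve_left h8)

variable {J : Type*} {P : J → B}

/-- A total family of projections. -/
structure Tot (P : J → B) : Prop where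
  sa : ∀ j, star (P j) = P j
  idem : ∀ j, P j * P j = P j
  tot : ∀ X : B, (∀ j, X * P j = 0) → X = 0

/-- `y` is the pinching of `q`. -/
structure Pin (P : J → B) (q y : B) : Prop where
  sa : star q = q
  idem : q * q = q
  l : ∀ j, P j * y = P j * q * P j
  r : ∀ j, y * P j = P j * q * P j

theorem Pin.y_sa (hP : Tot P) {q y : B} (h : Pin P q y) : star y = y := by
  refine sub_eq_zero.1 (hP.tot _ fun j => ?_)
  have h1 : star y * P j = P j * q * P j := by
    have := congrArg star (h.l j)
    rw [star_mul, star_mul, star_mul, hP.sa, h.sa, ← mul_assoc] at this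
    exact this
  rw [sub_mul, h1, h.r, sub_self]

/-- The key identity. -/
theorem Pin.key (hP : Tot P) {q y e : B} (h : Pin P q y) (he : star e = e) {φ : ℂ}
    (hy : y * e = φ • e) (hφ : (starRingEnd ℂ) φ = φ) (j : J) :
    star (q * P j * e) * (q * P j * e) = φ • (star (P j * e) * (P j * e)) := by
  have h1 : e * y = φ • e := by
    have := congrArg star hy
    rw [star_mul, star_smul, he, h.y_sa hP, Complex.star_def, hφ] at this
    exact this
  rw [star_mul, star_mul, star_mul, h.sa, hP.sa, he]
  calc e * (P j * q) * (q * P j * e) = e * (P j * (q * q) * P j) * e := by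
        simp only [mul_assoc]
    _ = e * (y * P j) * e := by rw [h.idem, h.r]
    _ = (e * y) * P j * e := by simp only [mul_assoc]
    _ = φ • (e * P j * e) := by rw [h1, smul_mul_assoc, smul_mul_assoc]
    _ = φ • (e * (P j * P j) * e) := by rw [hP.idem]
    _ = _ := by simp only [mul_assoc]

/-- An eigenvalue of a self adjoint element on a nonzero projection is real. -/
theorem real_eig (hB : Psv B) {y e : B} (hy : star y = y) (he : star e = e) (hee : e * e = e)
    (hne : e ≠ 0) {φ : ℂ} (h : y * e = φ • e) : (starRingEnd ℂ) φ = φ := by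
  have h1 : e * y * e = φ • e := by rw [mul_assoc, h, mul_smul_comm, hee]
  have h2 : e * y * e = (starRingEnd ℂ) φ • e := by
    have := congrArg star h1
    rw [star_mul, star_mul, star_smul, he, hy, ← mul_assoc] at this
    exact this
  have h3 : ((starRingEnd ℂ) φ - φ) • e = 0 := by rw [sub_smul, ← h1, ← h2, sub_self]
  exact sub_eq_zero.1 ((smul_eq_zero.1 h3).resolve_right hne)

theorem exists_ne (hP : Tot P) {e : B} (he : star e = e) (hne : e ≠ 0) : ∃ j, P j * e ≠ 0 := by
  by_contra hno
  push Not at hno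
  refine hne (hP.tot e fun j => ?_)
  have := congrArg star (hno j)
  rwa [star_mul, hP.sa, he, star_zero] at this

/-- The eigenvalues of the pinching are nonnegative. -/
theorem Pin.nonneg (hB : Psv B) (hP : Tot P) {q y e : B} (h : Pin P q y) (he : star e = e)
    (hee : e * e = e) (hne : e ≠ 0) {φ : ℂ} (hy : y * e = φ • e) : ∃ r : ℝ, 0 ≤ r ∧ φ = r := by
  obtain ⟨j, hj⟩ := exists_ne hP he hne
  exact hB.nonneg (h.key hP he hy (real_eig hB (h.y_sa hP) he hee hne hy) j) hj

/-- The eigenvalue on a projection below `q` is positive. -/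
theorem Pin.pos (hB : Psv B) (hP : Tot P) {q y e : B} (h : Pin P q y) (he : star e = e)
    (hee : e * e = e) (hne : e ≠ 0) {φ : ℂ} (hy : y * e = φ • e) (hqe : q * e = e) :
    ∃ r : ℝ, 0 < r ∧ φ = r := by
  obtain ⟨r, hr, hφ⟩ := h.nonneg hB hP he hee hne hy
  refine ⟨r, lt_of_le_of_ne hr fun h0 => hne ?_, hφ⟩
  have h1 : ∀ j, P j * e = 0 := by
    intro j
    have h2 := h.key hP he hy (real_eig hB (h.y_sa hP) he hee hne hy) j
    rw [hφ, ← h0, Complex.ofReal_zero, zero_smul] at h2
    have h3 := hB.eq_zero h2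
    have heq : e * q = e := by
      have := congrArg star hqe
      rwa [star_mul, he, h.sa] at this
    refine hB.eq_zero ?_
    rw [star_mul, hP.sa, he]
    calc e * P j * (P j * e) = e * (P j * P j) * e := by simp only [mul_assoc]
      _ = (e * q) * P j * e := by rw [hP.idem, heq]
      _ = e * (q * P j * e) := by simp only [mul_assoc]
      _ = 0 := by rw [h3, mul_zero]
  by_contra hne'
  obtain ⟨j, hj⟩ := exists_ne hP he hne'
  exact hj (h1 j)

/-- Orthogonal projections `q i` and their pinchings: the sum of the eigenvalues on a common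
eigenprojection is at most `1`. -/
theorem sum_le_one (hB : Psv B) (hP : Tot P) {I : Type*} (F : Finset I) {q y : I → B}
    (h : ∀ i ∈ F, Pin P (q i) (y i)) (ho : ∀ i ∈ F, ∀ j ∈ F, i ≠ j → q i * q j = 0) {e : B}
    (he : star e = e) (hee : e * e = e) (hne : e ≠ 0) {φ : I → ℝ}
    (hy : ∀ i ∈ F, y i * e = (φ i : ℂ) • e) : ∑ i ∈ F, φ i ≤ 1 := by
  classical
  have hs : star (∑ i ∈ F, q i) = ∑ i ∈ F, q i := by
    rw [star_sum]
    exact Finset.sum_congr rfl fun i hi => (h i hi).sa
  have hi : (∑ i ∈ F, q i) * (∑ i ∈ F, q i) = ∑ i ∈ F, q i := by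
    rw [Finset.sum_mul]
    refine Finset.sum_congr rfl fun i hi => ?_
    rw [Finset.mul_sum, Finset.sum_eq_single i]
    · exact (h i hi).idem
    · exact fun j hj hji => ho i hi j hj (Ne.symm hji)
    · exact fun hni => absurd hi hni
  have hpin : Pin P (1 - ∑ i ∈ F, q i) (1 - ∑ i ∈ F, y i) := by
    refine ⟨by rw [star_sub, star_one, hs], ?_, fun j => ?_, fun j => ?_⟩
    · rw [mul_sub, mul_one, sub_mul, one_mul, hi]; abel
    · rw [mul_sub, mul_one, mul_sub, mul_one, sub_mul, hP.idem, Finset.mul_sum, Finset.mul_sum,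
        Finset.sum_mul]
      congr 1
      exact Finset.sum_congr rfl fun i hi => (h i hi).l j
    · rw [sub_mul, one_mul, mul_sub, mul_one, sub_mul, hP.idem, Finset.sum_mul, Finset.mul_sum,
        Finset.sum_mul]
      congr 1
      exact Finset.sum_congr rfl fun i hi => (h i hi).r j
  have hy' : (1 - ∑ i ∈ F, y i) * e = ((1 - ∑ i ∈ F, φ i : ℝ) : ℂ) • e := by
    rw [sub_mul, one_mul, Finset.sum_mul, Finset.sum_congr rfl hy, ← Finset.sum_smul,
      Complex.ofReal_sub, Complex.ofReal_one, sub_smul, one_smul, Complex.ofReal_sum]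
  obtain ⟨r, hr, hφ⟩ := hpin.nonneg hB hP he hee hne hy'
  have : (1 - ∑ i ∈ F, φ i : ℝ) = r := by exact_mod_cast hφ
  linarith

/-- The spectral projection of the pinching commutes with the `P j`. -/
theorem comm_block (hP : Tot P) {K : Type*} {e : K → B} (he : Tot e)
    (ho : ∀ k l, k ≠ l → e k * e l = 0) {q y : B} (h : Pin P q y) {φ : K → ℝ}
    (hy : ∀ k, y * e k = (φ k : ℂ) • e k) (S : Finset K) {c : ℝ} (hS : ∀ k ∈ S, φ k = c)
    (hS' : ∀ k, k ∉ S → φ k ≠ c) (j : J) :
    P j * (∑ k ∈ S, e k) = (∑ k ∈ S, e k) * P j := by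
  classical
  have hys := h.y_sa hP
  have hcomm : P j * y = y * P j := by rw [h.l, h.r]
  have hl : ∀ k, e k * y = (φ k : ℂ) • e k := by
    intro k
    have := congrArg star (hy k)
    rw [star_mul, star_smul, he.sa, hys, Complex.star_def, Complex.conj_ofReal] at this
    exact this
  have hkl : ∀ k l, φ k ≠ φ l → e k * P j * e l = 0 := by
    intro k l hne
    have h1 : (φ k : ℂ) • (e k * P j * e l) = (φ l : ℂ) • (e k * P j * e l) := by
      calc (φ k : ℂ) • (e k * P j * e l) = (e k * y) * P j * e l := by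
            rw [hl, smul_mul_assoc, smul_mul_assoc]
        _ = e k * (y * P j) * e l := by simp only [mul_assoc]
        _ = e k * (P j * y) * e l := by rw [hcomm]
        _ = e k * P j * (y * e l) := by simp only [mul_assoc]
        _ = _ := by rw [hy, mul_smul_comm]
    have h2 : ((φ k : ℂ) - (φ l : ℂ)) • (e k * P j * e l) = 0 := by
      rw [sub_smul, h1, sub_self]
    refine (smul_eq_zero.1 h2).resolve_left fun h3 => hne ?_
    exact_mod_cast sub_eq_zero.1 h3
  set s := ∑ k ∈ S, e k with hs
  have hse : ∀ l, s * e l = if l ∈ S then e l else 0 := by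
    intro l
    rw [hs, Finset.sum_mul]
    split_ifs with hl'
    · rw [Finset.sum_eq_single l]
      · exact he.idem l
      · exact fun k _ hk => ho k l hk
      · exact fun hn => absurd hl' hn
    · refine Finset.sum_eq_zero fun k hk => ho k l ?_
      rintro rfl
      exact hl' hk
  have hss : star s = s := by
    rw [hs, star_sum]
    exact Finset.sum_congr rfl fun k _ => he.sa k
  -- `s P (1 - s) = 0`
  have h1 : s * P j * (1 - s) = 0 := by
    refine he.tot _ fun l => ?_
    rw [mul_assoc, sub_mul, one_mul, hse]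
    split_ifs with hl'
    · rw [sub_self, mul_zero]
    · rw [sub_zero, hs, Finset.sum_mul, Finset.sum_mul]
      refine Finset.sum_eq_zero fun k hk => ?_
      refine hkl k l ?_
      rw [hS k hk]
      exact fun h => hS' l hl' h.symm
  have h2 : s * P j = s * P j * s := by
    rw [mul_sub, mul_one, sub_eq_zero] at h1
    exact h1
  have h3 : P j * s = s * P j * s := by
    have := congrArg star h2
    rw [star_mul, star_mul, star_mul, hss, hP.sa, ← mul_assoc] at this
    exact this
  rw [h3, ← h2]

end blk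

end Vale.Agent.P092.H729
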