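import Vale.Agent.P092.H574.DelR

/-!
P092, Team C, block [C7-R] (helper729), group theory for `n = 3`: a subgroup of `PGL₂(k)` which is
normalised by the image of `δ` and all of whose elements are power bounded is trivial.
-/

set_option autoImplicit false
set_option linter.all false

open Matrix Filter Topology Projectivization
open scoped LinearAlgebra.Projectivization MatrixGroups

namespace Vale.Agent.P092.H729

open Vale.Agent.P092.H574

section alg

variable {k : Type*} [Field k]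

/-- the point `[0 : 1]` -/
def e1 : P1 k := mk k ![0, 1] (by simp)

theorem e0_ne_e1 : (e0 : P1 k) ≠ e1 := by
  unfold e0 e1
  rw [Ne, mk_eq_mk_iff']
  rintro ⟨c, hc⟩
  have := congrFun hc 0
  simp at this

theorem cross_ne {v w : Fin 2 → k} (hv : v ≠ 0) (hw : w ≠ 0)
    (h : (mk k v hv : P1 k) ≠ mk k w hw) : v 0 * w 1 - v 1 * w 0 ≠ 0 := by
  intro h0
  apply h
  rw [mk_eq_mk_iff']
  by_cases hw0 : w 0 = 0
  · have hw1 : w 1 ≠ 0 := by
      intro hw1
      apply hw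
      ext i
      fin_cases i
      · simpa using hw0
      · simpa using hw1
    refine ⟨v 1 / w 1, ?_⟩
    have hv0 : v 0 = 0 := by
      rw [hw0, mul_zero, sub_zero] at h0
      exact (mul_eq_zero.1 h0).resolve_right hw1
    ext i
    fin_cases i
    · simp [hw0, hv0]
    · simp [hw1]
  · refine ⟨v 0 / w 0, ?_⟩
    ext i
    fin_cases i
    · simp [hw0]
    · simp
      field_simp
      linear_combination h0

theorem fixq {A : GL (Fin 2) k} {v : Fin 2 → k} {hv : v ≠ 0}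
    (h : A • (mk k v hv : P1 k) = mk k v hv) :
    A.1 1 0 * v 0 ^ 2 + (A.1 1 1 - A.1 0 0) * (v 0 * v 1) - A.1 0 1 * v 1 ^ 2 = 0 := by
  rw [smul_mk, mk_eq_mk_iff'] at h
  obtain ⟨c, hc⟩ := h
  rw [smul_vec] at hc
  have h0 := congrFun hc 0
  have h1 := congrFun hc 1
  simp only [Pi.smul_apply, smul_eq_mul, Matrix.mulVec, dotProduct, Fin.sum_univ_two] at h0 h1
  linear_combination (v 1) * h0 - (v 0) * h1

/-- three fixed points -/
theorem three {A : GL (Fin 2) k} {p₁ p₂ p₃ : P1 k} (h₁ : A • p₁ = p₁) (h₂ : A • p₂ = p₂)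
    (h₃ : A • p₃ = p₃) (h12 : p₁ ≠ p₂) (h13 : p₁ ≠ p₃) (h23 : p₂ ≠ p₃) :
    A ∈ Subgroup.center (GL (Fin 2) k) := by
  induction p₁ using Projectivization.ind with
  | h v hv =>
  induction p₂ using Projectivization.ind with
  | h w hw =>
  induction p₃ using Projectivization.ind with
  | h u hu =>
  have k1 := fixq h₁
  have k2 := fixq h₂
  have k3 := fixq h₃
  have c12 := cross_ne hv hw h12
  have c13 := cross_ne hv hu h13
  have c23 := cross_ne hw hu h23
  have hD : (v 0 * w 1 - v 1 * w 0) * (v 0 * u 1 - v 1 * u 0) * (w 0 * u 1 - w 1 * u 0) ≠ 0 :=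
    mul_ne_zero (mul_ne_zero c12 c13) c23
  let M : Matrix (Fin 3) (Fin 3) k := !![v 0 ^ 2, v 0 * v 1, v 1 ^ 2; w 0 ^ 2, w 0 * w 1, w 1 ^ 2;
    u 0 ^ 2, u 0 * u 1, u 1 ^ 2]
  have hM : M.det ≠ 0 := by
    have : M.det = (v 0 * w 1 - v 1 * w 0) * (v 0 * u 1 - v 1 * u 0) *
        (w 0 * u 1 - w 1 * u 0) := by
      rw [Matrix.det_fin_three]
      simp [M]
      ring
    rw [this]
    exact hD
  have h0 := Matrix.eq_zero_of_mulVec_eq_zero hM (v := ![A.1 1 0, A.1 1 1 - A.1 0 0, -A.1 0 1]) (by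
    ext i
    fin_cases i
    · simp [M, Matrix.mulVec, dotProduct, Fin.sum_univ_three]
      linear_combination k1
    · simp [M, Matrix.mulVec, dotProduct, Fin.sum_univ_three]
      linear_combination k2
    · simp [M, Matrix.mulVec, dotProduct, Fin.sum_univ_three]
      linear_combination k3)
  have a0 := congrFun h0 0
  have a1 := congrFun h0 1
  have a2 := congrFun h0 2
  simp at a0 a1 a2
  rw [center_iff']
  exact ⟨a2, a0, by linear_combination -a1⟩

theorem fix_dg {α : k} (hα : α ≠ 0) (h1 : α ≠ 1) {p : P1 k} (h : dg α hα • p = p) :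
    p = e0 ∨ p = e1 := by
  induction p using Projectivization.ind with
  | h v hv =>
  have k1 := fixq h
  simp at k1
  have h2 : (1 - α) ≠ 0 := sub_ne_zero.2 (Ne.symm h1)
  rcases k1 with k1 | k1 | k1
  · exact absurd k1 h2
  · right
    unfold e1
    rw [mk_eq_mk_iff']
    refine ⟨v 1, ?_⟩
    ext i
    fin_cases i <;> simp [k1]
  · left
    unfold e0
    rw [mk_eq_mk_iff']
    refine ⟨v 0, ?_⟩
    ext i
    fin_cases i <;> simp [k1]

theorem smul_e1 {W : GL (Fin 2) k} (h : W.1 0 1 = 0) : W • (e1 : P1 k) = e1 := by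
  unfold e1
  rw [smul_mk, mk_eq_mk_iff']
  refine ⟨W.1 1 1, ?_⟩
  rw [smul_vec]
  ext i
  fin_cases i <;> simp [Matrix.mulVec, dotProduct, Fin.sum_univ_two, h]

theorem exists_two {x y : P1 k} (h : x ≠ y) :
    ∃ g : GL (Fin 2) k, g • (e0 : P1 k) = x ∧ g • (e1 : P1 k) = y := by
  obtain ⟨g, rfl⟩ := exists_smul_e0 x
  have h1 : g⁻¹ • y ≠ e0 := by
    intro h2
    apply h
    rw [← h2, smul_inv_smul]
  obtain ⟨b, hb⟩ := exists_un_smul h1
  refine ⟨g * (un b)⁻¹, ?_, ?_⟩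
  · rw [mul_smul]
    congr 1
    rw [inv_smul_eq_iff, eq_comm, smul_e0]
    simp
  · have h2 : (e1 : P1 k) = un b • g⁻¹ • y := hb.symm
    rw [h2, mul_smul, inv_smul_smul, smul_inv_smul]

theorem af_eq {α β : k} (hα : α ≠ 0) (h1 : α ≠ 1) :
    af α β hα = un (β / (1 - α)) * dg α hα * (un (β / (1 - α)))⁻¹ := by
  have h2 : (1 - α) ≠ 0 := sub_ne_zero.2 (Ne.symm h1)
  rw [un_inv]
  apply Units.ext
  rw [Units.val_mul, Units.val_mul, un_val, un_val, dg_val, af_val]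
  ext i j
  fin_cases i <;> fin_cases j <;> simp [Matrix.mul_apply, Fin.sum_univ_two]
  field_simp
  ring

theorem dg_pow {α : k} (hα : α ≠ 0) (n : ℕ) : dg α hα ^ n = dg (α ^ n) (pow_ne_zero n hα) := by
  induction n with
  | zero =>
    apply Units.ext
    rw [pow_zero, Units.val_one, dg_val]
    ext i j
    fin_cases i <;> fin_cases j <;> simp
  | succ n ih =>
    rw [pow_succ, ih]
    apply Units.ext
    rw [Units.val_mul, dg_val, dg_val, dg_val]
    ext i j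
    fin_cases i <;> fin_cases j <;> simp [Matrix.mul_apply, Fin.sum_univ_two, pow_succ]

/-- the trace of a commutator with a diagonal matrix -/
theorem trd_comm {α : k} (hα : α ≠ 0) (W : GL (Fin 2) k) :
    trd (dg α hα * W * (dg α hα)⁻¹ * W⁻¹) =
      ((2 * (W.1 0 0 * W.1 1 1) - (α + α⁻¹) * (W.1 0 1 * W.1 1 0)) / W.1.det) ^ 2 := by
  have hW := det_ne W
  have hdet : (dg α hα * W * (dg α hα)⁻¹ * W⁻¹).1.det = 1 := by
    rw [Units.val_mul, Units.val_mul, Units.val_mul, det_mul, det_mul, det_mul]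
    have e1 : (dg α hα).1.det * ((dg α hα)⁻¹).1.det = 1 := by
      rw [← det_mul, ← Units.val_mul, mul_inv_cancel, Units.val_one, det_one]
    have e2 : W.1.det * (W⁻¹).1.det = 1 := by
      rw [← det_mul, ← Units.val_mul, mul_inv_cancel, Units.val_one, det_one]
    calc (dg α hα).1.det * W.1.det * ((dg α hα)⁻¹).1.det * (W⁻¹).1.det =
        ((dg α hα).1.det * ((dg α hα)⁻¹).1.det) * (W.1.det * (W⁻¹).1.det) := by ring
      _ = 1 := by rw [e1, e2, one_mul]
  have hdi : ((dg α hα)⁻¹).1 = !![α⁻¹, 0; 0, 1] := by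
    have : (dg α hα)⁻¹ = dg α⁻¹ (inv_ne_zero hα) := by
      rw [inv_eq_iff_mul_eq_one]
      apply Units.ext
      rw [Units.val_mul, dg_val, dg_val, Units.val_one]
      ext i j
      fin_cases i <;> fin_cases j <;> simp [Matrix.mul_apply, Fin.sum_univ_two, hα]
    rw [this, dg_val]
  have hWi : (W⁻¹).1 = (W.1.det)⁻¹ • !![W.1 1 1, -W.1 0 1; -W.1 1 0, W.1 0 0] := by
    rw [Matrix.coe_units_inv, Matrix.inv_def, Ring.inverse_eq_inv', Matrix.adjugate_fin_two]
  have key : ∀ a b c d D : k, D ≠ 0 → (!![α, 0; 0, 1] * !![a, b; c, d] * !![α⁻¹, 0; 0, 1] *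
      (D⁻¹ • !![d, -b; -c, a])).trace = (2 * (a * d) - (α + α⁻¹) * (b * c)) / D := by
    intro a b c d D hD
    rw [Matrix.trace_fin_two]
    simp [Matrix.mul_apply, Fin.sum_univ_two]
    field_simp
    ring
  have h2 := key (W.1 0 0) (W.1 0 1) (W.1 1 0) (W.1 1 1) W.1.det hW
  rw [← Matrix.eta_fin_two W.1] at h2
  unfold trd
  rw [hdet, div_one]
  congr 1
  rw [Units.val_mul, Units.val_mul, Units.val_mul, hdi, hWi, dg_val, h2]

theorem trd_sq (A : GL (Fin 2) k) : trd (A * A) = (trd A - 2) ^ 2 := by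
  have hA := det_ne A
  unfold trd
  rw [Units.val_mul, det_mul]
  have h1 : (A.1 * A.1).trace = A.1.trace ^ 2 - 2 * A.1.det := by
    rw [Matrix.trace_fin_two, Matrix.trace_fin_two, Matrix.det_fin_two]
    simp [Matrix.mul_apply, Fin.sum_univ_two]
    ring
  rw [h1]
  field_simp

end alg

section top

variable {k : Type*} [NontriviallyNormedField k] [IsUltrametricDist k]

theorem trq_sq (x : G0 k) : trq (x * x) = (trq x - 2) ^ 2 := by
  obtain ⟨A, rfl⟩ := mkG_surj x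
  rw [← map_mul, trq_mk, trq_mk, trd_sq]

/-- the trace of a power bounded element is integral -/
theorem trq_le {x : G0 k} (h : ∃ C : Set (G0 k), IsCompact C ∧ ∀ m : ℕ, x ^ m ∈ C) :
    ‖trq x‖ ≤ 1 := by
  obtain ⟨C, hC, hx⟩ := h
  by_contra h1
  push Not at h1
  have h2 : ∀ n : ℕ, ‖trq (x ^ 2 ^ n)‖ = ‖trq x‖ ^ 2 ^ n := by
    intro n
    induction n with
    | zero => simp
    | succ n ih =>
      have h3 : x ^ 2 ^ (n + 1) = x ^ 2 ^ n * x ^ 2 ^ n := by
        rw [← pow_add]; congr 1; ring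
      rw [h3, trq_sq, norm_pow]
      have h4 : ‖(2 : k)‖ < ‖trq (x ^ 2 ^ n)‖ := by
        rw [ih]
        calc ‖(2 : k)‖ ≤ 1 := by
              have := IsUltrametricDist.norm_natCast_le_one k 2
              exact_mod_cast this
          _ < ‖trq x‖ ^ 2 ^ n := one_lt_pow₀ h1 (by positivity)
      have h5 : ‖trq (x ^ 2 ^ n) - 2‖ = ‖trq (x ^ 2 ^ n)‖ := by
        rw [sub_eq_add_neg]
        rw [IsUltrametricDist.norm_add_eq_max_of_norm_ne_norm (by rw [norm_neg]; exact h4.ne')]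
        rw [norm_neg, max_eq_left h4.le]
      rw [h5, ih, ← pow_mul]
      congr 1
  obtain ⟨B, hB⟩ := (hC.image trq_cont).isBounded.exists_norm_le
  obtain ⟨n, hn⟩ := pow_unbounded_of_one_lt B h1
  have h3 : ‖trq (x ^ 2 ^ n)‖ ≤ B := hB _ ⟨_, hx _, rfl⟩
  rw [h2] at h3
  have h4 : ‖trq x‖ ^ n ≤ ‖trq x‖ ^ 2 ^ n := pow_le_pow_right₀ h1.le (Nat.lt_two_pow_self).le
  linarith

/-- one of the two off diagonal entries vanishes -/
theorem off_zero {α : k} (hα : α ≠ 0) (h1 : ‖α‖ < 1) {W : GL (Fin 2) k}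
    (h : ∀ n : ℕ, ‖trd (dg α hα ^ n * W * (dg α hα ^ n)⁻¹ * W⁻¹)‖ ≤ 1) :
    W.1 0 1 = 0 ∨ W.1 1 0 = 0 := by
  rw [← mul_eq_zero]
  by_contra hx
  set x := W.1 0 1 * W.1 1 0 with hxd
  have hd : 0 < ‖W.1.det‖ := norm_pos_iff.2 (det_ne W)
  have hxp : 0 < ‖x‖ := norm_pos_iff.2 hx
  obtain ⟨n, hn⟩ := pow_unbounded_of_one_lt
    ((‖W.1.det‖ + ‖2 * (W.1 0 0 * W.1 1 1)‖ + ‖x‖) / ‖x‖)
    (one_lt_inv₀ (norm_pos_iff.2 hα) |>.2 h1)
  have h2 := h n
  rw [dg_pow, trd_comm, norm_pow] at h2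
  have h3 : ‖(2 * (W.1 0 0 * W.1 1 1) - (α ^ n + (α ^ n)⁻¹) * (W.1 0 1 * W.1 1 0)) / W.1.det‖ ≤ 1 :=
    (pow_le_one_iff_of_nonneg (norm_nonneg _) two_ne_zero).1 h2
  rw [norm_div, div_le_one hd] at h3
  have h4 : (α ^ n)⁻¹ * x = 2 * (W.1 0 0 * W.1 1 1) -
      (2 * (W.1 0 0 * W.1 1 1) - (α ^ n + (α ^ n)⁻¹) * (W.1 0 1 * W.1 1 0)) - α ^ n * x := by
    rw [hxd]; ring
  have h5 : ‖(α ^ n)⁻¹ * x‖ ≤ ‖2 * (W.1 0 0 * W.1 1 1)‖ + ‖W.1.det‖ + ‖x‖ := by
    rw [h4]
    refine (norm_sub_le _ _).trans (add_le_add ((norm_sub_le _ _).trans (add_le_add le_rfl h3)) ?_)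
    rw [norm_mul, norm_pow]
    exact mul_le_of_le_one_left (norm_nonneg _) (pow_le_one₀ (norm_nonneg _) h1.le)
  rw [norm_mul, norm_inv, norm_pow, ← inv_pow] at h5
  rw [div_lt_iff₀ hxp] at hn
  linarith

/-- for each pair of points of the source one of the images is fixed -/
theorem fix_one {Δ : GL (Fin 2) k →* G0 k} {d : P1 k → P1 k} (hd : Star Δ d)
    {N : Subgroup (G0 k)} (hN : ∀ h, ∀ n ∈ N, Δ h * n * (Δ h)⁻¹ ∈ N)
    (hb : ∀ g ∈ N, ∃ C : Set (G0 k), IsCompact C ∧ ∀ m : ℕ, g ^ m ∈ C) {v : G0 k} (hv : v ∈ N)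
    {x y : P1 k} (hxy : x ≠ y) : pm v (d x) = d x ∨ pm v (d y) = d y := by
  obtain ⟨h, rfl, rfl⟩ := exists_two hxy
  obtain ⟨a, ha, ha1⟩ := exists_small (k := k)
  obtain ⟨g, α, β, c, hα, hα1, hc, hg, ht, -⟩ := hd.hyp a ha ha1 h
  have hαne : α ≠ 1 := by rintro rfl; rw [norm_one] at hα1; exact lt_irrefl _ hα1
  have hane : a ≠ 1 := by rintro rfl; rw [norm_one] at ha1; exact lt_irrefl _ ha1
  set t := h * dg a ha * h⁻¹ with htd
  obtain ⟨g', hg'⟩ : ∃ g' : GL (Fin 2) k, Δ t = mkG (g' * dg α hα * g'⁻¹) := by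
    refine ⟨g * un (β / (1 - α)), ?_⟩
    rw [ht, af_eq hα hαne]
    congr 1
    group
  obtain ⟨V, hV⟩ := mkG_surj v
  set W := g'⁻¹ * V * g' with hW
  have hVW : V = g' * W * g'⁻¹ := by rw [hW]; group
  -- the off diagonal entries
  have hoff : W.1 0 1 = 0 ∨ W.1 1 0 = 0 := by
    refine off_zero hα hα1 fun n => ?_
    have h1 : Δ (t ^ n) * v * (Δ (t ^ n))⁻¹ * v⁻¹ ∈ N := N.mul_mem (hN _ _ hv) (N.inv_mem hv)
    have h2 := trq_le (hb _ h1)
    have h3 : Δ (t ^ n) * v * (Δ (t ^ n))⁻¹ * v⁻¹ =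
        mkG (g' * (dg α hα ^ n * W * (dg α hα ^ n)⁻¹ * W⁻¹) * g'⁻¹) := by
      have h4 : Δ (t ^ n) = mkG (g' * dg α hα ^ n * g'⁻¹) := by
        rw [map_pow, hg', ← map_pow, conj_pow]
      rw [h4, ← hV, ← map_mul, ← map_inv, ← map_mul, ← map_inv, ← map_mul, hVW]
      congr 1
      group
    rw [h3, trq_mk, trd_conj] at h2
    exact h2
  have hfix : pm v (g' • e0) = g' • e0 ∨ pm v (g' • e1) = g' • e1 := by
    rcases hoff with h0 | h0
    · right
      rw [← hV, pm_mk, hVW, mul_smul, mul_smul, inv_smul_smul, smul_e1 h0]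
    · left
      rw [← hV, pm_mk, hVW, mul_smul, mul_smul, inv_smul_smul, smul_e0.2 h0]
  -- the fixed points of `Δ t`
  have hft : ∀ p : P1 k, pm (Δ t) p = p → p = g' • e0 ∨ p = g' • e1 := by
    intro p hp
    rw [hg', pm_mk, mul_smul, mul_smul] at hp
    have h1 : dg α hα • (g'⁻¹ • p) = g'⁻¹ • p := by
      rw [eq_inv_smul_iff]; exact hp
    rcases fix_dg hα hαne h1 with h2 | h2
    · left; rw [← h2, smul_inv_smul]
    · right; rw [← h2, smul_inv_smul]
  have ht0 : pm (Δ t) (d (h • e0)) = d (h • e0) := by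
    rw [← hd.equi, htd, mul_smul, mul_smul, inv_smul_smul]
    congr 2
    rw [smul_e0]; simp
  have ht1 : pm (Δ t) (d (h • e1)) = d (h • e1) := by
    rw [← hd.equi, htd, mul_smul, mul_smul, inv_smul_smul]
    congr 2
    exact smul_e1 (by simp)
  have hne : d (h • e0) ≠ d (h • e1) := fun h0 => hxy (hd.inj h0)
  rcases hft _ ht0 with p0 | p0 <;> rcases hft _ ht1 with p1 | p1
  · exact absurd (p0.trans p1.symm) hne
  · rw [p0, p1]; exact hfix
  · rw [p0, p1]; exact hfix.symm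
  · exact absurd (p0.trans p1.symm) hne

/-- the points `[s : 1]` -/
def ps (s : k) : P1 k := mk k ![s, 1] (by simp)

theorem ps_inj {s t : k} (h : ps s = ps t) : s = t := by
  unfold ps at h
  rw [mk_eq_mk_iff'] at h
  obtain ⟨c, hc⟩ := h
  have h0 := congrFun hc 0
  have h1 := congrFun hc 1
  simp at h0 h1
  rw [h1, one_mul] at h0
  exact h0.symm

/-- **No bounded subgroup.** -/
theorem no_bdd [CharZero k] {Δ : GL (Fin 2) k →* G0 k} {d : P1 k → P1 k} (hd : Star Δ d)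
    {N : Subgroup (G0 k)} (hN : ∀ h, ∀ n ∈ N, Δ h * n * (Δ h)⁻¹ ∈ N)
    (hb : ∀ g ∈ N, ∃ C : Set (G0 k), IsCompact C ∧ ∀ m : ℕ, g ^ m ∈ C) : N = ⊥ := by
  refine (Subgroup.eq_bot_iff_forall _).2 fun v hv => ?_
  have key : ∀ x y : P1 k, x ≠ y → pm v (d x) = d x ∨ pm v (d y) = d y := fun x y hxy =>
    fix_one hd hN hb hv hxy
  have hthree : ∀ x y z : P1 k, x ≠ y → x ≠ z → y ≠ z → pm v (d x) = d x → pm v (d y) = d y →
      pm v (d z) = d z → v = 1 := by
    intro x y z hxy hxz hyz h1 h2 h3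
    obtain ⟨V, rfl⟩ := mkG_surj v
    exact mkG_eq_one.2 (three h1 h2 h3 (fun h => hxy (hd.inj h)) (fun h => hxz (hd.inj h))
      (fun h => hyz (hd.inj h)))
  have hne : ∀ i j : ℕ, i ≠ j → ps (i : k) ≠ ps (j : k) := fun i j hij h => hij (by
    have := ps_inj h
    exact_mod_cast this)
  have k01 := key _ _ (hne 0 1 (by norm_num))
  have k02 := key _ _ (hne 0 2 (by norm_num))
  have k03 := key _ _ (hne 0 3 (by norm_num))
  have k12 := key _ _ (hne 1 2 (by norm_num))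
  have k13 := key _ _ (hne 1 3 (by norm_num))
  have k23 := key _ _ (hne 2 3 (by norm_num))
  by_cases h0 : pm v (d (ps ((0 : ℕ) : k))) = d (ps ((0 : ℕ) : k))
  · by_cases h1 : pm v (d (ps ((1 : ℕ) : k))) = d (ps ((1 : ℕ) : k))
    · by_cases h2 : pm v (d (ps ((2 : ℕ) : k))) = d (ps ((2 : ℕ) : k))
      · exact hthree _ _ _ (hne 0 1 (by norm_num)) (hne 0 2 (by norm_num)) (hne 1 2 (by norm_num))
          h0 h1 h2
      · exact hthree _ _ _ (hne 0 1 (by norm_num)) (hne 0 3 (by norm_num)) (hne 1 3 (by norm_num))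
          h0 h1 (k23.resolve_left h2)
    · exact hthree _ _ _ (hne 0 2 (by norm_num)) (hne 0 3 (by norm_num)) (hne 2 3 (by norm_num))
        h0 (k12.resolve_left h1) (k13.resolve_left h1)
  · exact hthree _ _ _ (hne 1 2 (by norm_num)) (hne 1 3 (by norm_num)) (hne 2 3 (by norm_num))
      (k01.resolve_left h0) (k02.resolve_left h0) (k03.resolve_left h0)

end top

end Vale.Agent.P092.H729
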