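import Vale.Agent.P092.H729.C7R
import Vale.Agent.P092.H729.NN
import Vale.Agent.P092.RC.Blocks
import Vale.Agent.P092.H575.Uni

/-!
P092, Team C, block [C7-R] (helper729): the literal statement `CrossStmt 2` of `RC/Blocks.lean`.
-/

set_option autoImplicit false
set_option linter.all false

open Filter Topology TopologicalSpace Matrix

namespace Vale.Agent.P092.H729

open Vale.Agent.P092.SR (CO COS)
open Vale.Agent.P092.RC
open Vale.Agent.P092.H574

/-- open subgroups of `SL_(m+1)(k)` -/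
theorem basis_SL (k : Type) [NontriviallyNormedField k] [ProperSpace k] [IsUltrametricDist k]
    [CharZero k] (m : ℕ) (O : Set (GG k m)) (hO : IsOpen O) (h1 : (1 : GG k m) ∈ O) :
    ∃ V : Subgroup (GG k m), IsOpen (V : Set (GG k m)) ∧ (V : Set (GG k m)) ⊆ O := by
  obtain ⟨p, hp, hp1⟩ := H575.exists_prime k
  have hp0 : (p : k) ≠ 0 := by exact_mod_cast hp.ne_zero
  obtain ⟨O', hO', h2⟩ := isOpen_induced_iff.1 hO
  have h2' : ∀ x : GG k m, x.1 ∈ O' → x ∈ O := fun x hx => by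
    rw [← h2]
    exact hx
  have h2'' : ∀ x : GG k m, x ∈ O → x.1 ∈ O' := fun x hx => by
    rw [← h2] at hx
    exact hx
  have h3 : (Units.val ⁻¹' O' : Set (Matrix (Fin (m + 1)) (Fin (m + 1)) k)ˣ) ∈ 𝓝 1 := by
    refine (hO'.preimage Units.continuous_val).mem_nhds ?_
    exact h2'' 1 h1
  obtain ⟨N, hN⟩ := H575.Kc_basis hp1 h3
  have hc : Continuous (SpecialLinearGroup.toGL : GG k m → GL (Fin (m + 1)) k) := by
    rw [Units.continuous_iff]
    refine ⟨continuous_subtype_val, ?_⟩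
    have : (fun x : GG k m => (((SpecialLinearGroup.toGL x)⁻¹ : GL (Fin (m + 1)) k) :
        Matrix (Fin (m + 1)) (Fin (m + 1)) k)) = fun x : GG k m => (x⁻¹ : GG k m).1 := by
      funext x
      rw [← map_inv]
      rfl
    rw [this]
    exact continuous_subtype_val.comp continuous_inv
  refine ⟨(H575.Kc p k (Fin (m + 1)) N).comap SpecialLinearGroup.toGL, ?_, ?_⟩
  · rw [Subgroup.coe_comap]
    exact (H575.Kc_isOpen hp0 N).preimage hc
  · intro x hx
    have h4 : SpecialLinearGroup.toGL x ∈ (H575.Kc p k (Fin (m + 1)) N : Set _) := hx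
    exact h2' x (hN h4)

/-- compact open subgroups of `PGL_m(k)` -/
theorem basis_PG (k : Type) [NontriviallyNormedField k] [ProperSpace k] [IsUltrametricDist k]
    [CharZero k] (m : ℕ) (O : Set (PG k m)) (hO : IsOpen O) (h1 : (1 : PG k m) ∈ O) :
    ∃ V : Subgroup (PG k m), COS V ∧ (V : Set (PG k m)) ⊆ O := by
  obtain ⟨p, K, hp, hp1, hK, hc, hop, hcp, hb⟩ :=
    H575.chain_quot k (Fin m) (Subgroup.center (Matrix (Fin m) (Fin m) k)ˣ)
  obtain ⟨n, hn⟩ := hb O (hO.mem_nhds h1)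
  exact ⟨K n, ⟨hcp n, hop n⟩, hn⟩

/-- **[C7-R]** for the plane. -/
theorem crossStmt2 (hG : GeoStmt) : CrossStmt 2 := by
  intro k _ _ _ _ Γ K _ _ _ _ π lam₁ lam₂ X Ω q₁ q₂ E₁ E₂ δ₁ δ₂ Q₁ Q₂ _ _ _ l₁ l₂ _ h₁ h₂
  have geo := hG k 2 (by norm_num)
  refine cross geo l₁.cpv l₂.cpv (basis_SL k 2) (basis_PG k 2) h₁ h₂ ?_
  intro N hN hb
  obtain ⟨d, hd, -⟩ := del_main h₂.δmul h₂.δker h₂.δcont geo.mul
  exact no_bdd hd (fun h n hn => hN _ (jj_y0 h) n hn) hb

end Vale.Agent.P092.H729
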