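import Mathlib

/-!
P092, Team C, block [C7-R] (helper729), group part: rings of compact open sets attached to the
compact open subgroups, invariant under all left translations and covariant under a second group.
Compare `H941/Ring.lean`.
-/

set_option autoImplicit false
set_option linter.all false

open Topology Set Pointwise

namespace Vale.Agent.P092.H729

variable {H T : Type*} [Group H] [TopologicalSpace H]

/-- `𝒜 L` (for `L` a compact open subgroup) is a ring of compact open sets, invariant under all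
left translations, decreasing in `L`, covering `H`, and covariant: `d₁, d₂ : T → H`. -/
structure Fam2 (d₁ d₂ : T → H) (inv : T → T) (𝒜 : Subgroup H → Set (Set H)) : Prop where
  i₁ : ∀ t, d₁ (inv t) = (d₁ t)⁻¹
  i₂ : ∀ t, d₂ (inv t) = (d₂ t)⁻¹
  compact : ∀ {L C}, C ∈ 𝒜 L → IsCompact C
  isOpen : ∀ {L C}, C ∈ 𝒜 L → IsOpen C
  empty : ∀ L, ∅ ∈ 𝒜 L
  inter : ∀ {L C C'}, C ∈ 𝒜 L → C' ∈ 𝒜 L → C ∩ C' ∈ 𝒜 L
  union : ∀ {L C C'}, C ∈ 𝒜 L → C' ∈ 𝒜 L → C ∪ C' ∈ 𝒜 L
  diff : ∀ {L C C'}, C ∈ 𝒜 L → C' ∈ 𝒜 L → C \ C' ∈ 𝒜 L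
  left : ∀ {L : Subgroup H} {C}, C ∈ 𝒜 L → ∀ k : H, {x | k * x ∈ C} ∈ 𝒜 L
  anti : ∀ {L L' : Subgroup H}, IsCompact (L' : Set H) → IsOpen (L' : Set H) →
    IsCompact (L : Set H) → L' ≤ L → 𝒜 L' ⊆ 𝒜 L
  conj : ∀ {L : Subgroup H} {C}, IsCompact (L : Set H) → IsOpen (L : Set H) → C ∈ 𝒜 L → ∀ t,
    {x | x * d₂ t ∈ C} ∈ 𝒜 (L.map (MulAut.conj (d₁ t)).toMonoidHom)
  cover : ∀ {L : Subgroup H}, IsCompact (L : Set H) → IsOpen (L : Set H) → ∀ x, ∃ C ∈ 𝒜 L, x ∈ C

/-- a conjugate of a compact open subgroup -/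
theorem conj_co [IsTopologicalGroup H] {L : Subgroup H} (h1 : IsCompact (L : Set H))
    (h2 : IsOpen (L : Set H)) (g : H) :
    IsCompact ((L.map (MulAut.conj g).toMonoidHom : Subgroup H) : Set H) ∧
      IsOpen ((L.map (MulAut.conj g).toMonoidHom : Subgroup H) : Set H) := by
  constructor
  · have : ((L.map (MulAut.conj g).toMonoidHom : Subgroup H) : Set H) =
        (fun x => g * x * g⁻¹) '' (L : Set H) := by
      ext x; simp [Subgroup.mem_map, MulAut.conj_apply]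
    rw [this]
    exact h1.image (by fun_prop)
  · have : ((L.map (MulAut.conj g).toMonoidHom : Subgroup H) : Set H) =
        (fun x => g⁻¹ * x * g) ⁻¹' (L : Set H) := by
      ext x
      simp only [Subgroup.coe_map, MulEquiv.coe_toMonoidHom, mem_image, SetLike.mem_coe,
        MulAut.conj_apply, mem_preimage]
      constructor
      · rintro ⟨y, hy, rfl⟩
        rwa [show g⁻¹ * (g * y * g⁻¹) * g = y by group]
      · intro h
        exact ⟨_, h, by group⟩
    rw [this]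
    exact h2.preimage (by fun_prop)

namespace Fam2

variable {d₁ d₂ : T → H} {inv : T → T} {𝒜 : Subgroup H → Set (Set H)}

/-- The right stabiliser of the family. -/
def stab (𝒜 : Subgroup H → Set (Set H)) (L : Subgroup H) : Subgroup H where
  carrier := {v | ∀ C ∈ 𝒜 L, ∀ h, h ∈ C ↔ h * v ∈ C}
  one_mem' := fun C hC h => by rw [mul_one]
  mul_mem' := by
    intro a b ha hb C hC h
    rw [ha C hC h, hb C hC (h * a), mul_assoc]
  inv_mem' := by
    intro a ha C hC h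
    rw [ha C hC (h * a⁻¹), inv_mul_cancel_right]

theorem mem_stab {L : Subgroup H} {v : H} : v ∈ stab 𝒜 L ↔ ∀ C ∈ 𝒜 L, ∀ h, h ∈ C ↔ h * v ∈ C :=
  Iff.rfl

variable [IsTopologicalGroup H] (hA : Fam2 d₁ d₂ inv 𝒜)
include hA

theorem isClosed' [T2Space H] {L C} (hC : C ∈ 𝒜 L) : IsClosed C := (hA.compact hC).isClosed

theorem isClosed_stab [T2Space H] (L : Subgroup H) : IsClosed (stab 𝒜 L : Set H) := by
  have h : (stab 𝒜 L : Set H) = ⋂ C ∈ 𝒜 L, ⋂ h : H, {v | h ∈ C ↔ h * v ∈ C} := by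
    ext v
    simp only [SetLike.mem_coe, mem_stab, mem_iInter, mem_setOf_eq]
  rw [h]
  refine isClosed_biInter fun C hC => isClosed_iInter fun h => ?_
  have hclopen : IsClopen C := ⟨hA.isClosed' hC, hA.isOpen hC⟩
  have h1 : IsClopen {v : H | h * v ∈ C} := hclopen.preimage (continuous_const_mul h)
  by_cases hh : h ∈ C
  · have : {v : H | h ∈ C ↔ h * v ∈ C} = {v : H | h * v ∈ C} := by
      ext v; simp only [mem_setOf_eq, hh, true_iff]
    rw [this]; exact h1.1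
  · have : {v : H | h ∈ C ↔ h * v ∈ C} = {v : H | h * v ∈ C}ᶜ := by
      ext v; simp only [mem_setOf_eq, hh, false_iff, mem_compl_iff]
    rw [this]; exact h1.compl.1

theorem isCompact_stab [T2Space H] {L : Subgroup H} (hL : IsCompact (L : Set H))
    (hLo : IsOpen (L : Set H)) : IsCompact (stab 𝒜 L : Set H) := by
  obtain ⟨C, hC, h1⟩ := hA.cover hL hLo 1
  refine (hA.compact hC).of_isClosed_subset (hA.isClosed_stab L) fun v hv => ?_
  have := (mem_stab.1 hv C hC 1).1 h1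
  rwa [one_mul] at this

theorem stab_anti {L L' : Subgroup H} (h1 : IsCompact (L' : Set H)) (h2 : IsOpen (L' : Set H))
    (h3 : IsCompact (L : Set H)) (h : L' ≤ L) : stab 𝒜 L ≤ stab 𝒜 L' :=
  fun v hv => mem_stab.2 fun C hC => mem_stab.1 hv C (hA.anti h1 h2 h3 h hC)

theorem conj_stab {L : Subgroup H} (h1 : IsCompact (L : Set H)) (h2 : IsOpen (L : Set H))
    (t : T) {v : H} (hv : v ∈ stab 𝒜 L) :
    d₂ t * v * (d₂ t)⁻¹ ∈ stab 𝒜 (L.map (MulAut.conj (d₁ t)).toMonoidHom) := by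
  obtain ⟨hL'c, hL'o⟩ := conj_co h1 h2 (d₁ t)
  set L' := L.map (MulAut.conj (d₁ t)).toMonoidHom with hL'
  refine mem_stab.2 fun C hC h => ?_
  have h3 := hA.conj hL'c hL'o hC (inv t)
  have h4 : L'.map (MulAut.conj (d₁ (inv t))).toMonoidHom = L := by
    rw [hA.i₁]
    ext x
    simp only [hL', Subgroup.mem_map, MulEquiv.coe_toMonoidHom, MulAut.conj_apply, inv_inv]
    constructor
    · rintro ⟨y, ⟨z, hz, rfl⟩, rfl⟩
      rwa [show (d₁ t)⁻¹ * (d₁ t * z * (d₁ t)⁻¹) * d₁ t = z by group]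
    · intro hx
      exact ⟨d₁ t * x * (d₁ t)⁻¹, ⟨x, hx, rfl⟩, by group⟩
  rw [h4, hA.i₂] at h3
  have h5 := mem_stab.1 hv _ h3 (h * d₂ t)
  simp only [mem_setOf_eq, mul_inv_cancel_right] at h5
  rw [h5]
  rw [show h * d₂ t * v * (d₂ t)⁻¹ = h * (d₂ t * v * (d₂ t)⁻¹) by group]

/-- The stabiliser is trivial. -/
theorem stab_eq_bot [T2Space H]
    (hH : ∀ N : Subgroup H, (∀ t, ∀ n ∈ N, d₂ t * n * (d₂ t)⁻¹ ∈ N) →
      (∀ g ∈ N, ∃ C : Set H, IsCompact C ∧ ∀ m : ℕ, g ^ m ∈ C) → N = ⊥)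
    {L : Subgroup H} (h1 : IsCompact (L : Set H)) (h2 : IsOpen (L : Set H)) :
    stab 𝒜 L = ⊥ := by
  let N : Subgroup H :=
    { carrier := {v | ∃ L : Subgroup H, IsCompact (L : Set H) ∧ IsOpen (L : Set H) ∧ v ∈ stab 𝒜 L}
      one_mem' := ⟨L, h1, h2, one_mem _⟩
      mul_mem' := by
        rintro a b ⟨L1, c1, o1, ha⟩ ⟨L2, c2, o2, hb⟩
        have c3 : IsCompact ((L1 ⊓ L2 : Subgroup H) : Set H) := by
          rw [Subgroup.coe_inf]; exact c1.inter c2
        have o3 : IsOpen ((L1 ⊓ L2 : Subgroup H) : Set H) := by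
          rw [Subgroup.coe_inf]; exact o1.inter o2
        exact ⟨L1 ⊓ L2, c3, o3, mul_mem (hA.stab_anti c3 o3 c1 inf_le_left ha)
          (hA.stab_anti c3 o3 c2 inf_le_right hb)⟩
      inv_mem' := by
        rintro a ⟨L1, c1, o1, ha⟩
        exact ⟨L1, c1, o1, inv_mem ha⟩ }
  have hbot := hH N (by
    rintro t n ⟨L1, c1, o1, hn⟩
    obtain ⟨c2, o2⟩ := conj_co c1 o1 (d₁ t)
    exact ⟨_, c2, o2, hA.conj_stab c1 o1 t hn⟩) (by
    rintro g ⟨L, c1, o1, hg⟩
    exact ⟨stab 𝒜 L, hA.isCompact_stab c1 o1, fun m => pow_mem hg m⟩)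
  refine (Subgroup.eq_bot_iff_forall _).2 fun v hv => ?_
  have : v ∈ N := ⟨L, h1, h2, hv⟩
  rw [hbot] at this
  exact Subgroup.mem_bot.1 this

/-- **Main lemma.** Every compact open set belongs to `𝒜 L`. -/
theorem mem_all [T2Space H]
    (hH : ∀ N : Subgroup H, (∀ t, ∀ n ∈ N, d₂ t * n * (d₂ t)⁻¹ ∈ N) →
      (∀ g ∈ N, ∃ C : Set H, IsCompact C ∧ ∀ m : ℕ, g ^ m ∈ C) → N = ⊥)
    {L : Subgroup H} (h1 : IsCompact (L : Set H)) (h2 : IsOpen (L : Set H))
    {E : Set H} (hE : IsCompact E) (hEo : IsOpen E) : E ∈ 𝒜 L := by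
  have hst := hA.stab_eq_bot hH h1 h2
  -- separation
  have hsep : ∀ x y : H, x ≠ y → ∃ C ∈ 𝒜 L, x ∈ C ∧ y ∉ C := by
    intro x y hxy
    by_contra hno
    push Not at hno
    obtain ⟨C0, hC0, hx0⟩ := hA.cover h1 h2 x
    have hiff : ∀ C ∈ 𝒜 L, (x ∈ C ↔ y ∈ C) := by
      intro C hC
      refine ⟨fun h => hno C hC h, fun h => ?_⟩
      by_contra hx
      have := hno (C0 \ C) (hA.diff hC0 hC) ⟨hx0, hx⟩
      exact this.2 h
    have hv : x⁻¹ * y ∈ stab 𝒜 L := by
      refine mem_stab.2 fun C hC h => ?_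
      have h3 := hiff _ (hA.left hC (h * x⁻¹))
      simp only [mem_setOf_eq, inv_mul_cancel_right] at h3
      rw [h3, mul_assoc]
    rw [hst, Subgroup.mem_bot, inv_mul_eq_one] at hv
    exact hxy hv
  -- small neighbourhoods
  have hsmall : ∀ x ∈ E, ∃ C ∈ 𝒜 L, x ∈ C ∧ C ⊆ E := by
    intro x hx
    obtain ⟨C0, hC0, hx0⟩ := hA.cover h1 h2 x
    have hK : IsCompact (C0 \ E) := (hA.compact hC0).diff hEo
    choose! F hF using fun y (hy : y ∈ C0 \ E) => hsep x y (fun h => hy.2 (h ▸ hx))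
    obtain ⟨t, htc⟩ := hK.elim_nhds_subcover' (fun y hy => (F y)ᶜ) (fun y hy => by
      refine (hA.isClosed' (hF y hy).1).isOpen_compl.mem_nhds ?_
      exact (hF y hy).2.2)
    refine ⟨C0 ∩ ⋂ y ∈ t, F y, ?_, ⟨hx0, ?_⟩, ?_⟩
    · have : ∀ s : Finset (C0 \ E : Set H), C0 ∩ ⋂ y ∈ s, F y ∈ 𝒜 L := by
        intro s
        classical
        induction s using Finset.induction_on with
        | empty => simpa using hC0
        | insert a s ha ih =>
          have h5 : C0 ∩ ⋂ y ∈ insert a s, F y = (C0 ∩ ⋂ y ∈ s, F y) ∩ F a := by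
            ext z
            simp only [Finset.mem_insert, iInter_iInter_eq_or_left, mem_inter_iff, mem_iInter]
            tauto
          rw [h5]
          exact hA.inter ih (hF a a.2).1
      exact this t
    · simp only [mem_iInter]
      intro y _
      exact (hF y y.2).2.1
    · rintro z ⟨hz0, hz⟩
      by_contra hzE
      have h6 := htc ⟨hz0, hzE⟩
      simp only [mem_iUnion, mem_compl_iff] at h6
      obtain ⟨y, hy, hzy⟩ := h6
      simp only [mem_iInter] at hz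
      exact hzy (hz y hy)
  choose! F hF using hsmall
  obtain ⟨t, ht, htc⟩ := hE.elim_nhds_subcover F (fun x hx => (hA.isOpen (hF x hx).1).mem_nhds
    (hF x hx).2.1)
  have hEq : E = ⋃ x ∈ t, F x := by
    refine Subset.antisymm htc ?_
    simp only [iUnion_subset_iff]
    exact fun x hx => (hF x (ht x hx)).2.2
  rw [hEq]
  clear hEq htc
  classical
  induction t using Finset.induction_on with
  | empty => simpa using hA.empty L
  | insert a s ha ih =>
    rw [Finset.set_biUnion_insert]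
    exact hA.union (hF a (ht a (Finset.mem_insert_self a s))).1
      (ih fun x hx => ht x (Finset.mem_insert_of_mem hx))

end Fam2

end Vale.Agent.P092.H729
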