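import Vale.Agent.P092.H941.PF

/-!
P092, Team C, block [C7-R] (helper729): projection valued measures on the compact open subsets of
a Hausdorff space; pinching by a partition.
-/

set_option autoImplicit false
set_option linter.all false

open scoped InnerProductSpace
open Filter Topology ContinuousLinearMap Set

namespace Vale.Agent.P092.H729

open Vale.Agent.P092.SR (CO)
open Vale.Agent.P092.H941 (co_empty co_inter co_union co_diff summable_of_orth)

section zp

variable {Z K : Type} [TopologicalSpace Z] [NormedAddCommGroup K] [InnerProductSpace ℂ K]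
  [CompleteSpace K]

/-- Projections over the compact open sets. -/
structure Zp (Q : Set Z → (K →L[ℂ] K)) : Prop where
  adj : ∀ C, CO C → adjoint (Q C) = Q C
  mul : ∀ C D, CO C → CO D → Q C * Q D = Q (C ∩ D)
  add : ∀ C D, CO C → CO D → Disjoint C D → Q (C ∪ D) = Q C + Q D
  nondeg : ∀ ζ, (∀ C, CO C → Q C ζ = 0) → ζ = 0

namespace Zp

variable {Q : Set Z → (K →L[ℂ] K)} (h : Zp Q)
include h

theorem empty : Q ∅ = 0 := by
  have h1 := h.add ∅ ∅ co_empty co_empty (disjoint_bot_left)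
  rw [empty_union] at h1
  exact left_eq_add.mp h1

theorem idem {C : Set Z} (hC : CO C) : Q C * Q C = Q C := by
  rw [h.mul C C hC hC, inter_self]

theorem comm {C D : Set Z} (hC : CO C) (hD : CO D) : Q C * Q D = Q D * Q C := by
  rw [h.mul C D hC hD, h.mul D C hD hC, inter_comm]

theorem disj {C D : Set Z} (hC : CO C) (hD : CO D) (hd : Disjoint C D) : Q C * Q D = 0 := by
  rw [h.mul C D hC hD, hd.inter_eq, h.empty]

theorem le_left {C D : Set Z} (hC : CO C) (hD : CO D) (hCD : C ⊆ D) : Q C * Q D = Q C := by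
  rw [h.mul C D hC hD, inter_eq_left.mpr hCD]

theorem le_right {C D : Set Z} (hC : CO C) (hD : CO D) (hCD : C ⊆ D) : Q D * Q C = Q C := by
  rw [h.comm hD hC, h.le_left hC hD hCD]

theorem app_mul {C D : Set Z} (hC : CO C) (hD : CO D) (ζ : K) :
    Q C (Q D ζ) = Q (C ∩ D) ζ := by
  rw [← h.mul C D hC hD]; rfl

theorem symm {C : Set Z} (hC : CO C) (ζ η : K) : ⟪Q C ζ, η⟫_ℂ = ⟪ζ, Q C η⟫_ℂ := by
  rw [← adjoint_inner_right, h.adj C hC]

theorem kill_mono {C D : Set Z} (hC : CO C) (hD : CO D) (hCD : C ⊆ D) {ζ : K} (hζ : Q D ζ = 0) :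
    Q C ζ = 0 := by
  have h1 := h.app_mul hC hD ζ
  rw [hζ, map_zero, inter_eq_left.mpr hCD] at h1
  exact h1.symm

theorem kill_union [T2Space Z] {C D : Set Z} (hC : CO C) (hD : CO D)
    {ζ : K} (h1 : Q C ζ = 0) (h2 : Q D ζ = 0) : Q (C ∪ D) ζ = 0 := by
  have h3 := h.add C (D \ C) hC (co_diff hD hC) disjoint_sdiff_right
  rw [union_diff_self] at h3
  rw [h3, add_apply, h1, zero_add]
  exact h.kill_mono (co_diff hD hC) hD diff_subset h2

/-- Covering lemma. -/
theorem kill_cover [T2Space Z] {ι : Type*} {D : ι → Set Z}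
    (hD : ∀ i, CO (D i)) (hcov : ∀ x, ∃ i, x ∈ D i) {ζ : K} (hζ : ∀ i, Q (D i) ζ = 0) : ζ = 0 := by
  refine h.nondeg ζ fun C hC => ?_
  obtain ⟨t, ht⟩ := hC.1.elim_finite_subcover D (fun i => (hD i).2) (fun x _ => by
    obtain ⟨i, hi⟩ := hcov x
    exact mem_iUnion.2 ⟨i, hi⟩)
  have h1 : ∀ s : Finset ι, CO (⋃ i ∈ s, D i) ∧ Q (⋃ i ∈ s, D i) ζ = 0 := by
    intro s
    classical
    induction s using Finset.induction_on with
    | empty => simp only [Finset.notMem_empty, iUnion_of_empty, iUnion_empty, h.empty, zero_apply,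
        and_true]; exact co_empty
    | insert a s ha ih =>
      rw [Finset.set_biUnion_insert]
      exact ⟨co_union (hD a) ih.1, h.kill_union (hD a) ih.1 (hζ a) ih.2⟩
  exact h.kill_mono hC (h1 t).1 ht (h1 t).2

/-- Operators which agree after multiplication with all `Q (D i)` are equal. -/
theorem eq_of_cover [T2Space Z] {ι : Type*} {D : ι → Set Z}
    (hD : ∀ i, CO (D i)) (hcov : ∀ x, ∃ i, x ∈ D i) {A B : K →L[ℂ] K}
    (hAB : ∀ i, Q (D i) * A = Q (D i) * B) : A = B := by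
  ext1 ζ
  rw [← sub_eq_zero]
  refine h.kill_cover hD hcov fun i => ?_
  rw [map_sub, sub_eq_zero]
  exact congrArg (fun X : K →L[ℂ] K => X ζ) (hAB i)

/-- the same on the other side -/
theorem eq_of_cover' [T2Space Z] {ι : Type*} {D : ι → Set Z}
    (hD : ∀ i, CO (D i)) (hcov : ∀ x, ∃ i, x ∈ D i) {A B : K →L[ℂ] K}
    (hAB : ∀ i, A * Q (D i) = B * Q (D i)) : A = B := by
  have h2 : ∀ A B : K →L[ℂ] K, adjoint (A * B) = adjoint B * adjoint A := fun A B => by
    rw [← star_eq_adjoint, star_mul]; rfl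
  have h1 : adjoint A = adjoint B := h.eq_of_cover hD hcov fun i => by
    have := congrArg adjoint (hAB i)
    rwa [h2, h2, h.adj _ (hD i)] at this
  rw [← adjoint_adjoint A, h1, adjoint_adjoint]

theorem biUnion {ι : Type*} {D : ι → Set Z} (hD : ∀ i, CO (D i))
    (hdis : Pairwise fun i j => Disjoint (D i) (D j)) (s : Finset ι) :
    CO (⋃ i ∈ s, D i) ∧ Q (⋃ i ∈ s, D i) = ∑ i ∈ s, Q (D i) := by
  classical
  induction s using Finset.induction_on with
  | empty =>
    simp only [Finset.notMem_empty, iUnion_of_empty, iUnion_empty, Finset.sum_empty, h.empty,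
      and_true]
    exact co_empty
  | insert a s ha ih =>
    rw [Finset.set_biUnion_insert, Finset.sum_insert ha, ← ih.2]
    refine ⟨co_union (hD a) ih.1, h.add _ _ (hD a) ih.1 ?_⟩
    rw [disjoint_iUnion₂_right]
    intro i hi
    exact hdis (fun h => ha (h ▸ hi))

theorem norm_sq {C : Set Z} (hC : CO C) (ζ : K) : ‖Q C ζ‖ ^ 2 = (⟪ζ, Q C ζ⟫_ℂ).re := by
  rw [← h.symm hC, ← h.idem hC]
  change ‖(Q C * Q C) ζ‖ ^ 2 = (⟪Q C (Q C ζ), ζ⟫_ℂ).re
  rw [h.symm hC]
  change ‖(Q C * Q C) ζ‖ ^ 2 = (⟪Q C ζ, Q C ζ⟫_ℂ).re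
  rw [h.idem hC, inner_self_eq_norm_sq_to_K]
  norm_cast

theorem norm_le {C : Set Z} (hC : CO C) (ζ : K) : ‖Q C ζ‖ ≤ ‖ζ‖ := by
  have h4 : ‖Q C ζ‖ ^ 2 ≤ ‖ζ‖ * ‖Q C ζ‖ := by
    rw [h.norm_sq hC]
    exact (Complex.re_le_norm _).trans (norm_inner_le_norm _ _)
  rcases (norm_nonneg (Q C ζ)).eq_or_lt with h0 | h0
  · rw [← h0]; exact norm_nonneg _
  · nlinarith

theorem opNorm_le {C : Set Z} (hC : CO C) : ‖Q C‖ ≤ 1 :=
  ContinuousLinearMap.opNorm_le_bound _ zero_le_one fun ζ => by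
    rw [one_mul]; exact h.norm_le hC ζ

/-- A partition gives a partition of unity: norms. -/
theorem norm_sum_le {ι : Type*} {D : ι → Set Z}
    (hD : ∀ i, CO (D i)) (hdis : Pairwise fun i j => Disjoint (D i) (D j)) (ζ : K) (s : Finset ι) :
    ∑ i ∈ s, ‖Q (D i) ζ‖ ^ 2 ≤ ‖ζ‖ ^ 2 := by
  classical
  obtain ⟨hU, hs⟩ := h.biUnion hD hdis s
  have h3 : ∑ i ∈ s, ‖Q (D i) ζ‖ ^ 2 = ‖Q (⋃ i ∈ s, D i) ζ‖ ^ 2 := by
    rw [h.norm_sq hU, hs, ContinuousLinearMap.sum_apply, inner_sum, Complex.re_sum]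
    exact Finset.sum_congr rfl fun i _ => h.norm_sq (hD i) _
  rw [h3]
  exact pow_le_pow_left₀ (norm_nonneg _) (h.norm_le hU _) 2

theorem pinch_aux {ι : Type*} {D : ι → Set Z}
    (hD : ∀ i, CO (D i)) (hdis : Pairwise fun i j => Disjoint (D i) (D j)) (e : K →L[ℂ] K)
    (ζ : K) : Summable (fun i => Q (D i) (e (Q (D i) ζ))) ∧
      ‖∑' i, Q (D i) (e (Q (D i) ζ))‖ ^ 2 ≤ (‖e‖ * ‖ζ‖) ^ 2 := by
  refine summable_of_orth ?_ ?_
  · intro i j hij
    rw [h.symm (hD i)]
    have h1 : Q (D i) (Q (D j) (e (Q (D j) ζ))) = 0 := by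
      rw [h.app_mul (hD i) (hD j), (hdis hij).inter_eq, h.empty, zero_apply]
    rw [h1, inner_zero_right]
  · intro s
    calc ∑ i ∈ s, ‖Q (D i) (e (Q (D i) ζ))‖ ^ 2 ≤ ∑ i ∈ s, ‖e‖ ^ 2 * ‖Q (D i) ζ‖ ^ 2 := by
          refine Finset.sum_le_sum fun i _ => ?_
          rw [← mul_pow]
          exact pow_le_pow_left₀ (norm_nonneg _) ((h.norm_le (hD i) _).trans
            (e.le_opNorm _)) 2
      _ = ‖e‖ ^ 2 * ∑ i ∈ s, ‖Q (D i) ζ‖ ^ 2 := by rw [Finset.mul_sum]
      _ ≤ ‖e‖ ^ 2 * ‖ζ‖ ^ 2 := by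
          have := h.norm_sum_le hD hdis ζ s
          gcongr
      _ = _ := by rw [mul_pow]

/-- **Pinching.** -/
theorem exists_pinch {ι : Type*} {D : ι → Set Z}
    (hD : ∀ i, CO (D i)) (hdis : Pairwise fun i j => Disjoint (D i) (D j)) (e : K →L[ℂ] K) :
    ∃ y : K →L[ℂ] K, ‖y‖ ≤ ‖e‖ ∧ (∀ i, Q (D i) * y = Q (D i) * e * Q (D i)) ∧
      (∀ i, y * Q (D i) = Q (D i) * e * Q (D i)) := by
  classical
  have haux := h.pinch_aux hD hdis e
  let y₀ : K →ₗ[ℂ] K :=
    { toFun := fun ζ => ∑' i, Q (D i) (e (Q (D i) ζ))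
      map_add' := fun a b => by
        rw [← (haux a).1.tsum_add (haux b).1]
        congr 1
        funext i
        rw [map_add, map_add, map_add]
      map_smul' := fun c a => by
        rw [RingHom.id_apply, ← (haux a).1.tsum_const_smul]
        congr 1
        funext i
        rw [map_smul, map_smul, map_smul] }
  let y : K →L[ℂ] K := y₀.mkContinuous ‖e‖ fun ζ =>
    (abs_le_of_sq_le_sq' (haux ζ).2 (by positivity)).2
  have hy : ∀ ζ, HasSum (fun i => Q (D i) (e (Q (D i) ζ))) (y ζ) := fun ζ => (haux ζ).1.hasSum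
  refine ⟨y, LinearMap.mkContinuous_norm_le _ (norm_nonneg _) _, fun i => ?_, fun i => ?_⟩
  · ext1 ζ
    have h1 := (hy ζ).mapL (Q (D i))
    have h2 : (fun j => Q (D i) (Q (D j) (e (Q (D j) ζ)))) =
        fun j => if j = i then Q (D i) (e (Q (D i) ζ)) else 0 := by
      funext j
      split_ifs with hj
      · rw [hj, h.app_mul (hD i) (hD i), inter_self]
      · rw [h.app_mul (hD i) (hD j), (hdis (Ne.symm hj)).inter_eq, h.empty, zero_apply]
    rw [h2] at h1
    exact h1.unique (hasSum_ite_eq i _)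
  · ext1 ζ
    have h1 := hy (Q (D i) ζ)
    have h2 : (fun j => Q (D j) (e (Q (D j) (Q (D i) ζ)))) =
        fun j => if j = i then Q (D i) (e (Q (D i) ζ)) else 0 := by
      funext j
      split_ifs with hj
      · rw [hj, h.app_mul (hD i) (hD i), inter_self]
      · rw [h.app_mul (hD j) (hD i), (hdis hj).inter_eq, h.empty, zero_apply, map_zero,
          map_zero]
    rw [h2] at h1
    exact h1.unique (hasSum_ite_eq i _)

/-- the sets over which `Q` commutes with an operator -/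
theorem comm_diff [T2Space Z] {X : K →L[ℂ] K} {C D : Set Z} (hC : CO C) (hD : CO D)
    (h1 : Q C * X = X * Q C) (h2 : Q D * X = X * Q D) : Q (C \ D) * X = X * Q (C \ D) := by
  have h3 := h.add (C ∩ D) (C \ D) (co_inter hC hD) (co_diff hC hD)
    (disjoint_sdiff_right.mono_left inter_subset_right)
  rw [inter_union_diff, ← h.mul _ _ hC hD] at h3
  have h4 : Q (C \ D) = Q C - Q C * Q D := (sub_eq_of_eq_add' h3).symm
  rw [h4, sub_mul, mul_sub, h1, mul_assoc, h2, ← mul_assoc, h1, mul_assoc]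

theorem comm_inter {X : K →L[ℂ] K} {C D : Set Z} (hC : CO C) (hD : CO D)
    (h1 : Q C * X = X * Q C) (h2 : Q D * X = X * Q D) : Q (C ∩ D) * X = X * Q (C ∩ D) := by
  rw [← h.mul _ _ hC hD, mul_assoc, h2, ← mul_assoc, h1, mul_assoc]

theorem comm_union [T2Space Z] {X : K →L[ℂ] K} {C D : Set Z} (hC : CO C) (hD : CO D)
    (h1 : Q C * X = X * Q C) (h2 : Q D * X = X * Q D) : Q (C ∪ D) * X = X * Q (C ∪ D) := by
  have h3 := h.comm_diff hD hC h2 h1
  have h4 := h.add C (D \ C) hC (co_diff hD hC) disjoint_sdiff_right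
  rw [union_diff_self] at h4
  rw [h4, add_mul, mul_add, h1, h3]

/-- If every point has a neighbourhood basis of compact open sets over which `Q` commutes with
`X`, then `Q` commutes with `X`. -/
theorem comm_of_basis [T2Space Z] {X : K →L[ℂ] K}
    (hb : ∀ C, CO C → ∀ z ∈ C, ∃ D, CO D ∧ z ∈ D ∧ D ⊆ C ∧ Q D * X = X * Q D) {C : Set Z}
    (hC : CO C) : Q C * X = X * Q C := by
  choose! F hF using hb C hC
  obtain ⟨t, ht, htc⟩ := hC.1.elim_nhds_subcover F (fun x hx => (hF x hx).1.2.mem_nhds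
    (hF x hx).2.1)
  have hEq : C = ⋃ x ∈ t, F x := by
    refine Subset.antisymm htc ?_
    simp only [iUnion_subset_iff]
    exact fun x hx => (hF x (ht x hx)).2.2.1
  have h1 : ∀ s : Finset Z, s ⊆ t → CO (⋃ x ∈ s, F x) ∧
      Q (⋃ x ∈ s, F x) * X = X * Q (⋃ x ∈ s, F x) := by
    classical
    intro s
    induction s using Finset.induction_on with
    | empty =>
      intro _
      simp only [Finset.notMem_empty, iUnion_of_empty, iUnion_empty, h.empty, zero_mul, mul_zero,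
        and_true]
      exact co_empty
    | insert a s ha ih =>
      intro hs
      rw [Finset.set_biUnion_insert]
      have h2 := ih fun x hx => hs (Finset.mem_insert_of_mem hx)
      have h3 := hF a (ht a (hs (Finset.mem_insert_self a s)))
      exact ⟨co_union h3.1 h2.1, h.comm_union h3.1 h2.1 h3.2.2.2 h2.2⟩
  rw [hEq]
  exact (h1 t subset_rfl).2

end Zp

end zp

end Vale.Agent.P092.H729
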