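import Vale.Agent.P092.RC.Defs
import Vale.Agent.P092.H729.Zp
import Vale.Agent.P092.H729.Blk
import Vale.Agent.P092.H729.Fam2

/-!
P092, Team C, block [C7-R] (helper729): the residue families of the two legs (over the same point
of the source) commute.
-/

set_option autoImplicit false
set_option linter.all false

open scoped InnerProductSpace ENNReal
open Filter Topology ContinuousLinearMap Set TopologicalSpace

namespace Vale.Agent.P092.H729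

open Vale.Agent.P092.SR (CO COS)
open Vale.Agent.P092.RC
open Vale.Agent.P092.H820 (Cpv)
open Vale.Agent.P092.H941 (co_empty co_inter co_union co_diff)

/-! ### Boxes and cosets -/

section box

variable {Y G₀ : Type} [TopologicalSpace Y] [Group G₀] [TopologicalSpace G₀]

/-- the set `Y × D` -/
def bx (Y : Type) {G₀ : Type} (D : Set G₀) : Set (Y × G₀) := (univ : Set Y) ×ˢ D

theorem mem_bx {D : Set G₀} {z : Y × G₀} : z ∈ bx Y D ↔ z.2 ∈ D := by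
  simp [bx]

theorem bx_CO [CompactSpace Y] {D : Set G₀} (hD : CO D) : CO (bx Y D) :=
  ⟨isCompact_univ.prod hD.1, isOpen_univ.prod hD.2⟩

theorem bx_disj {D D' : Set G₀} (h : Disjoint D D') : Disjoint (bx Y D) (bx Y D') := by
  rw [Set.disjoint_left] at h ⊢
  intro z hz hz'
  exact h (mem_bx.1 hz) (mem_bx.1 hz')

theorem bx_mono {D D' : Set G₀} (h : D ⊆ D') : bx Y D ⊆ bx Y D' := fun z hz =>
  mem_bx.2 (h (mem_bx.1 hz))

/-- the coset `i` of `L` -/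
def co (L : Subgroup G₀) (i : G₀ ⧸ L) : Set G₀ := {x | (x : G₀ ⧸ L) = i}

theorem mem_co {L : Subgroup G₀} {i : G₀ ⧸ L} {x : G₀} : x ∈ co L i ↔ (x : G₀ ⧸ L) = i := Iff.rfl

theorem mk_eq {L : Subgroup G₀} {a b : G₀} : (a : G₀ ⧸ L) = b ↔ a⁻¹ * b ∈ L := QuotientGroup.eq

theorem mk_out {L : Subgroup G₀} (i : G₀ ⧸ L) : ((i.out : G₀) : G₀ ⧸ L) = i := Quotient.out_eq i

theorem co_CO [IsTopologicalGroup G₀] {L : Subgroup G₀} (hL : COS L) (i : G₀ ⧸ L) :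
    CO (co L i) := by
  have h1 : co L i = (fun x => i.out * x) '' (L : Set G₀) := by
    ext x
    rw [mem_co, eq_comm, ← mk_out i, mk_eq, mk_out]
    constructor
    · intro h
      exact ⟨_, h, by group⟩
    · rintro ⟨y, hy, rfl⟩
      simpa using hy
  rw [h1]
  exact H941.co_left hL _

/-- the translate of an inverse coset -/
def ci (U : Subgroup G₀) (h : G₀) (k : G₀ ⧸ U) : Set G₀ := {z | (((h * z)⁻¹ : G₀) : G₀ ⧸ U) = k}

theorem mem_ci {U : Subgroup G₀} {h : G₀} {k : G₀ ⧸ U} {z : G₀} :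
    z ∈ ci U h k ↔ (((h * z)⁻¹ : G₀) : G₀ ⧸ U) = k := Iff.rfl

theorem ci_CO [IsTopologicalGroup G₀] {U : Subgroup G₀} (hU : COS U) (h : G₀) (k : G₀ ⧸ U) :
    CO (ci U h k) := by
  have h0 := co_CO hU k
  constructor
  · have h1 : ci U h k = (fun x => h⁻¹ * x⁻¹) '' co U k := by
      ext z
      constructor
      · intro hz
        exact ⟨(h * z)⁻¹, hz, by group⟩
      · rintro ⟨x, hx, rfl⟩
        rw [mem_ci, mul_inv_cancel_left, inv_inv]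
        exact hx
    rw [h1]
    exact h0.1.image (by fun_prop)
  · exact h0.2.preimage (by fun_prop)

theorem ci_disj {U : Subgroup G₀} (h : G₀) {k k' : G₀ ⧸ U} (hk : k ≠ k') :
    Disjoint (ci U h k) (ci U h k') := by
  rw [Set.disjoint_left]
  intro z hz hz'
  exact hk (hz.symm.trans hz')

theorem co_disj {U : Subgroup G₀} {k k' : G₀ ⧸ U} (hk : k ≠ k') : Disjoint (co U k) (co U k') := by
  rw [Set.disjoint_left]
  intro z hz hz'
  exact hk (hz.symm.trans hz')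

end box

section fam

variable {G Γ Y G₀ K : Type} [Group G] [TopologicalSpace G] [Group Γ] [TopologicalSpace Y]
  [MulAction G Y] [ContinuousConstSMul G Y] [Group G₀] [TopologicalSpace G₀]
  [NormedAddCommGroup K] [InnerProductSpace ℂ K] [CompleteSpace K]
  {π : G →* (K →L[ℂ] K)} {lam : Γ →* (K →L[ℂ] K)} {W : Set (K →L[ℂ] K)} {Ω : K} {q : Γ →* G}
  {c : G → Y → G₀} {y₀ : Y} {E : Clopens Y → (K →L[ℂ] K)} {δ : G → G₀}
  {Q : Set (Y × G₀) → (K →L[ℂ] K)}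

theorem zp_of (h : ZFam π lam W Ω q c y₀ E δ Q) : Zp Q := ⟨h.adj, h.mul, h.add, h.nondeg⟩

theorem adj_mul' (A B : K →L[ℂ] K) : adjoint (A * B) = adjoint B * adjoint A := by
  rw [← star_eq_adjoint, star_mul]; rfl

theorem E_comm (h : ZFam π lam W Ω q c y₀ E δ Q) (hE : Cpv E) [T2Space Y] [T2Space G₀]
    (B : Clopens Y) {C : Set (Y × G₀)} (hC : CO C) : Q C * E B = E B * Q C := by
  have hCB : CO (C ∩ Prod.fst ⁻¹' (B : Set Y)) :=
    ⟨hC.1.inter_right (B.isClopen.1.preimage continuous_fst),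
      hC.2.inter (B.isClopen.2.preimage continuous_fst)⟩
  have h1 := h.base B C hC
  have h2 := congrArg adjoint h1
  have h3 : adjoint (E B) = E B := by rw [← star_eq_adjoint]; exact hE.sa B
  rw [adj_mul', h.adj C hC, h3, h.adj _ hCB, ← h1] at h2
  exact h2.symm

theorem pi_inv (T : G →* (K →L[ℂ] K)) (g : G) : T g⁻¹ * T g = 1 := by
  rw [← map_mul, inv_mul_cancel, map_one]

theorem pi_inv' (T : G →* (K →L[ℂ] K)) (g : G) : T g * T g⁻¹ = 1 := by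
  rw [← map_mul, mul_inv_cancel, map_one]

/-- commute from conjugation invariance -/
theorem comm_of_conj {U U' A : K →L[ℂ] K} (hU : U' * U = 1) (h : U * A * U' = A) :
    U * A = A * U := by
  calc U * A = U * A * (U' * U) := by rw [hU, mul_one]
    _ = U * A * U' * U := by simp only [mul_assoc]
    _ = A * U := by rw [h]

theorem conj_of_comm {U U' A : K →L[ℂ] K} (hU : U * U' = 1) (h : U * A = A * U) :
    U * A * U' = A := by
  rw [h, mul_assoc, hU, mul_one]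

theorem conj_comm' {A B U U' : K →L[ℂ] K} (h : A * B = B * A) (hU : U' * U = 1) :
    (U * A * U') * (U * B * U') = (U * B * U') * (U * A * U') := by
  calc (U * A * U') * (U * B * U') = U * A * (U' * U) * B * U' := by simp only [mul_assoc]
    _ = U * (A * B) * U' := by rw [hU]; simp only [mul_assoc, one_mul]
    _ = U * (B * A) * U' := by rw [h]
    _ = U * B * (U' * U) * A * U' := by rw [hU]; simp only [mul_assoc, one_mul]
    _ = _ := by simp only [mul_assoc]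

/-- conjugation by an element of the stabiliser, boxes -/
theorem par_bx (geo : Geo c y₀) (h : ZFam π lam W Ω q c y₀ E δ Q) {p : G} (hp : p • y₀ = y₀)
    {D : Set G₀} (hD : CO D) : π p * Q (bx Y D) * π p⁻¹ = Q (bx Y {x | x * δ p ∈ D}) := by
  haveI := geo.cpt
  rw [h.par p hp _ (bx_CO hD)]
  congr 1
  ext z
  simp only [mem_image, zr]
  constructor
  · rintro ⟨w, hw, rfl⟩
    rw [mem_bx] at hw ⊢
    simpa using hw
  · intro hz
    rw [mem_bx] at hz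
    exact ⟨(z.1, z.2 * δ p), mem_bx.2 hz, by simp⟩

theorem δ_one (h : ZFam π lam W Ω q c y₀ E δ Q) : δ 1 = 1 := by
  have h1 := h.δmul 1 1 (one_smul _ _) (one_smul _ _)
  rw [one_mul] at h1
  exact left_eq_mul.1 h1

theorem δ_inv (h : ZFam π lam W Ω q c y₀ E δ Q) {p : G} (hp : p • y₀ = y₀) :
    δ p⁻¹ = (δ p)⁻¹ := by
  have hp' : p⁻¹ • y₀ = y₀ := by rw [inv_smul_eq_iff, hp]
  have h1 := h.δmul p⁻¹ p hp' hp
  rw [inv_mul_cancel, δ_one h] at h1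
  exact eq_inv_of_mul_eq_one_left h1.symm

/-- small elements of the stabiliser have small images -/
theorem δ_small (h : ZFam π lam W Ω q c y₀ E δ Q) {O : Set G₀} (hO : IsOpen O) (h1 : (1 : G₀) ∈ O) :
    ∃ O' : Set G, IsOpen O' ∧ (1 : G) ∈ O' ∧ ∀ p ∈ O', p • y₀ = y₀ → δ p ∈ O := by
  have h2 := hO.preimage h.δcont
  rw [isOpen_induced_iff] at h2
  obtain ⟨O', hO', h3⟩ := h2
  have h4 : ∀ p : G, ∀ hp : p • y₀ = y₀, p ∈ O' ↔ δ p ∈ O := by
    intro p hp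
    have : (⟨p, hp⟩ : {p : G // p • y₀ = y₀}) ∈ Subtype.val ⁻¹' O' ↔
        (⟨p, hp⟩ : {p : G // p • y₀ = y₀}) ∈
          (fun p : {p : G // p • y₀ = y₀} => δ p) ⁻¹' O := by rw [h3]
    exact this
  refine ⟨O', hO', ?_, fun p hp hp' => (h4 p hp').1 hp⟩
  exact (h4 1 (one_smul _ _)).2 (by rw [δ_one h]; exact h1)

end fam

/-! ### The pinching over the sheets of the first leg -/

section pin

variable {G Γ Y G₀ K : Type} [Group G] [TopologicalSpace G] [Group Γ] [TopologicalSpace Y]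
  [MulAction G Y] [ContinuousConstSMul G Y] [Group G₀] [TopologicalSpace G₀]
  [NormedAddCommGroup K] [InnerProductSpace ℂ K] [CompleteSpace K]
  {π : G →* (K →L[ℂ] K)} {lam : Γ →* (K →L[ℂ] K)} {W : Set (K →L[ℂ] K)} {Ω : K} {q : Γ →* G}
  {c : G → Y → G₀} {y₀ : Y} {E : Clopens Y → (K →L[ℂ] K)} {δ : G → G₀}
  {Q : Set (Y × G₀) → (K →L[ℂ] K)}

/-- `y` is the pinching of `X` by the sheets of level `L`. -/
structure Pn (Q : Set (Y × G₀) → (K →L[ℂ] K)) (L : Subgroup G₀) (X y : K →L[ℂ] K) : Prop where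
  nrm : ‖y‖ ≤ ‖X‖
  l : ∀ i : G₀ ⧸ L, Q (bx Y (co L i)) * y = Q (bx Y (co L i)) * X * Q (bx Y (co L i))
  r : ∀ i : G₀ ⧸ L, y * Q (bx Y (co L i)) = Q (bx Y (co L i)) * X * Q (bx Y (co L i))

theorem exists_pn (geo : Geo c y₀) (h : ZFam π lam W Ω q c y₀ E δ Q) {L : Subgroup G₀}
    (hL : COS L) (X : K →L[ℂ] K) : ∃ y, Pn Q L X y := by
  haveI := geo.cpt
  haveI := geo.t2
  haveI := geo.tg₀
  haveI := geo.t2₀
  obtain ⟨y, h0, h1, h2⟩ := (zp_of h).exists_pinch (D := fun i : G₀ ⧸ L => bx Y (co L i))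
    (fun i => bx_CO (co_CO hL i)) (fun i j hij => bx_disj (co_disj hij)) X
  exact ⟨y, h0, h1, h2⟩

/-- equality is checked on the sheets -/
theorem eq_of_co (geo : Geo c y₀) (h : ZFam π lam W Ω q c y₀ E δ Q) {L : Subgroup G₀}
    (hL : COS L) {A B : K →L[ℂ] K}
    (hAB : ∀ i : G₀ ⧸ L, Q (bx Y (co L i)) * A = Q (bx Y (co L i)) * B) : A = B := by
  haveI := geo.cpt
  haveI := geo.t2
  haveI := geo.tg₀
  haveI := geo.t2₀
  exact (zp_of h).eq_of_cover (D := fun i : G₀ ⧸ L => bx Y (co L i))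
    (fun i => bx_CO (co_CO hL i)) (fun z => ⟨(z.2 : G₀ ⧸ L), mem_bx.2 rfl⟩) hAB

theorem Pn.comm (geo : Geo c y₀) (h : ZFam π lam W Ω q c y₀ E δ Q) {L : Subgroup G₀}
    (hL : COS L) {X y T : K →L[ℂ] K} (hy : Pn Q L X y) (hTX : T * X = X * T)
    (hTP : ∀ i : G₀ ⧸ L, T * Q (bx Y (co L i)) = Q (bx Y (co L i)) * T) : T * y = y * T := by
  refine eq_of_co geo h hL fun i => ?_
  calc Q (bx Y (co L i)) * (T * y) = (Q (bx Y (co L i)) * T) * y := by rw [mul_assoc]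
    _ = T * (Q (bx Y (co L i)) * y) := by rw [← hTP, mul_assoc]
    _ = (T * Q (bx Y (co L i))) * X * Q (bx Y (co L i)) := by rw [hy.l]; simp only [mul_assoc]
    _ = Q (bx Y (co L i)) * (T * X) * Q (bx Y (co L i)) := by rw [hTP]; simp only [mul_assoc]
    _ = Q (bx Y (co L i)) * X * (T * Q (bx Y (co L i))) := by rw [hTX]; simp only [mul_assoc]
    _ = (Q (bx Y (co L i)) * X * Q (bx Y (co L i))) * T := by rw [hTP]; simp only [mul_assoc]
    _ = Q (bx Y (co L i)) * (y * T) := by rw [← hy.l, mul_assoc]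

/-- the pinching on a box `B × gL` -/
theorem Pn.box (geo : Geo c y₀) (h : ZFam π lam W Ω q c y₀ E δ Q) (hE : Cpv E)
    {L : Subgroup G₀} (hL : COS L) {X y : K →L[ℂ] K} (hy : Pn Q L X y)
    (hX : ∀ B, E B * X = X * E B) (B : Clopens Y) (i : G₀ ⧸ L) :
    Q (bx Y (co L i) ∩ Prod.fst ⁻¹' (B : Set Y)) * y =
      Q (bx Y (co L i) ∩ Prod.fst ⁻¹' (B : Set Y)) * X *
        Q (bx Y (co L i) ∩ Prod.fst ⁻¹' (B : Set Y)) := by
  haveI := geo.cpt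
  haveI := geo.t2
  haveI := geo.tg₀
  haveI := geo.t2₀
  have hC : CO (bx Y (co L i)) := bx_CO (co_CO hL i)
  have h1 := E_comm h hE B hC
  rw [← h.base B _ hC]
  calc Q (bx Y (co L i)) * E B * y = E B * (Q (bx Y (co L i)) * y) := by rw [h1, mul_assoc]
    _ = E B * (Q (bx Y (co L i)) * X * Q (bx Y (co L i))) := by rw [hy.l]
    _ = (E B * E B) * (Q (bx Y (co L i)) * X * Q (bx Y (co L i))) := by rw [hE.idem]
    _ = E B * (E B * Q (bx Y (co L i))) * X * Q (bx Y (co L i)) := by simp only [mul_assoc]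
    _ = E B * (Q (bx Y (co L i)) * E B) * X * Q (bx Y (co L i)) := by rw [h1]
    _ = E B * Q (bx Y (co L i)) * (E B * X) * Q (bx Y (co L i)) := by simp only [mul_assoc]
    _ = (E B * Q (bx Y (co L i))) * X * (E B * Q (bx Y (co L i))) := by
        rw [hX]; simp only [mul_assoc]
    _ = _ := by rw [← h1]

/-- The pinching commutes with `lam γ`. -/
theorem Pn.lamc (geo : Geo c y₀) (h : ZFam π lam W Ω q c y₀ E δ Q) (hE : Cpv E)
    {L : Subgroup G₀} (hL : COS L) {X y : K →L[ℂ] K} (hy : Pn Q L X y)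
    (hX : ∀ B, E B * X = X * E B) (γ : Γ) (hXl : lam γ * X = X * lam γ) :
    lam γ * y = y * lam γ := by
  haveI := geo.cpt
  haveI := geo.t2
  haveI := geo.tg₀
  haveI := geo.t2₀
  have hinv : lam γ⁻¹ * lam γ = 1 := by rw [← map_mul, inv_mul_cancel, map_one]
  have hinv' : lam γ * lam γ⁻¹ = 1 := by rw [← map_mul, mul_inv_cancel, map_one]
  -- the clopen set of `z` over which the coset is constant
  have hcont : ∀ g : G₀, Continuous fun y : Y => c (q γ) y * g := by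
    intro g
    have h1 : Continuous fun y : Y => c (q γ) y :=
      geo.cont.comp (continuous_const.prodMk continuous_id)
    exact h1.mul continuous_const
  have hLc : IsClopen (L : Set G₀) := ⟨hL.1.isClosed, hL.2⟩
  let B : Y × G₀ → Clopens Y := fun z =>
    ⟨{y | (c (q γ) z.1 * z.2)⁻¹ * (c (q γ) y * z.2) ∈ L},
      hLc.preimage (continuous_const.mul (hcont z.2))⟩
  have hB : ∀ (z : Y × G₀) (y : Y), y ∈ (B z : Set Y) ↔
      (c (q γ) z.1 * z.2)⁻¹ * (c (q γ) y * z.2) ∈ L := fun z y => Iff.rfl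
  let D : Y × G₀ → Set (Y × G₀) := fun z => bx Y (co L (z.2 : G₀ ⧸ L)) ∩ Prod.fst ⁻¹' (B z : Set Y)
  have hD : ∀ z, CO (D z) := fun z =>
    ⟨(bx_CO (co_CO hL _)).1.inter_right ((B z).isClopen.1.preimage continuous_fst),
      (bx_CO (co_CO hL _)).2.inter ((B z).isClopen.2.preimage continuous_fst)⟩
  have hcov : ∀ z, ∃ z', z ∈ D z' := fun z =>
    ⟨z, mem_bx.2 rfl, by
      change z.1 ∈ (B z : Set Y)
      rw [hB, inv_mul_cancel]
      exact L.one_mem⟩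
  have hkey : lam γ⁻¹ * y * lam γ = y := by
    refine (zp_of h).eq_of_cover hD hcov fun z => ?_
    -- the image box
    have himg : zact c (q γ) '' D z = bx Y (co L ((c (q γ) z.1 * z.2 : G₀) : G₀ ⧸ L)) ∩
        Prod.fst ⁻¹' (sm (q γ) (B z) : Set Y) := by
      ext w
      simp only [mem_image, mem_inter_iff, mem_bx, mem_co, mem_preimage]
      constructor
      · rintro ⟨v, ⟨hv1, hv2⟩, rfl⟩
        change v.1 ∈ (B z : Set Y) at hv2
        rw [hB] at hv2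
        rw [mem_bx, mem_co, mk_eq] at hv1
        refine ⟨?_, ?_⟩
        · rw [zact, mk_eq]
          have h2 : v.2⁻¹ * z.2 ∈ L := hv1
          have h3 := L.mul_mem h2 (L.inv_mem hv2)
          rwa [show v.2⁻¹ * z.2 * ((c (q γ) z.1 * z.2)⁻¹ * (c (q γ) v.1 * z.2))⁻¹ =
            (c (q γ) v.1 * v.2)⁻¹ * (c (q γ) z.1 * z.2) by group] at h3
        · change (q γ)⁻¹ • (q γ • v.1) ∈ (B z : Set Y)
          rw [inv_smul_smul]
          exact hv2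
      · rintro ⟨h1, h2⟩
        change (q γ)⁻¹ • w.1 ∈ (B z : Set Y) at h2
        have h2' := (hB _ _).1 h2
        rw [mk_eq] at h1
        refine ⟨((q γ)⁻¹ • w.1, (c (q γ) ((q γ)⁻¹ • w.1))⁻¹ * w.2), ⟨?_, h2⟩, ?_⟩
        · rw [mem_bx, mem_co, mk_eq]
          have h3 := L.mul_mem h1 h2'
          rwa [show w.2⁻¹ * (c (q γ) z.1 * z.2) *
              ((c (q γ) z.1 * z.2)⁻¹ * (c (q γ) ((q γ)⁻¹ • w.1) * z.2)) =
            ((c (q γ) ((q γ)⁻¹ • w.1))⁻¹ * w.2)⁻¹ * z.2 by group] at h3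
        · rw [zact, smul_inv_smul, mul_inv_cancel_left]
    have h1 := h.cov γ _ (hD z)
    rw [himg] at h1
    set D' := bx Y (co L ((c (q γ) z.1 * z.2 : G₀) : G₀ ⧸ L)) ∩
        Prod.fst ⁻¹' (sm (q γ) (B z) : Set Y) with hD'
    have h2 : Q (D z) * lam γ⁻¹ = lam γ⁻¹ * Q D' := by
      rw [← h1]
      calc Q (D z) * lam γ⁻¹ = (lam γ⁻¹ * lam γ) * Q (D z) * lam γ⁻¹ := by rw [hinv, one_mul]
        _ = _ := by simp only [mul_assoc]
    have h3 : Q D' * lam γ = lam γ * Q (D z) := by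
      rw [← h1]
      calc lam γ * Q (D z) * lam γ⁻¹ * lam γ = lam γ * Q (D z) * (lam γ⁻¹ * lam γ) := by
            simp only [mul_assoc]
        _ = _ := by rw [hinv, mul_one]
    have h4 := hy.box geo h hE hL hX (sm (q γ) (B z)) ((c (q γ) z.1 * z.2 : G₀) : G₀ ⧸ L)
    have h5 := hy.box geo h hE hL hX (B z) (z.2 : G₀ ⧸ L)
    change Q D' * y = Q D' * X * Q D' at h4
    change Q (D z) * y = Q (D z) * X * Q (D z) at h5
    calc Q (D z) * (lam γ⁻¹ * y * lam γ) = (Q (D z) * lam γ⁻¹) * y * lam γ := by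
          simp only [mul_assoc]
      _ = lam γ⁻¹ * (Q D' * y) * lam γ := by rw [h2]; simp only [mul_assoc]
      _ = lam γ⁻¹ * Q D' * X * (Q D' * lam γ) := by rw [h4]; simp only [mul_assoc]
      _ = Q (D z) * lam γ⁻¹ * X * (lam γ * Q (D z)) := by rw [h3, ← h2]
      _ = Q (D z) * lam γ⁻¹ * (lam γ * X) * Q (D z) := by rw [hXl]; simp only [mul_assoc]
      _ = Q (D z) * (lam γ⁻¹ * lam γ) * X * Q (D z) := by simp only [mul_assoc]
      _ = Q (D z) * y := by rw [hinv, mul_one, h5]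
  calc lam γ * y = lam γ * (lam γ⁻¹ * y * lam γ) := by rw [hkey]
    _ = (lam γ * lam γ⁻¹) * y * lam γ := by simp only [mul_assoc]
    _ = y * lam γ := by rw [hinv', one_mul]

end pin

/-! ### The main argument -/

section main

variable {G Γ Y G₀ K : Type} [Group G] [TopologicalSpace G] [Group Γ] [TopologicalSpace Y]
  [MulAction G Y] [ContinuousConstSMul G Y] [Group G₀] [TopologicalSpace G₀]
  [NormedAddCommGroup K] [InnerProductSpace ℂ K] [CompleteSpace K]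
  {π : G →* (K →L[ℂ] K)} {lam₁ lam₂ : Γ →* (K →L[ℂ] K)} {X : Set (K →L[ℂ] K)} {Ω : K}
  {q₁ q₂ : Γ →* G} {c : G → Y → G₀} {y₀ : Y} {E₁ E₂ : Clopens Y → (K →L[ℂ] K)} {δ₁ δ₂ : G → G₀}
  {Q₁ Q₂ : Set (Y × G₀) → (K →L[ℂ] K)}

/-- `Q` charges every neighbourhood of some point of `G₀`. -/
theorem exists_supp [Nontrivial K] (geo : Geo c y₀) {π : G →* (K →L[ℂ] K)}
    {lam : Γ →* (K →L[ℂ] K)} {W : Set (K →L[ℂ] K)} {q : Γ →* G} {E : Clopens Y → (K →L[ℂ] K)}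
    {δ : G → G₀} {Q : Set (Y × G₀) → (K →L[ℂ] K)} (h : ZFam π lam W Ω q c y₀ E δ Q) :
    ∃ g₀ : G₀, ∀ D : Set G₀, CO D → g₀ ∈ D → Q (bx Y D) ≠ 0 := by
  haveI := geo.cpt
  haveI := geo.t2
  haveI := geo.tg₀
  haveI := geo.t2₀
  by_contra hno
  push Not at hno
  choose D hD hg hQ using hno
  obtain ⟨ζ, hζ⟩ := _root_.exists_ne (0 : K)
  refine hζ ((zp_of h).kill_cover (D := fun g => bx Y (D g)) (fun g => bx_CO (hD g))
    (fun z => ⟨z.2, mem_bx.2 (hg z.2)⟩) fun g => ?_)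
  rw [hQ, zero_apply]

/-- the family of the compact open sets whose translates commute with the sheets of level `L` -/
def A2 (Y : Type) {G₀ K : Type} [Group G₀] [TopologicalSpace G₀] [NormedAddCommGroup K]
    [InnerProductSpace ℂ K] (Q₁ Q₂ : Set (Y × G₀) → (K →L[ℂ] K)) (L : Subgroup G₀) :
    Set (Set G₀) :=
  {C | CO C ∧ ∀ (h : G₀) (i : G₀ ⧸ L), Q₂ (bx Y {z | h * z ∈ C}) * Q₁ (bx Y (co L i)) =
    Q₁ (bx Y (co L i)) * Q₂ (bx Y {z | h * z ∈ C})}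

theorem co_pre [IsTopologicalGroup G₀] {C : Set G₀} (hC : CO C) (h : G₀) :
    CO {z | h * z ∈ C} := by
  have h1 : {z | h * z ∈ C} = (fun x => h⁻¹ * x) '' C := by
    ext z
    constructor
    · intro hz; exact ⟨h * z, hz, by group⟩
    · rintro ⟨x, hx, rfl⟩; simpa using hx
  rw [h1]
  exact H941.co_left hC _

theorem co_pre' [IsTopologicalGroup G₀] {C : Set G₀} (hC : CO C) (h : G₀) :
    CO {z | z * h ∈ C} := by
  have h1 : {z | z * h ∈ C} = (fun x => x * h⁻¹) '' C := by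
    ext z
    constructor
    · intro hz; exact ⟨z * h, hz, by group⟩
    · rintro ⟨x, hx, rfl⟩; simpa using hx
  rw [h1]
  exact H941.co_right hC _

/-- The projections of the inverse cosets form an element of the residue algebra; so does the
pinching. -/
theorem res_pin (geo : Geo c y₀) (hE₁ : Cpv E₁) (hE₂ : Cpv E₂)
    (hbG : ∀ O : Set G, IsOpen O → (1 : G) ∈ O → ∃ V : Subgroup G, IsOpen (V : Set G) ∧
      (V : Set G) ⊆ O)
    (hb₀ : ∀ O : Set G₀, IsOpen O → (1 : G₀) ∈ O → ∃ V : Subgroup G₀, COS V ∧ (V : Set G₀) ⊆ O)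
    (h₁ : ZFam π lam₁ (X ∪ range lam₂ ∪ range E₂) Ω q₁ c y₀ E₁ δ₁ Q₁)
    (h₂ : ZFam π lam₂ (X ∪ range lam₁ ∪ range E₁) Ω q₂ c y₀ E₂ δ₂ Q₂)
    {L U : Subgroup G₀} (hL : COS L) (hU : COS U) (k₀ : G₀ ⧸ U) {y : G₀ → (K →L[ℂ] K)}
    (hy : ∀ h, Pn Q₁ L (Q₂ (bx Y (ci U h⁻¹ k₀))) (y h))
    (hyu : ∀ h h', Q₂ (bx Y (ci U h⁻¹ k₀)) = Q₂ (bx Y (ci U h'⁻¹ k₀)) → y h = y h') :
    Res π lam₂ (X ∪ range lam₁ ∪ range E₁) q₂ c y₀ E₂ U y ∧
      ∃ V : Subgroup G, IsOpen (V : Set G) ∧ ∀ p ∈ V, p • y₀ = y₀ → ∀ h, π p * y h = y h * π p := by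
  haveI := geo.cpt
  haveI := geo.t2
  haveI := geo.tg₀
  haveI := geo.t2₀
  have hCO : ∀ h, CO (bx Y (ci U h⁻¹ k₀)) := fun h => bx_CO (ci_CO hU _ _)
  have hCOL : ∀ i : G₀ ⧸ L, CO (bx Y (co L i)) := fun i => bx_CO (co_CO hL i)
  have hX1 : ∀ w ∈ X, ∀ C, CO C → w * Q₁ C = Q₁ C * w := fun w hw C hC =>
    (h₁.cm C hC w (Or.inl (Or.inl hw))).symm
  have hX2 : ∀ w ∈ X, ∀ C, CO C → w * Q₂ C = Q₂ C * w := fun w hw C hC =>
    (h₂.cm C hC w (Or.inl (Or.inl hw))).symm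
  have hl1 : ∀ γ, ∀ C, CO C → lam₂ γ * Q₁ C = Q₁ C * lam₂ γ := fun γ C hC =>
    (h₁.cm C hC _ (Or.inl (Or.inr ⟨γ, rfl⟩))).symm
  have hl2 : ∀ γ, ∀ C, CO C → lam₁ γ * Q₂ C = Q₂ C * lam₁ γ := fun γ C hC =>
    (h₂.cm C hC _ (Or.inl (Or.inr ⟨γ, rfl⟩))).symm
  have hE12 : ∀ B, ∀ C, CO C → E₂ B * Q₁ C = Q₁ C * E₂ B := fun B C hC =>
    (h₁.cm C hC _ (Or.inr ⟨B, rfl⟩)).symm
  have hE21 : ∀ B, ∀ C, CO C → E₁ B * Q₂ C = Q₂ C * E₁ B := fun B C hC =>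
    (h₂.cm C hC _ (Or.inr ⟨B, rfl⟩)).symm
  refine ⟨⟨⟨1, fun h => ?_⟩, ?_, ?_, ?_, ?_, ?_⟩, ?_⟩
  · exact (hy h).nrm.trans ((zp_of h₂).opNorm_le (hCO h))
  · -- right invariance
    intro h u hu
    apply hyu
    congr 2
    ext z
    rw [mem_ci, mem_ci]
    have : ((((h * u)⁻¹ * z)⁻¹ : G₀) : G₀ ⧸ U) = (((h⁻¹ * z)⁻¹ : G₀) : G₀ ⧸ U) := by
      rw [mk_eq]
      have : ((h * u)⁻¹ * z)⁻¹⁻¹ * (h⁻¹ * z)⁻¹ = u⁻¹ := by group
      rw [this]
      exact U.inv_mem hu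
    rw [this]
  · -- commutation with `W`
    rintro h w ((hw | ⟨γ, rfl⟩) | ⟨B, rfl⟩)
    · exact ((hy h).comm geo h₁ hL (hX2 w hw _ (hCO h)) fun i => hX1 w hw _ (hCOL i)).symm
    · exact ((hy h).lamc geo h₁ hE₁ hL (fun B => hE21 B _ (hCO h)) γ (hl2 γ _ (hCO h))).symm
    · exact ((hy h).comm geo h₁ hL (hE21 B _ (hCO h)) fun i =>
        (E_comm h₁ hE₁ B (hCOL i)).symm).symm
  · -- the radical
    intro r hr hcr h
    have hd1 : δ₁ r = 1 := (h₁.δker r hr).2 hcr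
    have hd2 : δ₂ r = 1 := (h₂.δker r hr).2 hcr
    refine (hy h).comm geo h₁ hL ?_ fun i => ?_
    · refine comm_of_conj (pi_inv π r) ?_
      rw [par_bx geo h₂ hr (ci_CO hU _ _), hd2]
      simp only [mul_one, setOf_mem_eq]
    · refine comm_of_conj (pi_inv π r) ?_
      rw [par_bx geo h₁ hr (co_CO hL _), hd1]
      simp only [mul_one, setOf_mem_eq]
  · -- commutation with `E₂`
    intro h B
    exact ((hy h).comm geo h₁ hL (E_comm h₂ hE₂ B (hCO h)).symm fun i => hE12 B _ (hCOL i)).symm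
  · -- equivariance
    intro γ h h' A hA
    have hinv : lam₂ γ⁻¹ * lam₂ γ = 1 := by rw [← map_mul, inv_mul_cancel, map_one]
    -- equivariance of the projections
    have hXe : lam₂ γ * (Q₂ (bx Y (ci U h⁻¹ k₀)) * E₂ A) * lam₂ γ⁻¹ =
        Q₂ (bx Y (ci U h'⁻¹ k₀)) * E₂ (sm (q₂ γ) A) := by
      have hCA : CO (bx Y (ci U h⁻¹ k₀) ∩ Prod.fst ⁻¹' (A : Set Y)) :=
        ⟨(hCO h).1.inter_right (A.isClopen.1.preimage continuous_fst),
          (hCO h).2.inter (A.isClopen.2.preimage continuous_fst)⟩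
      rw [h₂.base A _ (hCO h), h₂.cov γ _ hCA, h₂.base _ _ (hCO h')]
      congr 1
      ext w
      simp only [mem_image, mem_inter_iff, mem_bx, mem_preimage]
      constructor
      · rintro ⟨v, ⟨hv1, hv2⟩, rfl⟩
        have hv2' : v.1 ∈ A := hv2
        rw [mem_ci] at hv1
        refine ⟨?_, ?_⟩
        · rw [zact, mem_ci, ← hv1, mk_eq]
          have h3 := hA v.1 hv2'
          rwa [show (h'⁻¹ * (c (q₂ γ) v.1 * v.2))⁻¹⁻¹ * (h⁻¹ * v.2)⁻¹ =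
            ((c (q₂ γ) v.1 * h)⁻¹ * h')⁻¹ by group, U.inv_mem_iff]
        · change (q₂ γ)⁻¹ • (q₂ γ • v.1) ∈ (A : Set Y)
          rw [inv_smul_smul]
          exact hv2
      · rintro ⟨h1, h2⟩
        change (q₂ γ)⁻¹ • w.1 ∈ (A : Set Y) at h2
        have h2' : (q₂ γ)⁻¹ • w.1 ∈ A := h2
        rw [mem_ci] at h1
        refine ⟨((q₂ γ)⁻¹ • w.1, (c (q₂ γ) ((q₂ γ)⁻¹ • w.1))⁻¹ * w.2), ⟨?_, h2⟩, ?_⟩
        · rw [mem_ci, ← h1, mk_eq]
          have h3 := hA _ h2'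
          rwa [show (h⁻¹ * ((c (q₂ γ) ((q₂ γ)⁻¹ • w.1))⁻¹ * w.2))⁻¹⁻¹ * (h'⁻¹ * w.2)⁻¹ =
            (c (q₂ γ) ((q₂ γ)⁻¹ • w.1) * h)⁻¹ * h' by group]
        · rw [zact, smul_inv_smul, mul_inv_cancel_left]
    refine eq_of_co geo h₁ hL fun i => ?_
    have e1 := hl1 γ _ (hCOL i)
    have e1' := hl1 γ⁻¹ _ (hCOL i)
    have e2 := hE12 A _ (hCOL i)
    have e3 := hE12 (sm (q₂ γ) A) _ (hCOL i)
    generalize hPi : Q₁ (bx Y (co L i)) = P at *
    have hyl : P * y h = P * Q₂ (bx Y (ci U h⁻¹ k₀)) * P := by rw [← hPi]; exact (hy h).l i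
    have hyl' : P * y h' = P * Q₂ (bx Y (ci U h'⁻¹ k₀)) * P := by rw [← hPi]; exact (hy h').l i
    calc P * (lam₂ γ * (y h * E₂ A) * lam₂ γ⁻¹) = (P * lam₂ γ) * y h * E₂ A * lam₂ γ⁻¹ := by
          simp only [mul_assoc]
      _ = lam₂ γ * (P * y h) * E₂ A * lam₂ γ⁻¹ := by rw [← e1]; simp only [mul_assoc]
      _ = (lam₂ γ * P) * Q₂ (bx Y (ci U h⁻¹ k₀)) * (P * E₂ A) * lam₂ γ⁻¹ := by
          rw [hyl]; simp only [mul_assoc]
      _ = P * lam₂ γ * Q₂ (bx Y (ci U h⁻¹ k₀)) * E₂ A * (P * lam₂ γ⁻¹) := by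
          rw [e1, ← e2]; simp only [mul_assoc]
      _ = P * (lam₂ γ * (Q₂ (bx Y (ci U h⁻¹ k₀)) * E₂ A) * lam₂ γ⁻¹) * P := by
          rw [← e1']; simp only [mul_assoc]
      _ = P * Q₂ (bx Y (ci U h'⁻¹ k₀)) * (E₂ (sm (q₂ γ) A) * P) := by
          rw [hXe]; simp only [mul_assoc]
      _ = P * (y h' * E₂ (sm (q₂ γ) A)) := by
          rw [e3, ← mul_assoc, ← hyl', mul_assoc]
  · -- smoothness
    have hkCO : CO (co U k₀) := co_CO hU k₀
    -- the group of the `m` with `Cm = C`, `C = ci U 1 k₀`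
    obtain ⟨O₁, hO₁, h11, hO₁'⟩ := δ_small h₁ hL.2 L.one_mem
    obtain ⟨M, hM, hMk⟩ : ∃ M : Subgroup G₀, IsOpen (M : Set G₀) ∧ ∀ m ∈ M, ∀ x, 
        ((m * x : G₀) : G₀ ⧸ U) = k₀ ↔ (x : G₀ ⧸ U) = k₀ := by
      obtain ⟨g, hg⟩ : ∃ g : G₀, (g : G₀ ⧸ U) = k₀ := ⟨_, mk_out k₀⟩
      refine ⟨U.map (MulAut.conj g).toMonoidHom, (conj_co hU.1 hU.2 _).2, fun m hm x => ?_⟩
      rw [Subgroup.mem_map] at hm
      obtain ⟨u, hu, rfl⟩ := hm
      simp only [MulEquiv.coe_toMonoidHom, MulAut.conj_apply]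
      rw [← hg, mk_eq, mk_eq]
      constructor
      · intro h1
        have h2 := U.mul_mem h1 hu
        rwa [show (g * u * g⁻¹ * x)⁻¹ * g * u = x⁻¹ * g by group] at h2
      · intro h1
        have h2 := U.mul_mem h1 (U.inv_mem hu)
        rwa [show x⁻¹ * g * u⁻¹ = (g * u * g⁻¹ * x)⁻¹ * g by group] at h2
    obtain ⟨O₂, hO₂, h12, hO₂'⟩ := δ_small h₂ hM M.one_mem
    obtain ⟨V, hV, hVO⟩ := hbG (O₁ ∩ O₂) (hO₁.inter hO₂) ⟨h11, h12⟩
    refine ⟨V, hV, fun p hp hpy h => ?_⟩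
    have hp1 : δ₁ p ∈ L := hO₁' p (hVO hp).1 hpy
    have hp2 : δ₂ p ∈ M := hO₂' p (hVO hp).2 hpy
    refine (hy h).comm geo h₁ hL ?_ fun i => ?_
    · refine comm_of_conj (pi_inv π p) ?_
      rw [par_bx geo h₂ hpy (ci_CO hU _ _)]
      congr 2
      ext z
      rw [mem_setOf_eq, mem_ci, mem_ci]
      rw [show (h⁻¹ * (z * δ₂ p))⁻¹ = (δ₂ p)⁻¹ * (h⁻¹ * z)⁻¹ by group]
      exact hMk _ (M.inv_mem hp2) _
    · refine comm_of_conj (pi_inv π p) ?_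
      rw [par_bx geo h₁ hpy (co_CO hL _)]
      congr 2
      ext z
      rw [mem_setOf_eq, mem_co, mem_co]
      have : ((z * δ₁ p : G₀) : G₀ ⧸ L) = (z : G₀ ⧸ L) := by
        rw [mk_eq, show (z * δ₁ p)⁻¹ * z = (δ₁ p)⁻¹ by group]
        exact L.inv_mem hp1
      rw [this]

/-- `B(K)` is a positive `*`-algebra. -/
theorem psv : Psv (K →L[ℂ] K) := by
  intro a b h
  ext1 ζ
  rw [zero_apply]
  have h1 := congrArg (fun T : K →L[ℂ] K => (⟪ζ, T ζ⟫_ℂ).re) h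
  have h2 : ∀ a : K →L[ℂ] K, (⟪ζ, (star a * a) ζ⟫_ℂ).re = ‖a ζ‖ ^ 2 := by
    intro a
    change (⟪ζ, (adjoint a) (a ζ)⟫_ℂ).re = _
    rw [adjoint_inner_right, inner_self_eq_norm_sq_to_K]
    norm_cast
  simp only [add_apply, inner_add_right, Complex.add_re, h2, zero_apply, inner_zero_right,
    Complex.zero_re] at h1
  have h3 : ‖a ζ‖ ^ 2 = 0 := by nlinarith [sq_nonneg ‖a ζ‖, sq_nonneg ‖b ζ‖]
  exact norm_eq_zero.1 (pow_eq_zero_iff two_ne_zero |>.1 h3)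

/-- a partition is a total family -/
theorem tot_of (geo : Geo c y₀) {π : G →* (K →L[ℂ] K)}
    {lam : Γ →* (K →L[ℂ] K)} {W : Set (K →L[ℂ] K)} {q : Γ →* G} {E : Clopens Y → (K →L[ℂ] K)}
    {δ : G → G₀} {Q : Set (Y × G₀) → (K →L[ℂ] K)} (h : ZFam π lam W Ω q c y₀ E δ Q)
    {ι : Type} {D : ι → Set G₀} (hD : ∀ i, CO (D i)) (hcov : ∀ g, ∃ i, g ∈ D i) :
    Tot fun i => Q (bx Y (D i)) := by
  haveI := geo.cpt
  haveI := geo.t2
  haveI := geo.t2₀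
  refine ⟨fun i => ?_, fun i => (zp_of h).idem (bx_CO (hD i)), fun T hT => ?_⟩
  · rw [star_eq_adjoint]
    exact h.adj _ (bx_CO (hD i))
  · refine (zp_of h).eq_of_cover' (D := fun i => bx Y (D i)) (fun i => bx_CO (hD i))
      (fun z => ?_) fun i => ?_
    · obtain ⟨i, hi⟩ := hcov z.2
      exact ⟨i, mem_bx.2 hi⟩
    · rw [hT i, zero_mul]

/-- **The block.** -/
theorem exists_block [Nontrivial K] (geo : Geo c y₀) (hE₁ : Cpv E₁) (hE₂ : Cpv E₂)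
    (hbG : ∀ O : Set G, IsOpen O → (1 : G) ∈ O → ∃ V : Subgroup G, IsOpen (V : Set G) ∧
      (V : Set G) ⊆ O)
    (hb₀ : ∀ O : Set G₀, IsOpen O → (1 : G₀) ∈ O → ∃ V : Subgroup G₀, COS V ∧ (V : Set G₀) ⊆ O)
    (h₁ : ZFam π lam₁ (X ∪ range lam₂ ∪ range E₂) Ω q₁ c y₀ E₁ δ₁ Q₁)
    (h₂ : ZFam π lam₂ (X ∪ range lam₁ ∪ range E₁) Ω q₂ c y₀ E₂ δ₂ Q₂)
    {L : Subgroup G₀} (hL : COS L) (x : G₀) : ∃ C ∈ A2 Y Q₁ Q₂ L, x ∈ C := by
  classical
  haveI := geo.cpt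
  haveI := geo.t2
  haveI := geo.tg₀
  haveI := geo.t2₀
  obtain ⟨U, hU⟩ : ∃ U : Subgroup G₀, COS U := ⟨L, hL⟩
  set k₀ : G₀ ⧸ U := ((x⁻¹ : G₀) : G₀ ⧸ U) with hk₀
  -- the projections of leg two
  have hCO : ∀ h k, CO (bx Y (ci U h k)) := fun h k => bx_CO (ci_CO hU h k)
  have hTot2 : ∀ h : G₀, Tot fun k : G₀ ⧸ U => Q₂ (bx Y (ci U h k)) := fun h =>
    tot_of geo h₂ (fun k => ci_CO hU h k) fun g => ⟨_, rfl⟩
  have hTot1 : Tot fun i : G₀ ⧸ L => Q₁ (bx Y (co L i)) :=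
    tot_of geo h₁ (fun k => co_CO hL k) fun g => ⟨_, rfl⟩
  -- the pinching, as a function of the operator
  choose pin hpin using fun T : K →L[ℂ] K => exists_pn geo h₁ hL T
  set y : G₀ → (K →L[ℂ] K) := fun h => pin (Q₂ (bx Y (ci U h⁻¹ k₀))) with hy
  obtain ⟨hres, hsm⟩ := res_pin geo hE₁ hE₂ hbG hb₀ h₁ h₂ hL hU k₀
    (y := y) (fun h => hpin _) (fun h h' e => congrArg pin e)
  obtain ⟨φ, hφ⟩ := h₂.max U hU y hres hsm
  -- eigenvalues
  set ψ : G₀ ⧸ U → ℂ := fun k => φ (k.out)⁻¹ with hψ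
  have heig : ∀ (h : G₀) (k : G₀ ⧸ U), y h * Q₂ (bx Y (ci U h⁻¹ k)) =
      ψ k • Q₂ (bx Y (ci U h⁻¹ k)) := by
    intro h k
    have h1 := hφ ⊤ h (k.out)⁻¹
    have h2 : ((⊤ : Clopens Y) : Set Y) ×ˢ {x | ∃ u ∈ U, x = h * u * (k.out)⁻¹} =
        bx Y (ci U h⁻¹ k) := by
      ext z
      rw [mem_bx, mem_ci]
      constructor
      · rintro ⟨-, u, hu, hz⟩
        rw [hz, eq_comm]
        nth_rewrite 1 [← mk_out k]
        rw [mk_eq, show k.out⁻¹ * (h⁻¹ * (h * u * k.out⁻¹))⁻¹ = u⁻¹ by group]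
        exact U.inv_mem hu
      · intro hz
        rw [eq_comm] at hz
        rw [← mk_out k, mk_eq] at hz
        refine ⟨trivial, _, U.inv_mem hz, by group⟩
    rw [h2] at h1
    exact h1
  -- the support
  obtain ⟨g₀, hg₀⟩ := exists_supp geo h₂
  have hne : ∀ (h : G₀) (k : G₀ ⧸ U), g₀ ∈ ci U h k → Q₂ (bx Y (ci U h k)) ≠ 0 :=
    fun h k hg => hg₀ _ (ci_CO hU h k) hg
  have hPin : ∀ h, Pin (fun i : G₀ ⧸ L => Q₁ (bx Y (co L i))) (Q₂ (bx Y (ci U h⁻¹ k₀))) (y h) :=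
    fun h => ⟨by rw [star_eq_adjoint]; exact h₂.adj _ (hCO _ _), (zp_of h₂).idem (hCO _ _),
      (hpin _).l, (hpin _).r⟩
  have hsa : ∀ h k, star (Q₂ (bx Y (ci U h k))) = Q₂ (bx Y (ci U h k)) := fun h k => by
    rw [star_eq_adjoint]; exact h₂.adj _ (hCO _ _)
  have hid : ∀ h k, Q₂ (bx Y (ci U h k)) * Q₂ (bx Y (ci U h k)) = Q₂ (bx Y (ci U h k)) :=
    fun h k => (zp_of h₂).idem (hCO _ _)
  have hmem : ∀ k : G₀ ⧸ U, g₀ ∈ ci U (g₀ * k.out)⁻¹ k := by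
    intro k
    rw [mem_ci, show ((g₀ * k.out)⁻¹ * g₀)⁻¹ = k.out by group, mk_out]
  have hreal : ∀ k, ∃ r : ℝ, 0 ≤ r ∧ ψ k = r := by
    intro k
    exact (hPin (g₀ * k.out)).nonneg psv hTot1 (hsa _ _) (hid _ _) (hne _ k (hmem k)) (heig _ k)
  choose r hr0 hr using hreal
  have hpos : 0 < r k₀ := by
    obtain ⟨s, hs, hs'⟩ := (hPin (g₀ * k₀.out)).pos psv hTot1 (hsa _ _) (hid _ _)
      (hne _ k₀ (hmem k₀)) (heig _ k₀) (hid _ _)
    rw [hr] at hs'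
    have : r k₀ = s := by exact_mod_cast hs'
    rw [this]; exact hs
  -- finitely many cosets with this eigenvalue
  have hfin : {k | r k = r k₀}.Finite := by
    by_contra hinf
    obtain ⟨n, hn⟩ := exists_nat_gt (1 / r k₀)
    obtain ⟨F, hF, hFc⟩ := Set.Infinite.exists_subset_card_eq hinf n
    -- a common projection
    obtain ⟨V, hV, hVO⟩ := hb₀ (⋂ k ∈ F, {m | (k.out)⁻¹ * m * k.out ∈ U})
      (isOpen_biInter_finset fun k _ => hU.2.preimage (by fun_prop)) (by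
        simp only [mem_iInter, mem_setOf_eq]
        intro k _
        rw [mul_one, inv_mul_cancel]
        exact U.one_mem)
    have hD : CO ((fun m => g₀ * m) '' (V : Set G₀)) := H941.co_left hV _
    have hsub : ∀ k ∈ F, (fun m => g₀ * m) '' (V : Set G₀) ⊆ ci U (g₀ * k.out)⁻¹ k := by
      rintro k hk _ ⟨m, hm, rfl⟩
      have h1 := hVO hm
      simp only [mem_iInter, mem_setOf_eq] at h1
      rw [mem_ci, show ((g₀ * k.out)⁻¹ * (g₀ * m))⁻¹ = m⁻¹ * k.out by group, eq_comm]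
      nth_rewrite 1 [← mk_out k]
      rw [mk_eq, ← U.inv_mem_iff, show (k.out⁻¹ * (m⁻¹ * k.out))⁻¹ = k.out⁻¹ * m * k.out by group]
      exact h1 k hk
    have he0 : Q₂ (bx Y ((fun m => g₀ * m) '' (V : Set G₀))) ≠ 0 :=
      hg₀ _ hD ⟨1, V.one_mem, mul_one _⟩
    have h1 := sum_le_one psv hTot1 F
      (q := fun k : G₀ ⧸ U => Q₂ (bx Y (ci U (g₀ * k.out)⁻¹ k₀))) (y := fun k => y (g₀ * k.out))
      (fun k _ => hPin _) (fun k _ k' _ hkk => ?_) (e := Q₂ (bx Y ((fun m => g₀ * m) '' (V : Set G₀))))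
      (by rw [star_eq_adjoint]; exact h₂.adj _ (bx_CO hD)) ((zp_of h₂).idem (bx_CO hD)) he0
      (φ := r) (fun k hk => ?_)
    · rw [Finset.sum_congr rfl fun k hk => hF hk, Finset.sum_const, hFc, nsmul_eq_mul] at h1
      rw [div_lt_iff₀ hpos] at hn
      linarith
    · refine (zp_of h₂).disj (hCO _ _) (hCO _ _) (bx_disj ?_)
      rw [Set.disjoint_left]
      intro z hz hz'
      rw [mem_ci] at hz hz'
      apply hkk
      rw [← hz'] at hz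
      rw [mk_eq] at hz
      rw [← mk_out k, ← mk_out k', mk_eq]
      rwa [show ((g₀ * k.out)⁻¹ * z)⁻¹⁻¹ * ((g₀ * k'.out)⁻¹ * z)⁻¹ = k.out⁻¹ * k'.out by group] at hz
    · have h3 := (zp_of h₂).le_right (bx_CO hD) (hCO (g₀ * k.out)⁻¹ k) (bx_mono (hsub k hk))
      have h2 := heig (g₀ * k.out) k
      rw [hr] at h2
      calc y (g₀ * k.out) * Q₂ (bx Y ((fun m => g₀ * m) '' (V : Set G₀)))
          = (y (g₀ * k.out) * Q₂ (bx Y (ci U (g₀ * k.out)⁻¹ k))) *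
            Q₂ (bx Y ((fun m => g₀ * m) '' (V : Set G₀))) := by rw [mul_assoc, h3]
        _ = _ := by rw [h2, smul_mul_assoc, h3]
  -- the block
  set S := hfin.toFinset with hS
  have hSm : ∀ k, k ∈ S ↔ r k = r k₀ := fun k => by
    rw [hS, Set.Finite.mem_toFinset]; rfl
  refine ⟨{g | ((g⁻¹ : G₀) : G₀ ⧸ U) ∈ S}, ⟨?_, fun h i => ?_⟩, ?_⟩
  · have h1 : {g : G₀ | ((g⁻¹ : G₀) : G₀ ⧸ U) ∈ S} = ⋃ k ∈ S, ci U 1 k := by
      ext g
      simp only [mem_setOf_eq, mem_iUnion, mem_ci, one_mul, exists_prop, exists_eq_right']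
    rw [h1]
    constructor
    · exact S.isCompact_biUnion fun k _ => (ci_CO hU 1 k).1
    · exact isOpen_biUnion fun k _ => (ci_CO hU 1 k).2
  · have h1 : bx Y {z : G₀ | h * z ∈ {g : G₀ | ((g⁻¹ : G₀) : G₀ ⧸ U) ∈ S}} =
        ⋃ k ∈ S, bx Y (ci U h k) := by
      ext z
      simp only [mem_bx, mem_setOf_eq, mem_iUnion, mem_ci, exists_prop, exists_eq_right']
    rw [h1, ((zp_of h₂).biUnion (fun k => hCO h k) (fun k k' hk => bx_disj (ci_disj h hk)) S).2]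
    have hh : h⁻¹⁻¹ = h := inv_inv h
    have hP := hPin h⁻¹
    have he := heig h⁻¹
    rw [hh] at hP he
    exact (comm_block hTot1 (hTot2 h) (fun k l hkl => (zp_of h₂).disj (hCO _ _) (hCO _ _)
      (bx_disj (ci_disj h hkl))) hP (fun k => by rw [he, hr]) S
      (c := r k₀) (fun k hk => (hSm k).1 hk) (fun k hk e => hk ((hSm k).2 e)) i).symm
  · change ((x⁻¹ : G₀) : G₀ ⧸ U) ∈ S
    rw [hSm]

/-- The family. -/
theorem fam2 [Nontrivial K] (geo : Geo c y₀) (hE₁ : Cpv E₁) (hE₂ : Cpv E₂)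
    (hbG : ∀ O : Set G, IsOpen O → (1 : G) ∈ O → ∃ V : Subgroup G, IsOpen (V : Set G) ∧
      (V : Set G) ⊆ O)
    (hb₀ : ∀ O : Set G₀, IsOpen O → (1 : G₀) ∈ O → ∃ V : Subgroup G₀, COS V ∧ (V : Set G₀) ⊆ O)
    (h₁ : ZFam π lam₁ (X ∪ range lam₂ ∪ range E₂) Ω q₁ c y₀ E₁ δ₁ Q₁)
    (h₂ : ZFam π lam₂ (X ∪ range lam₁ ∪ range E₁) Ω q₂ c y₀ E₂ δ₂ Q₂) :
    Fam2 (fun p : {p : G // p • y₀ = y₀} => δ₁ p) (fun p : {p : G // p • y₀ = y₀} => δ₂ p)
      (fun p => ⟨(p : G)⁻¹, by rw [inv_smul_eq_iff, p.2]⟩) (A2 Y Q₁ Q₂) := by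
  haveI := geo.cpt
  haveI := geo.t2
  haveI := geo.tg₀
  haveI := geo.t2₀
  have hb : ∀ {C : Set G₀}, CO C → ∀ h : G₀, CO (bx Y {z | h * z ∈ C}) := fun hC h =>
    bx_CO (co_pre hC h)
  refine
    { i₁ := fun p => δ_inv h₁ p.2
      i₂ := fun p => δ_inv h₂ p.2
      compact := fun h => h.1.1
      isOpen := fun h => h.1.2
      empty := fun L => ⟨co_empty, fun h i => ?_⟩
      inter := ?_
      union := ?_
      diff := ?_
      left := ?_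
      anti := ?_
      conj := ?_
      cover := fun c1 o1 x => exists_block geo hE₁ hE₂ hbG hb₀ h₁ h₂ ⟨c1, o1⟩ x }
  · have h1 : bx Y {z : G₀ | h * z ∈ (∅ : Set G₀)} = ∅ := by
      ext z
      simp [mem_bx]
    rw [h1, (zp_of h₂).empty, zero_mul, mul_zero]
  · rintro L C C' ⟨hC, e⟩ ⟨hC', e'⟩
    refine ⟨co_inter hC hC', fun h i => ?_⟩
    have h1 : bx Y {z : G₀ | h * z ∈ C ∩ C'} = bx Y {z | h * z ∈ C} ∩ bx Y {z | h * z ∈ C'} := by
      ext z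
      simp only [mem_bx, mem_inter_iff, mem_setOf_eq]
    rw [h1]
    exact (zp_of h₂).comm_inter (hb hC h) (hb hC' h) (e h i) (e' h i)
  · rintro L C C' ⟨hC, e⟩ ⟨hC', e'⟩
    refine ⟨co_union hC hC', fun h i => ?_⟩
    have h1 : bx Y {z : G₀ | h * z ∈ C ∪ C'} = bx Y {z | h * z ∈ C} ∪ bx Y {z | h * z ∈ C'} := by
      ext z
      simp only [mem_bx, mem_union, mem_setOf_eq]
    rw [h1]
    exact (zp_of h₂).comm_union (hb hC h) (hb hC' h) (e h i) (e' h i)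
  · rintro L C C' ⟨hC, e⟩ ⟨hC', e'⟩
    refine ⟨co_diff hC hC', fun h i => ?_⟩
    have h1 : bx Y {z : G₀ | h * z ∈ C \ C'} = bx Y {z | h * z ∈ C} \ bx Y {z | h * z ∈ C'} := by
      ext z
      simp only [mem_bx, mem_diff, mem_setOf_eq]
    rw [h1]
    exact (zp_of h₂).comm_diff (hb hC h) (hb hC' h) (e h i) (e' h i)
  · rintro L C ⟨hC, e⟩ k
    refine ⟨co_pre hC k, fun h i => ?_⟩
    have h1 : {z : G₀ | h * z ∈ {x | k * x ∈ C}} = {z | (k * h) * z ∈ C} := by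
      ext z
      simp only [mem_setOf_eq, mul_assoc]
    rw [h1]
    exact e _ i
  · rintro L L' c1 o1 c2 hLL C ⟨hC, e⟩
    have hL' : COS L' := ⟨c1, o1⟩
    have hL : COS L := ⟨c2, Subgroup.isOpen_mono hLL o1⟩
    refine ⟨hC, fun h i => ?_⟩
    refine eq_of_co geo h₁ hL' fun j => ?_
    have hP' : CO (bx Y (co L' j)) := bx_CO (co_CO hL' j)
    have hP : CO (bx Y (co L i)) := bx_CO (co_CO hL i)
    have e1 := e h j
    rw [← mul_assoc, ← e1, mul_assoc, ← mul_assoc (Q₁ (bx Y (co L' j))),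
      (zp_of h₁).mul _ _ hP' hP]
    have h3 : bx Y (co L' j) ∩ bx Y (co L i) = bx Y (co L' j) ∨
        bx Y (co L' j) ∩ bx Y (co L i) = (∅ : Set (Y × G₀)) := by
      by_cases hji : ((j.out : G₀) : G₀ ⧸ L) = i
      · left
        refine inter_eq_left.2 (bx_mono fun g hg => ?_)
        rw [mem_co] at hg ⊢
        rw [← hg] at hji
        rw [← hji, mk_eq]
        apply hLL
        rw [← mk_eq, mk_out]
      · right
        rw [← Set.disjoint_iff_inter_eq_empty]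
        refine bx_disj ?_
        rw [Set.disjoint_left]
        intro g hg hg'
        apply hji
        rw [mem_co] at hg hg'
        rw [← hg', ← hg, mk_eq]
        apply hLL
        rw [← mk_eq, mk_out]
    rcases h3 with h3 | h3
    · rw [h3, e1]
    · rw [h3, (zp_of h₁).empty, zero_mul, mul_zero]
  · rintro L C c1 o1 ⟨hC, e⟩ ⟨p, hp⟩
    change {x | x * δ₂ p ∈ C} ∈ A2 Y Q₁ Q₂ (L.map (MulAut.conj (δ₁ p)).toMonoidHom)
    have hL : COS L := ⟨c1, o1⟩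
    refine ⟨co_pre' hC _, fun h i => ?_⟩
    -- both projections are conjugates
    have h2 : Q₂ (bx Y {z | h * z ∈ {x | x * δ₂ p ∈ C}}) =
        π p * Q₂ (bx Y {z | h * z ∈ C}) * π p⁻¹ := by
      rw [par_bx geo h₂ hp (co_pre hC h)]
      congr 2
      ext z
      simp only [mem_setOf_eq, mul_assoc]
    have h1 : Q₁ (bx Y (co (L.map (MulAut.conj (δ₁ p)).toMonoidHom) i)) =
        π p * Q₁ (bx Y (co L ((i.out * δ₁ p : G₀) : G₀ ⧸ L))) * π p⁻¹ := by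
      rw [par_bx geo h₁ hp (co_CO hL _)]
      congr 2
      ext z
      rw [mem_co, mem_setOf_eq, mem_co, mk_eq]
      nth_rewrite 1 [← mk_out i]
      rw [mk_eq]
      have h3 : ∀ w : G₀, w ∈ L.map (MulAut.conj (δ₁ p)).toMonoidHom ↔
          (δ₁ p)⁻¹ * w * δ₁ p ∈ L := by
        intro w
        simp only [Subgroup.mem_map, MulEquiv.coe_toMonoidHom, MulAut.conj_apply]
        constructor
        · rintro ⟨v, hv, rfl⟩
          rwa [show (δ₁ p)⁻¹ * (δ₁ p * v * (δ₁ p)⁻¹) * δ₁ p = v by group]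
        · intro hw
          exact ⟨_, hw, by group⟩
      rw [h3, show (δ₁ p)⁻¹ * (z⁻¹ * i.out) * δ₁ p = (z * δ₁ p)⁻¹ * (i.out * δ₁ p) by group]
    rw [h1, h2]
    exact conj_comm' (e h _) (pi_inv π p)

/-- **[C7-R], abstract form.** -/
theorem cross (geo : Geo c y₀) (hE₁ : Cpv E₁) (hE₂ : Cpv E₂)
    (hbG : ∀ O : Set G, IsOpen O → (1 : G) ∈ O → ∃ V : Subgroup G, IsOpen (V : Set G) ∧
      (V : Set G) ⊆ O)
    (hb₀ : ∀ O : Set G₀, IsOpen O → (1 : G₀) ∈ O → ∃ V : Subgroup G₀, COS V ∧ (V : Set G₀) ⊆ O)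
    (h₁ : ZFam π lam₁ (X ∪ range lam₂ ∪ range E₂) Ω q₁ c y₀ E₁ δ₁ Q₁)
    (h₂ : ZFam π lam₂ (X ∪ range lam₁ ∪ range E₁) Ω q₂ c y₀ E₂ δ₂ Q₂)
    (hN : ∀ N : Subgroup G₀, (∀ p, p • y₀ = y₀ → ∀ n ∈ N, δ₂ p * n * (δ₂ p)⁻¹ ∈ N) →
      (∀ g ∈ N, ∃ C : Set G₀, IsCompact C ∧ ∀ m : ℕ, g ^ m ∈ C) → N = ⊥) :
    ∀ C D, CO C → CO D → Q₁ C * Q₂ D = Q₂ D * Q₁ C := by
  rcases subsingleton_or_nontrivial K with hK | hK
  · intro C D _ _
    exact Subsingleton.elim _ _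
  haveI := geo.cpt
  haveI := geo.t2
  haveI := geo.td
  haveI := geo.tg₀
  haveI := geo.t2₀
  have hfam := fam2 geo hE₁ hE₂ hbG hb₀ h₁ h₂
  have hall : ∀ (L : Subgroup G₀), COS L → ∀ (D : Set G₀), CO D → ∀ i : G₀ ⧸ L,
      Q₂ (bx Y D) * Q₁ (bx Y (co L i)) = Q₁ (bx Y (co L i)) * Q₂ (bx Y D) := by
    intro L hL D hD i
    have h1 := (hfam.mem_all (fun N h1 h2 => hN N (fun p hp n hn => h1 ⟨p, hp⟩ n hn) h2)
      hL.1 hL.2 hD.1 hD.2).2 1 i
    simpa only [one_mul, setOf_mem_eq] using h1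
  have hE12 : ∀ B, ∀ C, CO C → E₂ B * Q₁ C = Q₁ C * E₂ B := fun B C hC =>
    (h₁.cm C hC _ (Or.inr ⟨B, rfl⟩)).symm
  have hE21 : ∀ B, ∀ C, CO C → E₁ B * Q₂ C = Q₂ C * E₁ B := fun B C hC =>
    (h₂.cm C hC _ (Or.inr ⟨B, rfl⟩)).symm
  -- small boxes
  have hbox : ∀ C : Set (Y × G₀), CO C → ∀ z ∈ C, ∃ (B : Clopens Y) (L : Subgroup G₀), COS L ∧
      z.1 ∈ B ∧ bx Y (co L (z.2 : G₀ ⧸ L)) ∩ Prod.fst ⁻¹' (B : Set Y) ⊆ C := by
    intro C hC z hz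
    obtain ⟨O₁, O₂, hO₁, hO₂, hz1, hz2, hO⟩ := isOpen_prod_iff.1 hC.2 z.1 z.2 hz
    obtain ⟨B, hB, hzB, hBO⟩ := compact_exists_isClopen_in_isOpen hO₁ hz1
    obtain ⟨L, hL, hLO⟩ := hb₀ ((fun m => z.2 * m) ⁻¹' O₂) (hO₂.preimage (by fun_prop))
      (by simpa using hz2)
    refine ⟨⟨B, hB⟩, L, hL, hzB, fun w hw => hO ⟨hBO hw.2, ?_⟩⟩
    have h1 := hw.1
    rw [mem_bx, mem_co, eq_comm, mk_eq] at h1
    have h2 : z.2 * (z.2⁻¹ * w.2) ∈ O₂ := hLO h1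
    rwa [mul_inv_cancel_left] at h2
  have hboxCO : ∀ (B : Clopens Y) (L : Subgroup G₀), COS L → ∀ i : G₀ ⧸ L,
      CO (bx Y (co L i) ∩ Prod.fst ⁻¹' (B : Set Y)) := fun B L hL i =>
    ⟨(bx_CO (co_CO hL i)).1.inter_right (B.isClopen.1.preimage continuous_fst),
      (bx_CO (co_CO hL i)).2.inter (B.isClopen.2.preimage continuous_fst)⟩
  -- boxes against boxes
  have hbb : ∀ (B : Clopens Y) (L : Subgroup G₀), COS L → ∀ (i : G₀ ⧸ L) (B' : Clopens Y)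
      (L' : Subgroup G₀), COS L' → ∀ (i' : G₀ ⧸ L'),
      Q₂ (bx Y (co L' i') ∩ Prod.fst ⁻¹' (B' : Set Y)) *
        Q₁ (bx Y (co L i) ∩ Prod.fst ⁻¹' (B : Set Y)) =
      Q₁ (bx Y (co L i) ∩ Prod.fst ⁻¹' (B : Set Y)) *
        Q₂ (bx Y (co L' i') ∩ Prod.fst ⁻¹' (B' : Set Y)) := by
    intro B L hL i B' L' hL' i'
    have hP : CO (bx Y (co L i)) := bx_CO (co_CO hL i)
    have hP' : CO (bx Y (co L' i')) := bx_CO (co_CO hL' i')
    have hPB := hboxCO B L hL i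
    rw [← h₂.base B' _ hP']
    have e1 := hE12 B' _ hPB
    have e3 := hE21 B _ hP'
    have e4 := hall L hL _ (co_CO hL' i') i
    have e5 : Q₂ (bx Y (co L' i')) * Q₁ (bx Y (co L i) ∩ Prod.fst ⁻¹' (B : Set Y)) =
        Q₁ (bx Y (co L i) ∩ Prod.fst ⁻¹' (B : Set Y)) * Q₂ (bx Y (co L' i')) := by
      rw [← h₁.base B _ hP, ← mul_assoc, e4, mul_assoc, ← e3, mul_assoc]
    rw [mul_assoc, e1, ← mul_assoc, e5, mul_assoc]
  intro C D hC hD
  refine (zp_of h₁).comm_of_basis (fun C' hC' z hz => ?_) hC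
  obtain ⟨B, L, hL, hzB, hsub⟩ := hbox C' hC' z hz
  refine ⟨_, hboxCO B L hL _, ⟨mem_bx.2 rfl, hzB⟩, hsub, ?_⟩
  refine ((zp_of h₂).comm_of_basis (fun D' hD' w hw => ?_) hD).symm
  obtain ⟨B', L', hL', hzB', hsub'⟩ := hbox D' hD' w hw
  exact ⟨_, hboxCO B' L' hL' _, ⟨mem_bx.2 rfl, hzB'⟩, hsub', hbb B L hL _ B' L' hL' _⟩

end main

end Vale.Agent.P092.H729
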