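import Vale.Agent.P092.H933.HMPA

/-!
P092 (helper729), Team N, block [N-GAPB] (2) + (3) of #6084: Howe-Moore on the Hilbert space of
intertwiners.

`R` is a set of pairs `(x, y)`, `x` on `K`, `y` on `Kh`; every operator on `K` which commutes with
all `x` is scalar.  `T : K → Kh` is an intertwiner if `T x = y T` for all pairs.  Then
`T* T'` is scalar, the intertwiners form a Hilbert space, on which `S` acts by
`T ↦ πh h T π h⁻¹`; if `S` has the Howe-Moore property, every `h ↦ ⟪v, πh h T π h⁻¹ Ω⟫` has a limit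
at infinity (the same in all directions).
-/

set_option linter.unusedSectionVars false
set_option linter.unusedVariables false

namespace Vale.Agent.P092.H729.HMi

open scoped InnerProductSpace
open Filter Topology ContinuousLinearMap

open Vale.Agent.P092.H933 (HoweMoore)

/-! ### Howe-Moore with invariant vectors -/

section lim

variable {S : Type} [Group S] [TopologicalSpace S]
variable {E : Type} [NormedAddCommGroup E] [InnerProductSpace ℂ E] [CompleteSpace E]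

/-- the invariant vectors -/
def inv (U : S →* (E →L[ℂ] E)) : Submodule ℂ E where
  carrier := {ξ | ∀ g, U g ξ = ξ}
  add_mem' := fun {a b} ha hb g => by rw [map_add, ha g, hb g]
  zero_mem' := fun g => map_zero _
  smul_mem' := fun c a ha g => by rw [map_smul, ha g]

theorem isClosed_inv (U : S →* (E →L[ℂ] E)) : IsClosed (inv U : Set E) := by
  have : (inv U : Set E) = ⋂ g, {ξ | U g ξ = ξ} := by
    ext ξ
    simp only [Set.mem_iInter]
    rfl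
  rw [this]
  exact isClosed_iInter fun g => isClosed_eq (U g).continuous continuous_id

theorem inner_iso {U : S →* (E →L[ℂ] E)} (hU : ∀ g ξ, ‖U g ξ‖ = ‖ξ‖) (g : S) (ξ η : E) :
    ⟪U g ξ, U g η⟫_ℂ = ⟪ξ, η⟫_ℂ := by
  let L : E →ₗᵢ[ℂ] E := ⟨(U g : E →ₗ[ℂ] E), hU g⟩
  exact L.inner_map_map ξ η

theorem inner_move {U : S →* (E →L[ℂ] E)} (hU : ∀ g ξ, ‖U g ξ‖ = ‖ξ‖) (g : S) (ξ η : E) :
    ⟪U g ξ, η⟫_ℂ = ⟪ξ, U g⁻¹ η⟫_ℂ := by
  have h := inner_iso hU g ξ (U g⁻¹ η)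
  have e : U g (U g⁻¹ η) = η := by
    have : (U g * U g⁻¹) η = η := by rw [← map_mul, mul_inv_cancel, map_one]; rfl
    exact this
  rw [e] at h
  exact h

/-- the restriction to the orthogonal complement of the invariant vectors -/
noncomputable def res (U : S →* (E →L[ℂ] E)) (hU : ∀ g ξ, ‖U g ξ‖ = ‖ξ‖) :
    S →* ((inv U)ᗮ →L[ℂ] (inv U)ᗮ) where
  toFun g := ((U g).comp (inv U)ᗮ.subtypeL).codRestrict (inv U)ᗮ fun ξ => by
    rw [Submodule.mem_orthogonal]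
    intro u hu
    change ⟪u, U g ξ.1⟫_ℂ = 0
    have h1 : ⟪U g ξ.1, u⟫_ℂ = 0 := by
      rw [inner_move hU, hu g⁻¹]
      exact (Submodule.mem_orthogonal' _ _).1 ξ.2 u hu
    rw [← inner_conj_symm, h1, map_zero]
  map_one' := by
    ext ξ
    change (U 1 ξ.1) = ξ.1
    rw [map_one]; rfl
  map_mul' g h := by
    ext ξ
    change U (g * h) ξ.1 = U g (U h ξ.1)
    rw [map_mul]; rfl

theorem res_apply (U : S →* (E →L[ℂ] E)) (hU : ∀ g ξ, ‖U g ξ‖ = ‖ξ‖) (g : S) (ξ : (inv U)ᗮ) :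
    (res U hU g ξ : E) = U g ξ.1 := rfl

/-- **Howe-Moore with invariant vectors**: all matrix coefficients have a limit at infinity. -/
theorem hm_lim (hS : HoweMoore S) (U : S →* (E →L[ℂ] E)) (hU : ∀ g ξ, ‖U g ξ‖ = ‖ξ‖)
    (hc : ∀ ξ, Continuous fun g => U g ξ) (ξ η : E) :
    ∃ z : ℂ, Tendsto (fun g => ⟪U g ξ, η⟫_ℂ) (cocompact S) (𝓝 z) := by
  have : CompleteSpace (inv U) := (isClosed_inv U).completeSpace_coe
  obtain ⟨a, ha, b, hb, hab⟩ := Submodule.exists_add_mem_mem_orthogonal (K := inv U) ξ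
  obtain ⟨a', ha', b', hb', hab'⟩ := Submodule.exists_add_mem_mem_orthogonal (K := inv U) η
  have key := hS ((inv U)ᗮ) (res U hU) (fun g ξ => hU g ξ.1)
    (fun ξ => Continuous.subtype_mk (hc ξ.1) _) (fun ξ hξ => by
      have h1 : ξ.1 ∈ inv U := fun g => congrArg Subtype.val (hξ g)
      have h2 := (Submodule.mem_orthogonal _ _).1 ξ.2 _ h1
      exact Subtype.ext (inner_self_eq_zero.1 h2)) ⟨b, hb⟩ ⟨b', hb'⟩
  refine ⟨⟪a, η⟫_ℂ, ?_⟩
  have e : ∀ g, ⟪U g ξ, η⟫_ℂ = ⟪a, η⟫_ℂ + ⟪res U hU g ⟨b, hb⟩, (⟨b', hb'⟩ : (inv U)ᗮ)⟫_ℂ := by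
    intro g
    rw [Submodule.coe_inner, res_apply]
    rw [hab, map_add, inner_add_left, ha g]
    congr 1
    rw [hab', inner_add_right]
    have h1 : ⟪U g b, a'⟫_ℂ = 0 := by
      rw [inner_move hU, ha' g⁻¹]
      exact (Submodule.mem_orthogonal' _ _).1 hb a' ha'
    rw [h1, zero_add]
  have h2 : Tendsto (fun g => ⟪a, η⟫_ℂ +
      ⟪res U hU g ⟨b, hb⟩, (⟨b', hb'⟩ : (inv U)ᗮ)⟫_ℂ) (cocompact S) (𝓝 (⟪a, η⟫_ℂ + 0)) :=
    key.const_add _
  rw [add_zero] at h2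
  exact h2.congr fun g => (e g).symm

end lim

theorem cont_app {S : Type} [Group S] [TopologicalSpace S]
    {E : Type} [NormedAddCommGroup E] [InnerProductSpace ℂ E] [CompleteSpace E]
    {U : S →* (E →L[ℂ] E)} (hU : ∀ g ξ, ‖U g ξ‖ = ‖ξ‖)
    (hc : ∀ ξ, Continuous fun g => U g ξ) {f : S → E} (hf : Continuous f) :
    Continuous fun g => U g (f g) := by
  rw [continuous_iff_continuousAt]
  intro g₀
  have h1 : Tendsto (fun g => ‖f g - f g₀‖ + ‖U g (f g₀) - U g₀ (f g₀)‖) (𝓝 g₀) (𝓝 0) := by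
    have a1 : Tendsto (fun g => ‖f g - f g₀‖) (𝓝 g₀) (𝓝 0) := by
      have := ((hf.tendsto g₀).sub_const (f g₀)).norm
      rwa [sub_self, norm_zero] at this
    have a2 : Tendsto (fun g => ‖U g (f g₀) - U g₀ (f g₀)‖) (𝓝 g₀) (𝓝 0) := by
      have := (((hc (f g₀)).tendsto g₀).sub_const (U g₀ (f g₀))).norm
      rwa [sub_self, norm_zero] at this
    have := a1.add a2
    rwa [add_zero] at this
  rw [ContinuousAt, tendsto_iff_norm_sub_tendsto_zero]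
  refine squeeze_zero (fun _ => norm_nonneg _) (fun g => ?_) h1
  have e : U g (f g) - U g₀ (f g₀) = U g (f g - f g₀) + (U g (f g₀) - U g₀ (f g₀)) := by
    rw [map_sub]; abel
  rw [e]
  refine (norm_add_le _ _).trans ?_
  rw [hU]

/-! ### Intertwiners -/

section main

variable {S : Type} [Group S] [TopologicalSpace S]
variable {K Kh : Type} [NormedAddCommGroup K] [InnerProductSpace ℂ K] [CompleteSpace K]
  [NormedAddCommGroup Kh] [InnerProductSpace ℂ Kh] [CompleteSpace Kh]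

/-- the data: pairs of operators, two unitary representations of `S` normalising the pairs -/
structure Dat (π : S →* (K →L[ℂ] K)) (πh : S →* (Kh →L[ℂ] Kh))
    (R : Set ((K →L[ℂ] K) × (Kh →L[ℂ] Kh))) : Prop where
  adj : ∀ p ∈ R, (adjoint p.1, adjoint p.2) ∈ R
  nrm : ∀ p ∈ R, ∀ h, (π h * p.1 * π h⁻¹, πh h * p.2 * πh h⁻¹) ∈ R
  sc : ∀ T : K →L[ℂ] K, (∀ p ∈ R, T * p.1 = p.1 * T) → ∃ z : ℂ, T = z • (1 : K →L[ℂ] K)
  iso : ∀ g ξ, ‖π g ξ‖ = ‖ξ‖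
  isoh : ∀ g ξ, ‖πh g ξ‖ = ‖ξ‖
  cont : ∀ ξ, Continuous fun g => π g ξ
  conth : ∀ ξ, Continuous fun g => πh g ξ

/-- intertwiners -/
def Tw (R : Set ((K →L[ℂ] K) × (Kh →L[ℂ] Kh))) : Submodule ℂ (K →L[ℂ] Kh) where
  carrier := {T | ∀ p ∈ R, T.comp p.1 = p.2.comp T}
  add_mem' := fun {a b} ha hb p hp => by
    rw [add_comp, comp_add, ha p hp, hb p hp]
  zero_mem' := fun p hp => by rw [zero_comp, comp_zero]
  smul_mem' := fun c a ha p hp => by rw [smul_comp, comp_smul, ha p hp]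

theorem mem_Tw {R : Set ((K →L[ℂ] K) × (Kh →L[ℂ] Kh))} {T : K →L[ℂ] Kh} :
    T ∈ Tw R ↔ ∀ p ∈ R, T.comp p.1 = p.2.comp T := Iff.rfl

variable {π : S →* (K →L[ℂ] K)} {πh : S →* (Kh →L[ℂ] Kh)}
  {R : Set ((K →L[ℂ] K) × (Kh →L[ℂ] Kh))}

/-- `T* T'` is scalar -/
theorem Dat.scal (D : Dat π πh R) {T T' : K →L[ℂ] Kh} (hT : T ∈ Tw R) (hT' : T' ∈ Tw R) :
    ∃ z : ℂ, (adjoint T).comp T' = z • (1 : K →L[ℂ] K) := by
  refine D.sc _ fun p hp => ?_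
  have h1 := hT _ (D.adj p hp)
  have h2 : (adjoint T).comp p.2 = p.1.comp (adjoint T) := by
    have := congrArg adjoint h1
    rw [adjoint_comp, adjoint_comp, adjoint_adjoint, adjoint_adjoint] at this
    exact this.symm
  change ((adjoint T).comp T').comp p.1 = p.1.comp ((adjoint T).comp T')
  rw [comp_assoc, hT' p hp, ← comp_assoc, h2, comp_assoc]

/-- an intertwiner is a multiple of an isometry -/
theorem Dat.norm_apply (D : Dat π πh R) {T : K →L[ℂ] Kh} (hT : T ∈ Tw R) (ξ : K) :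
    ‖T ξ‖ = ‖T‖ * ‖ξ‖ := by
  obtain ⟨z, hz⟩ := D.scal hT hT
  have h1 : ∀ ξ, ‖T ξ‖ ^ 2 = ‖z‖ * ‖ξ‖ ^ 2 := by
    intro ξ
    have e1 : ((‖T ξ‖ ^ 2 : ℝ) : ℂ) = ⟪ξ, z • ξ⟫_ℂ := by
      have e2 : (z • ξ : K) = adjoint T (T ξ) := by
        have := congrArg (fun A : K →L[ℂ] K => A ξ) hz
        exact this.symm
      rw [e2, adjoint_inner_right, inner_self_eq_norm_sq_to_K]
      norm_cast
    rw [inner_smul_right, inner_self_eq_norm_sq_to_K] at e1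
    have e3 := congrArg norm e1
    rw [norm_mul, Complex.norm_real, Real.norm_of_nonneg (sq_nonneg _)] at e3
    rw [e3]
    congr 1
    have : ((‖ξ‖ : ℂ) ^ 2) = ((‖ξ‖ ^ 2 : ℝ) : ℂ) := by norm_cast
    change ‖((‖ξ‖ : ℂ) ^ 2)‖ = _
    rw [this, Complex.norm_real, Real.norm_of_nonneg (sq_nonneg _)]
  have h2 : ∀ ξ, ‖T ξ‖ = Real.sqrt ‖z‖ * ‖ξ‖ := by
    intro ξ
    have : ‖T ξ‖ ^ 2 = (Real.sqrt ‖z‖ * ‖ξ‖) ^ 2 := by
      rw [h1, mul_pow, Real.sq_sqrt (norm_nonneg _)]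
    exact (pow_left_inj₀ (norm_nonneg _) (by positivity) two_ne_zero).1 this
  by_cases hK : ∃ ξ₀ : K, ξ₀ ≠ 0
  · obtain ⟨ξ₀, h0⟩ := hK
    have hn : ‖T‖ = Real.sqrt ‖z‖ := by
      refine le_antisymm (T.opNorm_le_bound (Real.sqrt_nonneg _) fun ξ => (h2 ξ).le) ?_
      have := T.le_opNorm ξ₀
      rw [h2] at this
      exact le_of_mul_le_mul_right this (norm_pos_iff.2 h0)
    rw [hn, h2]
  · push Not at hK
    rw [hK ξ, map_zero, norm_zero, norm_zero, mul_zero]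

theorem isClosed_Tw (R : Set ((K →L[ℂ] K) × (Kh →L[ℂ] Kh))) :
    IsClosed (Tw R : Set (K →L[ℂ] Kh)) := by
  have : (Tw R : Set (K →L[ℂ] Kh)) = ⋂ p ∈ R, {T | T.comp p.1 = p.2.comp T} := by
    ext T
    simp only [Set.mem_iInter]
    rfl
  rw [this]
  refine isClosed_biInter fun p _ => isClosed_eq ?_ ?_
  · exact ((compL ℂ K K Kh).flip p.1).continuous
  · exact ((compL ℂ K Kh Kh) p.2).continuous

/-- the action of `S` on the intertwiners -/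
theorem Dat.act_mem (D : Dat π πh R) (h : S) {T : K →L[ℂ] Kh} (hT : T ∈ Tw R) :
    (πh h).comp (T.comp (π h⁻¹)) ∈ Tw R := by
  intro p hp
  have h1 := hT _ (D.nrm p hp h⁻¹)
  rw [inv_inv] at h1
  have e1 : π h⁻¹ * π h = 1 := by rw [← map_mul, inv_mul_cancel, map_one]
  have e2 : π h * π h⁻¹ = 1 := by rw [← map_mul, mul_inv_cancel, map_one]
  have e3 : πh h * πh h⁻¹ = 1 := by rw [← map_mul, mul_inv_cancel, map_one]
  ext ξ
  change πh h (T (π h⁻¹ (p.1 ξ))) = p.2 (πh h (T (π h⁻¹ ξ)))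
  have h2 := congrArg (fun A : K →L[ℂ] Kh => A (π h⁻¹ ξ)) h1
  change T (π h⁻¹ (p.1 (π h (π h⁻¹ ξ)))) = πh h⁻¹ (p.2 (πh h (T (π h⁻¹ ξ)))) at h2
  have e4 : π h (π h⁻¹ ξ) = ξ := congrArg (fun A : K →L[ℂ] K => A ξ) e2
  rw [e4] at h2
  rw [h2]
  exact congrArg (fun A : Kh →L[ℂ] Kh => A _) e3

/-- the vectors `T Ω` -/
noncomputable def Mv (R : Set ((K →L[ℂ] K) × (Kh →L[ℂ] Kh))) (Ω : K) : Submodule ℂ Kh :=
  (Tw R).map ((ContinuousLinearMap.apply ℂ Kh Ω : (K →L[ℂ] Kh) →L[ℂ] Kh) : (K →L[ℂ] Kh) →ₗ[ℂ] Kh)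

theorem mem_Mv {Ω : K} {m : Kh} : m ∈ Mv R Ω ↔ ∃ T ∈ Tw R, T Ω = m := by
  unfold Mv
  rw [Submodule.mem_map]
  rfl

theorem Dat.isClosed_Mv (D : Dat π πh R) {Ω : K} (hΩ : ‖Ω‖ = 1) :
    IsClosed (Mv R Ω : Set Kh) := by
  have hn : ∀ T ∈ Tw R, ‖T Ω‖ = ‖T‖ := fun T hT => by rw [D.norm_apply hT, hΩ, mul_one]
  rw [← isSeqClosed_iff_isClosed]
  intro u m hu hm
  choose T hT hTu using fun n => mem_Mv.1 (hu n)
  have hc : CauchySeq T := by
    have h1 : CauchySeq u := hm.cauchySeq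
    rw [Metric.cauchySeq_iff] at h1 ⊢
    intro ε hε
    obtain ⟨N, hN⟩ := h1 ε hε
    refine ⟨N, fun a ha b hb => ?_⟩
    have := hN a ha b hb
    rw [dist_eq_norm] at this ⊢
    rw [← hn _ ((Tw R).sub_mem (hT a) (hT b)), sub_apply, hTu, hTu]
    exact this
  obtain ⟨T₀, h0⟩ := cauchySeq_tendsto_of_complete hc
  refine mem_Mv.2 ⟨T₀, (isClosed_Tw R).mem_of_tendsto h0 (Eventually.of_forall hT), ?_⟩
  refine tendsto_nhds_unique ?_ hm
  have := ((ContinuousLinearMap.apply ℂ Kh Ω : (K →L[ℂ] Kh) →L[ℂ] Kh).continuous.tendsto T₀).comp h0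
  refine this.congr fun n => ?_
  exact hTu n

theorem Dat.inj (D : Dat π πh R) {Ω : K} (hΩ : ‖Ω‖ = 1) {T T' : K →L[ℂ] Kh} (hT : T ∈ Tw R)
    (hT' : T' ∈ Tw R) (h : T Ω = T' Ω) : T = T' := by
  have h1 := D.norm_apply ((Tw R).sub_mem hT hT') Ω
  rw [sub_apply, h, sub_self, norm_zero, hΩ, mul_one] at h1
  exact sub_eq_zero.1 (norm_eq_zero.1 h1.symm)

/-- the intertwiner of a vector -/
noncomputable def tw {Ω : K} (m : Mv R Ω) : K →L[ℂ] Kh := (mem_Mv.1 m.2).choose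

theorem tw_mem {Ω : K} (m : Mv R Ω) : tw m ∈ Tw R := (mem_Mv.1 m.2).choose_spec.1

theorem tw_apply {Ω : K} (m : Mv R Ω) : tw m Ω = m.1 := (mem_Mv.1 m.2).choose_spec.2

/-- the operator of `h` on the vectors `T Ω` -/
noncomputable def Dat.U₀ (D : Dat π πh R) {Ω : K} (hΩ : ‖Ω‖ = 1) (h : S) :
    Mv R Ω →ₗᵢ[ℂ] Mv R Ω where
  toFun m := ⟨((πh h).comp ((tw m).comp (π h⁻¹))) Ω, mem_Mv.2 ⟨_, D.act_mem h (tw_mem m), rfl⟩⟩
  map_add' m m' := by
    have : tw (m + m') = tw m + tw m' := D.inj hΩ (tw_mem _)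
      ((Tw R).add_mem (tw_mem _) (tw_mem _)) (by
        rw [tw_apply, add_apply, tw_apply, tw_apply]; rfl)
    refine Subtype.ext ?_
    change πh h (tw (m + m') (π h⁻¹ Ω)) = πh h (tw m (π h⁻¹ Ω)) + πh h (tw m' (π h⁻¹ Ω))
    rw [this, add_apply, map_add]
  map_smul' c m := by
    have : tw (c • m) = c • tw m := D.inj hΩ (tw_mem _)
      ((Tw R).smul_mem c (tw_mem _)) (by
        rw [tw_apply, smul_apply, tw_apply]; rfl)
    refine Subtype.ext ?_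
    change πh h (tw (c • m) (π h⁻¹ Ω)) = c • πh h (tw m (π h⁻¹ Ω))
    rw [this, smul_apply, map_smul]
  norm_map' m := by
    change ‖πh h (tw m (π h⁻¹ Ω))‖ = ‖m.1‖
    rw [D.isoh, D.norm_apply (tw_mem m), D.iso, ← D.norm_apply (tw_mem m), tw_apply]

theorem Dat.U₀_apply (D : Dat π πh R) {Ω : K} (hΩ : ‖Ω‖ = 1) (h : S) {T : K →L[ℂ] Kh}
    (hT : T ∈ Tw R) (m : Mv R Ω) (hm : T Ω = m.1) :
    (D.U₀ hΩ h m : Kh) = πh h (T (π h⁻¹ Ω)) := by
  have : tw m = T := D.inj hΩ (tw_mem m) hT (by rw [tw_apply, hm])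
  change πh h (tw m (π h⁻¹ Ω)) = _
  rw [this]

/-- the representation of `S` on the vectors `T Ω` -/
noncomputable def Dat.U (D : Dat π πh R) {Ω : K} (hΩ : ‖Ω‖ = 1) :
    S →* (Mv R Ω →L[ℂ] Mv R Ω) where
  toFun h := (D.U₀ hΩ h).toContinuousLinearMap
  map_one' := by
    ext m
    change (D.U₀ hΩ 1 m : Kh) = m.1
    rw [D.U₀_apply hΩ 1 (tw_mem m) m (tw_apply m), inv_one, map_one, map_one]
    exact tw_apply m
  map_mul' g h := by
    ext m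
    change (D.U₀ hΩ (g * h) m : Kh) = (D.U₀ hΩ g (D.U₀ hΩ h m) : Kh)
    have e1 := D.U₀_apply hΩ g (D.act_mem h (tw_mem m)) (D.U₀ hΩ h m) rfl
    rw [e1, D.U₀_apply hΩ (g * h) (tw_mem m) m (tw_apply m), mul_inv_rev, map_mul, map_mul]
    rfl

/-- **(3) of #6084**: the coefficients `⟪v, πh h T π h⁻¹ Ω⟫` have a limit at infinity. -/
theorem Dat.tendsto [IsTopologicalGroup S] (D : Dat π πh R) (hS : HoweMoore S) {Ω : K}
    (hΩ : ‖Ω‖ = 1) {T : K →L[ℂ] Kh} (hT : T ∈ Tw R) (v : Kh) :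
    ∃ z : ℂ, Tendsto (fun h => ⟪v, πh h (T (π h⁻¹ Ω))⟫_ℂ) (cocompact S) (𝓝 z) := by
  have hcomp : CompleteSpace (Mv R Ω) := (D.isClosed_Mv hΩ).completeSpace_coe
  obtain ⟨a, ha, b, hb, hab⟩ := Submodule.exists_add_mem_mem_orthogonal (K := Mv R Ω) v
  let m : Mv R Ω := ⟨T Ω, mem_Mv.2 ⟨T, hT, rfl⟩⟩
  obtain ⟨z, hz⟩ := hm_lim hS (D.U hΩ) (fun h m => (D.U₀ hΩ h).norm_map m) (fun m => by
    refine Continuous.subtype_mk (f := fun h => πh h (tw m (π h⁻¹ Ω))) ?_ _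
    refine cont_app D.isoh D.conth ?_
    exact (tw m).continuous.comp ((D.cont Ω).comp continuous_inv)) m ⟨a, ha⟩
  refine ⟨(starRingEnd ℂ) z, ?_⟩
  have h1 := (Complex.continuous_conj.tendsto z).comp hz
  refine h1.congr fun h => ?_
  change (starRingEnd ℂ) ⟪(D.U₀ hΩ h m : Kh), a⟫_ℂ = _
  have e : (D.U₀ hΩ h m : Kh) = πh h (T (π h⁻¹ Ω)) := D.U₀_apply hΩ h hT m rfl
  rw [e, inner_conj_symm, hab, inner_add_left]
  have h0 : ⟪b, πh h (T (π h⁻¹ Ω))⟫_ℂ = 0 :=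
    (Submodule.mem_orthogonal' _ _).1 hb _ (mem_Mv.2 ⟨_, D.act_mem h hT, rfl⟩)
  rw [h0, add_zero]

/-- the form which is used: for `v = v h` moving with `πh` -/
theorem Dat.tendsto' [IsTopologicalGroup S] (D : Dat π πh R) (hS : HoweMoore S) {Ω : K}
    (hΩ : ‖Ω‖ = 1) {T : K →L[ℂ] Kh} (hT : T ∈ Tw R) (v : Kh) :
    ∃ z : ℂ, Tendsto (fun h => ⟪πh h v, T (π h Ω)⟫_ℂ) (cocompact S) (𝓝 z) := by
  obtain ⟨z, hz⟩ := D.tendsto hS hΩ hT v
  have hinv : Tendsto (fun h : S => h⁻¹) (cocompact S) (cocompact S) :=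
    (Homeomorph.inv S).isClosedEmbedding.tendsto_cocompact
  refine ⟨z, (hz.comp hinv).congr fun h => ?_⟩
  change ⟪v, πh h⁻¹ (T (π h⁻¹⁻¹ Ω))⟫_ℂ = _
  rw [inv_inv, inner_move D.isoh]

end main

end Vale.Agent.P092.H729.HMi
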