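import Mathlib

/-!
P092, project B, block B-TA-OUT2, step (d) (helper729): two homomorphisms with dense range, of one
group into two topological groups, which see the same compact open subgroups, differ by a
topological isomorphism.
-/

set_option autoImplicit false
set_option linter.all false

open Filter Topology

namespace Vale.Agent.P092.H729

section psi

variable {B H H' : Type*} [Group B] [Group H] [Group H'] [TopologicalSpace H]
  [TopologicalSpace H'] [IsTopologicalGroup H] [IsTopologicalGroup H']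

/-- the closure of the graph -/
def gr (p' : B →* H') (q : B →* H) : Subgroup (H' × H) := (p'.prod q).range.topologicalClosure

theorem mem_gr_iff (p' : B →* H') (q : B →* H) (a : H') (x : H) :
    (a, x) ∈ gr p' q ↔ ∀ U : Set H', ∀ V : Set H, IsOpen U → IsOpen V → a ∈ U → x ∈ V →
      ∃ b, p' b ∈ U ∧ q b ∈ V := by
  have h0 : (a, x) ∈ gr p' q ↔ (a, x) ∈ closure ((p'.prod q).range : Set (H' × H)) := Iff.rfl
  rw [h0, mem_closure_iff]
  constructor
  · intro h U V hU hV haU hxV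
    obtain ⟨y, ⟨hy1, hy2⟩, b, rfl⟩ := h (U ×ˢ V) (hU.prod hV) ⟨haU, hxV⟩
    exact ⟨b, hy1, hy2⟩
  · intro h O hO haO
    obtain ⟨U, V, hU, hV, haU, hxV, hsub⟩ := isOpen_prod_iff.1 hO a x haO
    obtain ⟨b, hb1, hb2⟩ := h U V hU hV haU hxV
    exact ⟨(p' b, q b), hsub ⟨hb1, hb2⟩, b, rfl⟩

theorem gr_swap (p' : B →* H') (q : B →* H) (a : H') (x : H) :
    (a, x) ∈ gr p' q ↔ (x, a) ∈ gr q p' := by
  rw [mem_gr_iff, mem_gr_iff]
  constructor
  · intro h U V hU hV h1 h2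
    obtain ⟨b, h3, h4⟩ := h V U hV hU h2 h1
    exact ⟨b, h4, h3⟩
  · intro h U V hU hV h1 h2
    obtain ⟨b, h3, h4⟩ := h V U hV hU h2 h1
    exact ⟨b, h4, h3⟩

theorem gr_level {p' : B →* H'} {q : B →* H} {K : Subgroup H} {K' : Subgroup H'}
    (hK : IsOpen (K : Set H)) (hK' : IsOpen (K' : Set H')) (h : ∀ b, q b ∈ K ↔ p' b ∈ K')
    {a : H'} {x : H} (hax : (a, x) ∈ gr p' q) (ha : a ∈ K') : x ∈ K := by
  rw [mem_gr_iff] at hax
  obtain ⟨b, hb1, hb2⟩ := hax (K' : Set H') ((fun y => x⁻¹ * y) ⁻¹' (K : Set H)) hK'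
    (hK.preimage (continuous_const.mul continuous_id)) ha (by simp [K.one_mem])
  have hb3 : x⁻¹ * q b ∈ K := hb2
  have hb4 : q b ∈ K := (h b).2 hb1
  have h5 : x⁻¹ * q b * (q b)⁻¹ ∈ K := K.mul_mem hb3 (K.inv_mem hb4)
  rw [mul_inv_cancel_right] at h5
  exact (Subgroup.inv_mem_iff K).1 h5

theorem gr_unique [T2Space H] {p' : B →* H'} {q : B →* H} {K : ℕ → Subgroup H}
    {K' : ℕ → Subgroup H'} (hK : ∀ n, IsOpen (K n : Set H)) (hK' : ∀ n, IsOpen (K' n : Set H'))
    (hc : ∀ U : Set H, IsOpen U → (1 : H) ∈ U → ∃ n, (K n : Set H) ⊆ U)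
    (h : ∀ n b, q b ∈ K n ↔ p' b ∈ K' n) {a : H'} {x y : H} (hx : (a, x) ∈ gr p' q)
    (hy : (a, y) ∈ gr p' q) : x = y := by
  have h1 : ((1 : H'), x⁻¹ * y) ∈ gr p' q := by
    have := (gr p' q).mul_mem ((gr p' q).inv_mem hx) hy
    have h2 : ((a, x) : H' × H)⁻¹ * (a, y) = (1, x⁻¹ * y) := by
      ext <;> simp
    rwa [h2] at this
  by_contra hne
  have h3 : x⁻¹ * y ≠ 1 := by
    intro h4
    exact hne (inv_mul_eq_one.1 h4)
  obtain ⟨n, hn⟩ := hc ({x⁻¹ * y}ᶜ) isOpen_compl_singleton (by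
    simp only [Set.mem_compl_iff, Set.mem_singleton_iff]
    exact fun h4 => h3 h4.symm)
  exact hn (gr_level (hK n) (hK' n) (h n) h1 (K' n).one_mem) rfl

theorem gr_exists [T2Space H'] {p' : B →* H'} {q : B →* H} (hp' : DenseRange p')
    {K : Subgroup H} {K' : Subgroup H'}
    (hK : IsCompact (K : Set H)) (hK' : IsCompact (K' : Set H')) (hK'o : IsOpen (K' : Set H'))
    (h : ∀ b, q b ∈ K ↔ p' b ∈ K') (a : H') : ∃ x, (a, x) ∈ gr p' q := by
  have key : ∀ k ∈ K', ∃ x, (k, x) ∈ gr p' q := by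
    intro k hk
    set S : Set H' := Prod.fst '' ((gr p' q : Set (H' × H)) ∩ ((K' : Set H') ×ˢ (K : Set H)))
      with hS
    have hSc : IsCompact S :=
      ((hK'.prod hK).inter_left (Subgroup.isClosed_topologicalClosure _)).image continuous_fst
    have hSd : IsClosed S := hSc.isClosed
    have h1 : (K' : Set H') ∩ Set.range p' ⊆ S := by
      rintro _ ⟨hb, b, rfl⟩
      refine ⟨(p' b, q b), ⟨?_, hb, (h b).2 hb⟩, rfl⟩
      exact subset_closure ⟨b, rfl⟩
    have h2 : k ∈ closure ((K' : Set H') ∩ Set.range p') :=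
      hp'.open_subset_closure_inter hK'o hk
    have h3 : k ∈ S := hSd.closure_subset_iff.2 h1 h2
    obtain ⟨y, ⟨hy1, _⟩, rfl⟩ := h3
    exact ⟨y.2, hy1⟩
  have hU : IsOpen ((fun y => a⁻¹ * y) ⁻¹' (K' : Set H')) :=
    hK'o.preimage (continuous_const.mul continuous_id)
  obtain ⟨b, hb⟩ := hp'.exists_mem_open hU ⟨a, by simp [K'.one_mem]⟩
  have hb' : a⁻¹ * p' b ∈ K' := hb
  obtain ⟨x, hx⟩ := key _ hb'
  have hbb : (p' b, q b) ∈ gr p' q := subset_closure ⟨b, rfl⟩
  refine ⟨q b * x⁻¹, ?_⟩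
  have h5 := (gr p' q).mul_mem hbb ((gr p' q).inv_mem hx)
  have h6 : ((p' b, q b) : H' × H) * (a⁻¹ * p' b, x)⁻¹ = (a, q b * x⁻¹) := by
    ext <;> simp
  rwa [h6] at h5

/-- Two homomorphisms with dense range which see the same compact open subgroups differ by a
topological isomorphism. -/
theorem exists_psi' [T2Space H] [T2Space H'] (p' : B →* H') (q : B →* H) (hp' : DenseRange p')
    (hq : DenseRange q) (K : ℕ → Subgroup H) (K' : ℕ → Subgroup H')
    (hK : ∀ n, IsCompact (K n : Set H) ∧ IsOpen (K n : Set H))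
    (hK' : ∀ n, IsCompact (K' n : Set H') ∧ IsOpen (K' n : Set H'))
    (hc : ∀ U : Set H, IsOpen U → (1 : H) ∈ U → ∃ n, (K n : Set H) ⊆ U)
    (hc' : ∀ U : Set H', IsOpen U → (1 : H') ∈ U → ∃ n, (K' n : Set H') ⊆ U)
    (h : ∀ n b, q b ∈ K n ↔ p' b ∈ K' n) : ∃ ψ : H' ≃ₜ* H, ∀ b, ψ (p' b) = q b := by
  have e1 : ∀ a, ∃ x, (a, x) ∈ gr p' q :=
    gr_exists hp' (hK 0).1 (hK' 0).1 (hK' 0).2 (h 0)
  have e2 : ∀ x, ∃ a, (a, x) ∈ gr p' q := by
    intro x
    obtain ⟨a, ha⟩ := gr_exists hq (hK' 0).1 (hK 0).1 (hK 0).2 (fun b => (h 0 b).symm) x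
    exact ⟨a, (gr_swap p' q a x).2 ha⟩
  have u1 : ∀ {a x y}, (a, x) ∈ gr p' q → (a, y) ∈ gr p' q → x = y := fun hx hy =>
    gr_unique (fun n => (hK n).2) (fun n => (hK' n).2) hc h hx hy
  have u2 : ∀ {a b x}, (a, x) ∈ gr p' q → (b, x) ∈ gr p' q → a = b := fun hx hy =>
    gr_unique (p' := q) (q := p') (fun n => (hK' n).2) (fun n => (hK n).2) hc'
      (fun n b => (h n b).symm) ((gr_swap p' q _ _).1 hx) ((gr_swap p' q _ _).1 hy)
  choose f hf using e1
  choose g hg using e2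
  have hmul : ∀ a b, f (a * b) = f a * f b := by
    intro a b
    refine u1 (hf _) ?_
    exact (gr p' q).mul_mem (hf a) (hf b)
  have hmulg : ∀ a b, g (a * b) = g a * g b := by
    intro a b
    refine u2 (hg _) ?_
    exact (gr p' q).mul_mem (hg a) (hg b)
  have hfg : ∀ x, f (g x) = x := fun x => u1 (hf _) (hg _)
  have hgf : ∀ a, g (f a) = a := fun a => u2 (hg _) (hf _)
  let e : H' ≃* H :=
    { toFun := f
      invFun := g
      left_inv := hgf
      right_inv := hfg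
      map_mul' := hmul }
  have hcf : Continuous e := by
    refine continuous_of_continuousAt_one e ?_
    rw [ContinuousAt, map_one]
    intro s hs
    obtain ⟨U, hUs, hUo, hU1⟩ := mem_nhds_iff.1 hs
    obtain ⟨n, hn⟩ := hc U hUo hU1
    rw [mem_map]
    refine mem_of_superset ((hK' n).2.mem_nhds (K' n).one_mem) ?_
    intro a ha
    exact hUs (hn (gr_level (hK n).2 (hK' n).2 (h n) (hf a) ha))
  have hcg : Continuous e.symm := by
    refine continuous_of_continuousAt_one e.symm ?_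
    rw [ContinuousAt, map_one]
    intro s hs
    obtain ⟨U, hUs, hUo, hU1⟩ := mem_nhds_iff.1 hs
    obtain ⟨n, hn⟩ := hc' U hUo hU1
    rw [mem_map]
    refine mem_of_superset ((hK n).2.mem_nhds (K n).one_mem) ?_
    intro x hx
    exact hUs (hn (gr_level (p' := q) (q := p') (hK' n).2 (hK n).2 (fun b => (h n b).symm)
      ((gr_swap p' q _ _).1 (hg x)) hx))
  refine ⟨{ e with continuous_toFun := hcf, continuous_invFun := hcg }, fun b => ?_⟩
  change f (p' b) = q b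
  exact u1 (hf _) (subset_closure ⟨b, rfl⟩)

end psi

end Vale.Agent.P092.H729
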