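import Mathlib

/-!
P092 (helper729), Team N, block [N-RK], part 1: the calculus of invariant closed subspaces.

`S` is a `*`-closed set of operators on a Hilbert space `K`.  A closed subspace is `Good S` if it
is invariant under `S` and under everything that commutes with `S`; its projection `pj V` then
commutes with `S` and with the commutant of `S`.  Good subspaces are stable under arbitrary
intersections, closed spans and orthogonal complements, and form a distributive lattice.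
-/

set_option linter.unusedSectionVars false
set_option linter.unusedVariables false

namespace Vale.Agent.P092.H729.Rk

open scoped InnerProductSpace

variable {K : Type*} [NormedAddCommGroup K] [InnerProductSpace ℂ K] [CompleteSpace K]

/-- projection onto the closure of a subspace -/
noncomputable def pj (V : Submodule ℂ K) : K →L[ℂ] K := V.topologicalClosure.starProjection

/-- closed span of a family of subspaces -/
noncomputable def sp {ι : Sort*} (V : ι → Submodule ℂ K) : Submodule ℂ K :=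
  (⨆ i, V i).topologicalClosure

/-- `V` is closed, invariant under `S` and under the commutant of `S`. -/
structure Good (S : Set (K →L[ℂ] K)) (V : Submodule ℂ K) : Prop where
  cl : IsClosed (V : Set K)
  inv : ∀ a ∈ S, ∀ v ∈ V, a v ∈ V
  cinv : ∀ b : K →L[ℂ] K, (∀ a ∈ S, b * a = a * b) → ∀ v ∈ V, b v ∈ V

/-- `T` commutes with `S` and with the commutant of `S`. -/
structure Cen (S : Set (K →L[ℂ] K)) (T : K →L[ℂ] K) : Prop where
  comm : ∀ a ∈ S, T * a = a * T
  ccomm : ∀ b : K →L[ℂ] K, (∀ a ∈ S, b * a = a * b) → T * b = b * T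

/-! ### The projection -/

theorem cl_eq {V : Submodule ℂ K} (h : IsClosed (V : Set K)) : V.topologicalClosure = V :=
  h.submodule_topologicalClosure_eq

theorem pj_mem {V : Submodule ℂ K} (h : IsClosed (V : Set K)) (x : K) : pj V x ∈ V := by
  have := V.topologicalClosure.starProjection_apply_mem x
  exact (cl_eq h).le this

theorem pj_self {V : Submodule ℂ K} {x : K} (hx : x ∈ V) : pj V x = x :=
  Submodule.starProjection_eq_self_iff.2 (V.le_topologicalClosure hx)

theorem pj_self_iff {V : Submodule ℂ K} (h : IsClosed (V : Set K)) {x : K} :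
    pj V x = x ↔ x ∈ V :=
  ⟨fun e => e ▸ pj_mem h x, pj_self⟩

theorem pj_symm (V : Submodule ℂ K) (x y : K) : ⟪pj V x, y⟫_ℂ = ⟪x, pj V y⟫_ℂ :=
  Submodule.inner_starProjection_left_eq_right _ x y

theorem pj_adj (V : Submodule ℂ K) : ContinuousLinearMap.adjoint (pj V) = pj V := by
  symm
  rw [ContinuousLinearMap.eq_adjoint_iff]
  exact fun x y => pj_symm V x y

theorem pj_star (V : Submodule ℂ K) : star (pj V) = pj V := pj_adj V

theorem pj_idem (V : Submodule ℂ K) : pj V * pj V = pj V := by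
  ext x
  exact Submodule.starProjection_eq_self_iff.2 (V.topologicalClosure.starProjection_apply_mem x)

theorem pj_norm_le (V : Submodule ℂ K) (x : K) : ‖pj V x‖ ≤ ‖x‖ :=
  Submodule.norm_starProjection_apply_le _ x

theorem pj_pyth (V : Submodule ℂ K) (x : K) : ‖x‖ ^ 2 = ‖pj V x‖ ^ 2 + ‖x - pj V x‖ ^ 2 := by
  have h : ⟪pj V x, x - pj V x⟫_ℂ = 0 := by
    have : pj V (pj V x) = pj V x := congrArg (fun T : K →L[ℂ] K => T x) (pj_idem V)
    rw [inner_sub_right, sub_eq_zero, ← pj_symm V (pj V x) x, this]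
  have := norm_add_sq_eq_norm_sq_add_norm_sq_of_inner_eq_zero (pj V x) (x - pj V x) h
  rw [add_sub_cancel] at this
  nlinarith [this]

/-- an operator leaving `V` invariant together with its adjoint commutes with `pj V` -/
theorem pj_comm {V : Submodule ℂ K} (hV : IsClosed (V : Set K)) {a : K →L[ℂ] K}
    (h : ∀ v ∈ V, a v ∈ V) (h' : ∀ v ∈ V, star a v ∈ V) : pj V * a = a * pj V := by
  have key : ∀ {b : K →L[ℂ] K}, (∀ v ∈ V, b v ∈ V) → pj V * b * pj V = b * pj V := by
    intro b hb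
    ext x
    exact pj_self (hb _ (pj_mem hV x))
  have h1 := key h
  have h2 := key h'
  have h3 : pj V * a * pj V = pj V * a := by
    have := congrArg star h2
    simp only [star_mul, star_star, pj_star] at this
    rw [← mul_assoc] at this
    exact this
  rw [← h3, h1]

theorem Good.pj_comm_S {S : Set (K →L[ℂ] K)} (hS : ∀ a ∈ S, star a ∈ S) {V : Submodule ℂ K}
    (h : Good S V) : ∀ a ∈ S, pj V * a = a * pj V :=
  fun a ha => pj_comm h.cl (h.inv a ha) (h.inv _ (hS a ha))

theorem star_comm {S : Set (K →L[ℂ] K)} (hS : ∀ a ∈ S, star a ∈ S) {b : K →L[ℂ] K}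
    (hb : ∀ a ∈ S, b * a = a * b) : ∀ a ∈ S, star b * a = a * star b := by
  intro a ha
  have := congrArg star (hb _ (hS a ha))
  simp only [star_mul, star_star] at this
  exact this.symm

theorem Good.pj_comm_c {S : Set (K →L[ℂ] K)} (hS : ∀ a ∈ S, star a ∈ S) {V : Submodule ℂ K}
    (h : Good S V) {b : K →L[ℂ] K} (hb : ∀ a ∈ S, b * a = a * b) : pj V * b = b * pj V :=
  pj_comm h.cl (h.cinv b hb) (h.cinv _ (star_comm hS hb))

theorem Good.cen {S : Set (K →L[ℂ] K)} (hS : ∀ a ∈ S, star a ∈ S) {V : Submodule ℂ K}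
    (h : Good S V) : Cen S (pj V) :=
  ⟨h.pj_comm_S hS, fun _ hb => h.pj_comm_c hS hb⟩

/-- two good subspaces, one for a smaller set: the projections commute. -/
theorem Good.comm₂ {S S' : Set (K →L[ℂ] K)} (hS : ∀ a ∈ S, star a ∈ S)
    (hS' : ∀ a ∈ S', star a ∈ S') (hSS : S' ⊆ S) {V V' : Submodule ℂ K} (h : Good S V)
    (h' : Good S' V') : pj V * pj V' = pj V' * pj V :=
  (h'.pj_comm_c hS' fun a ha => h.pj_comm_S hS a (hSS ha)).symm

theorem Good.comm {S : Set (K →L[ℂ] K)} (hS : ∀ a ∈ S, star a ∈ S) {V V' : Submodule ℂ K}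
    (h : Good S V) (h' : Good S V') : pj V * pj V' = pj V' * pj V :=
  Good.comm₂ hS hS subset_rfl h h'

theorem mem_of_comm {V V' : Submodule ℂ K} (hV : IsClosed (V : Set K))
    (hc : pj V * pj V' = pj V' * pj V) {x : K} (hx : x ∈ V) : pj V' x ∈ V := by
  rw [← pj_self_iff hV]
  have := congrArg (fun T : K →L[ℂ] K => T x) hc
  change pj V (pj V' x) = pj V' (pj V x) at this
  rw [this, pj_self hx]

theorem pj_inf {V V' : Submodule ℂ K} (hV : IsClosed (V : Set K)) (hV' : IsClosed (V' : Set K))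
    (hc : pj V * pj V' = pj V' * pj V) : pj V * pj V' = pj (V ⊓ V') := by
  have hi : IsClosed ((V ⊓ V' : Submodule ℂ K) : Set K) := hV.inter hV'
  ext x
  have h1 : pj V (pj V' x) ∈ V ⊓ V' :=
    ⟨pj_mem hV _, by
      have := congrArg (fun T : K →L[ℂ] K => T x) hc
      change pj V (pj V' x) = pj V' (pj V x) at this
      rw [this]; exact pj_mem hV' _⟩
  symm
  change (V ⊓ V').topologicalClosure.starProjection x = pj V (pj V' x)
  have : (V ⊓ V').topologicalClosure = V ⊓ V' := cl_eq hi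
  refine Submodule.eq_starProjection_of_mem_of_inner_eq_zero (this.ge h1) fun w hw => ?_
  replace hw := this.le hw
  rw [inner_sub_left, pj_symm, pj_self hw.1, pj_symm, pj_self hw.2, sub_self]

/-- disjoint commuting subspaces are orthogonal -/
theorem pj_mul_eq_zero {V V' : Submodule ℂ K} (hV : IsClosed (V : Set K))
    (hV' : IsClosed (V' : Set K)) (hc : pj V * pj V' = pj V' * pj V) (h : V ⊓ V' = ⊥) :
    pj V * pj V' = 0 := by
  rw [pj_inf hV hV' hc, h]
  ext x
  have h0 : pj (⊥ : Submodule ℂ K) x ∈ (⊥ : Submodule ℂ K) := by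
    apply pj_mem
    rw [Submodule.bot_coe]
    exact isClosed_singleton
  exact (Submodule.mem_bot ℂ).1 h0

/-! ### The lattice -/

theorem good_top (S : Set (K →L[ℂ] K)) : Good S (⊤ : Submodule ℂ K) :=
  ⟨isClosed_univ, fun _ _ _ _ => trivial, fun _ _ _ _ => trivial⟩

theorem good_bot (S : Set (K →L[ℂ] K)) : Good S (⊥ : Submodule ℂ K) := by
  refine ⟨?_, ?_, ?_⟩
  · rw [Submodule.bot_coe]; exact isClosed_singleton
  · intro a _ v hv
    rw [Submodule.mem_bot] at hv ⊢
    rw [hv, map_zero]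
  · intro a _ v hv
    rw [Submodule.mem_bot] at hv ⊢
    rw [hv, map_zero]

theorem Good.inf {S : Set (K →L[ℂ] K)} {V V' : Submodule ℂ K} (h : Good S V) (h' : Good S V') :
    Good S (V ⊓ V') :=
  ⟨h.cl.inter h'.cl, fun a ha v hv => ⟨h.inv a ha v hv.1, h'.inv a ha v hv.2⟩,
    fun b hb v hv => ⟨h.cinv b hb v hv.1, h'.cinv b hb v hv.2⟩⟩

theorem good_iInf {S : Set (K →L[ℂ] K)} {ι : Sort*} {V : ι → Submodule ℂ K}
    (h : ∀ i, Good S (V i)) : Good S (⨅ i, V i) := by
  refine ⟨?_, ?_, ?_⟩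
  · rw [Submodule.coe_iInf]
    exact isClosed_iInter fun i => (h i).cl
  · intro a ha v hv
    rw [Submodule.mem_iInf] at hv ⊢
    exact fun i => (h i).inv a ha v (hv i)
  · intro a ha v hv
    rw [Submodule.mem_iInf] at hv ⊢
    exact fun i => (h i).cinv a ha v (hv i)

theorem isClosed_sp {ι : Sort*} (V : ι → Submodule ℂ K) : IsClosed (sp V : Set K) :=
  Submodule.isClosed_topologicalClosure _

theorem le_sp {ι : Sort*} (V : ι → Submodule ℂ K) (i : ι) : V i ≤ sp V :=
  (le_iSup V i).trans (Submodule.le_topologicalClosure _)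

theorem sp_le {ι : Sort*} {V : ι → Submodule ℂ K} {W : Submodule ℂ K}
    (hW : IsClosed (W : Set K)) (h : ∀ i, V i ≤ W) : sp V ≤ W :=
  Submodule.topologicalClosure_minimal _ (iSup_le h) hW

/-- an operator that maps every `V i` into the closed `W` maps `sp V` into `W` -/
theorem map_sp {K' : Type*} [NormedAddCommGroup K'] [InnerProductSpace ℂ K'] {ι : Sort*}
    {V : ι → Submodule ℂ K} {W : Submodule ℂ K'} (hW : IsClosed (W : Set K')) (a : K →L[ℂ] K')
    (h : ∀ i, ∀ v ∈ V i, a v ∈ W) : ∀ v ∈ sp V, a v ∈ W := by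
  have : sp V ≤ W.comap (a : K →ₗ[ℂ] K') := by
    refine sp_le ?_ fun i v hv => h i v hv
    exact hW.preimage a.continuous
  exact fun v hv => this hv

theorem good_sp {S : Set (K →L[ℂ] K)} {ι : Sort*} {V : ι → Submodule ℂ K}
    (h : ∀ i, Good S (V i)) : Good S (sp V) :=
  ⟨isClosed_sp V, fun a ha => map_sp (isClosed_sp V) a fun i v hv =>
    le_sp V i ((h i).inv a ha v hv), fun b hb => map_sp (isClosed_sp V) b fun i v hv =>
    le_sp V i ((h i).cinv b hb v hv)⟩

theorem Good.orth {S : Set (K →L[ℂ] K)} (hS : ∀ a ∈ S, star a ∈ S) {V : Submodule ℂ K}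
    (h : Good S V) : Good S Vᗮ := by
  have key : ∀ b : K →L[ℂ] K, (∀ v ∈ V, star b v ∈ V) → ∀ v ∈ Vᗮ, b v ∈ Vᗮ := by
    intro b hb v hv
    rw [Submodule.mem_orthogonal] at hv ⊢
    intro u hu
    have := hv _ (hb u hu)
    rw [ContinuousLinearMap.star_eq_adjoint, ContinuousLinearMap.adjoint_inner_left] at this
    exact this
  exact ⟨Submodule.isClosed_orthogonal _, fun a ha => key a (h.inv _ (hS a ha)),
    fun b hb => key b (h.cinv _ (star_comm hS hb))⟩

/-- distributivity -/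
theorem Good.inf_sp_le {S S' : Set (K →L[ℂ] K)} (hS : ∀ a ∈ S, star a ∈ S)
    (hS' : ∀ a ∈ S', star a ∈ S') (hSS : S' ⊆ S ∨ S ⊆ S')
    {V : Submodule ℂ K} (h : Good S V) {ι : Sort*} {W : ι → Submodule ℂ K}
    (hW : ∀ i, Good S' (W i)) : V ⊓ sp W ≤ sp fun i => V ⊓ W i := by
  rintro x ⟨hx, hx'⟩
  have : pj V x ∈ sp fun i => V ⊓ W i := by
    refine map_sp (isClosed_sp _) (pj V) (fun i v hv => ?_) x hx'
    refine le_sp (fun i => V ⊓ W i) i ⟨pj_mem h.cl _, ?_⟩
    refine mem_of_comm (hW i).cl ?_ hv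
    rcases hSS with hSS | hSS
    · exact (Good.comm₂ hS hS' hSS h (hW i)).symm
    · exact Good.comm₂ hS' hS hSS (hW i) h
  rwa [pj_self hx] at this

theorem Good.inf_sp_le' {S : Set (K →L[ℂ] K)} (hS : ∀ a ∈ S, star a ∈ S)
    {V : Submodule ℂ K} (h : Good S V) {ι : Sort*} {W : ι → Submodule ℂ K}
    (hW : ∀ i, Good S (W i)) : V ⊓ sp W ≤ sp fun i => V ⊓ W i :=
  h.inf_sp_le hS hS (Or.inl subset_rfl) hW

/-- two closed spans -/
theorem sp_inf_sp_le {S : Set (K →L[ℂ] K)} (hS : ∀ a ∈ S, star a ∈ S)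
    {ι κ : Sort*} {V : ι → Submodule ℂ K} {W : κ → Submodule ℂ K} (hV : ∀ i, Good S (V i))
    (hW : ∀ i, Good S (W i)) {M : Submodule ℂ K} (hM : IsClosed (M : Set K))
    (h : ∀ i j, V i ⊓ W j ≤ M) : sp V ⊓ sp W ≤ M := by
  refine ((good_sp hV).inf_sp_le' hS hW).trans (sp_le hM fun j => ?_)
  rw [inf_comm]
  refine ((hW j).inf_sp_le' hS hV).trans (sp_le hM fun i => ?_)
  rw [inf_comm]
  exact h i j

/-- a good subspace is `⊤` iff its orthogonal complement is `⊥` -/
theorem eq_top_of_orth {V : Submodule ℂ K} (hV : IsClosed (V : Set K)) (h : Vᗮ = ⊥) : V = ⊤ := by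
  have := (Submodule.topologicalClosure_eq_top_iff (K := V)).2 h
  rwa [cl_eq hV] at this

/-! ### Central operators -/

theorem Cen.add {S : Set (K →L[ℂ] K)} {T T' : K →L[ℂ] K} (h : Cen S T) (h' : Cen S T') :
    Cen S (T + T') :=
  ⟨fun a ha => by rw [add_mul, mul_add, h.comm a ha, h'.comm a ha],
    fun b hb => by rw [add_mul, mul_add, h.ccomm b hb, h'.ccomm b hb]⟩

theorem Cen.sub {S : Set (K →L[ℂ] K)} {T T' : K →L[ℂ] K} (h : Cen S T) (h' : Cen S T') :
    Cen S (T - T') :=
  ⟨fun a ha => by rw [sub_mul, mul_sub, h.comm a ha, h'.comm a ha],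
    fun b hb => by rw [sub_mul, mul_sub, h.ccomm b hb, h'.ccomm b hb]⟩

theorem Cen.mul {S : Set (K →L[ℂ] K)} {T T' : K →L[ℂ] K} (h : Cen S T) (h' : Cen S T') :
    Cen S (T * T') :=
  ⟨fun a ha => by rw [mul_assoc, h'.comm a ha, ← mul_assoc, h.comm a ha, mul_assoc],
    fun b hb => by rw [mul_assoc, h'.ccomm b hb, ← mul_assoc, h.ccomm b hb, mul_assoc]⟩

theorem Cen.smul {S : Set (K →L[ℂ] K)} {T : K →L[ℂ] K} (h : Cen S T) (c : ℂ) : Cen S (c • T) :=
  ⟨fun a ha => by rw [smul_mul_assoc, mul_smul_comm, h.comm a ha],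
    fun b hb => by rw [smul_mul_assoc, mul_smul_comm, h.ccomm b hb]⟩

theorem cen_one (S : Set (K →L[ℂ] K)) : Cen S (1 : K →L[ℂ] K) :=
  ⟨fun a _ => by rw [one_mul, mul_one], fun b _ => by rw [one_mul, mul_one]⟩

theorem cen_zero (S : Set (K →L[ℂ] K)) : Cen S (0 : K →L[ℂ] K) :=
  ⟨fun a _ => by rw [zero_mul, mul_zero], fun b _ => by rw [zero_mul, mul_zero]⟩

theorem Cen.star {S : Set (K →L[ℂ] K)} (hS : ∀ a ∈ S, star a ∈ S) {T : K →L[ℂ] K}
    (h : Cen S T) : Cen S (star T) := by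
  refine ⟨star_comm hS h.comm, fun b hb => ?_⟩
  have := congrArg Star.star (h.ccomm _ (star_comm hS hb))
  simp only [star_mul, star_star] at this
  exact this.symm

theorem Cen.comm₂ {S : Set (K →L[ℂ] K)} {T T' : K →L[ℂ] K} (h : Cen S T) (h' : Cen S T') :
    T * T' = T' * T :=
  h.ccomm T' h'.comm

theorem cen_of_tendsto {S : Set (K →L[ℂ] K)} {ι : Type*} {l : Filter ι} [l.NeBot]
    {T : ι → K →L[ℂ] K} {T₀ : K →L[ℂ] K} (h : ∀ i, Cen S (T i))
    (ht : Filter.Tendsto T l (nhds T₀)) : Cen S T₀ :=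
  ⟨fun a ha => tendsto_nhds_unique (ht.mul_const a)
      ((ht.const_mul a).congr fun i => ((h i).comm a ha).symm),
    fun b hb => tendsto_nhds_unique (ht.mul_const b)
      ((ht.const_mul b).congr fun i => ((h i).ccomm b hb).symm)⟩

/-- `Good` for a bigger set of operators: central operators of a smaller set preserve. -/
theorem Good.cen_mem {S S' : Set (K →L[ℂ] K)} {V : Submodule ℂ K} (h : Good S V)
    {T : K →L[ℂ] K} (hT : ∀ a ∈ S, T * a = a * T) {x : K} (hx : x ∈ V) : T x ∈ V :=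
  h.cinv T hT x hx

end Vale.Agent.P092.H729.Rk
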