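import Vale.Agent.P092.H729.Rk1

/-!
P092 (helper729), Team N, block [N-RK], part 2: the subspaces `R lm I C` of #5439 (2).

`lm i : C(Z, ℂ) →⋆ₐ[ℂ] B(K)`, `i : ι` (source hyperplanes), `Z` compact Hausdorff (target
hyperplanes).  `I` = the set of the hyperplanes which contain a source subspace `X`,
`R lm I C` = {ζ : lm i h (W ζ) = 0 for all i in I, words W in the lm i f (i in I), h = 0 on C}.
`hyp inc O` = the hyperplanes which contain some `L` in `O`.
`Qe lm I inc ε` = closed span of the `R lm I (hyp inc O)`, `O` closed of diameter at most `ε`,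
`q lm I inc` = the intersection of the `Qe lm I inc ε`.
-/

set_option linter.unusedSectionVars false
set_option linter.unusedVariables false

namespace Vale.Agent.P092.H729.Rk

open scoped InnerProductSpace

variable {K : Type*} [NormedAddCommGroup K] [InnerProductSpace ℂ K] [CompleteSpace K]
variable {Z : Type*} [TopologicalSpace Z] [CompactSpace Z]

/-! ### Supports of vectors -/

/-- spectral support of the vector `ξ` -/
def vs (l : C(Z, ℂ) →⋆ₐ[ℂ] (K →L[ℂ] K)) (ξ : K) : Set Z := {z | ∀ f : C(Z, ℂ), l f ξ = 0 → f z = 0}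

theorem isClosed_vs (l : C(Z, ℂ) →⋆ₐ[ℂ] (K →L[ℂ] K)) (ξ : K) : IsClosed (vs l ξ) := by
  have : vs l ξ = ⋂ (f : C(Z, ℂ)) (_ : l f ξ = 0), {z | f z = 0} := by
    ext z; simp [vs]
  rw [this]
  exact isClosed_iInter fun f => isClosed_iInter fun _ => isClosed_eq f.continuous
    continuous_const

theorem hom_cont (l : C(Z, ℂ) →⋆ₐ[ℂ] (K →L[ℂ] K)) : Continuous l :=
  AddMonoidHomClass.continuous_of_bound l 1 fun f => by
    rw [one_mul]; exact NonUnitalStarAlgHom.norm_apply_le l f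

/-- the closed ideal of a vector -/
def idl (l : C(Z, ℂ) →⋆ₐ[ℂ] (K →L[ℂ] K)) (ξ : K) : Ideal C(Z, ℂ) where
  carrier := {f | l f ξ = 0}
  add_mem' := by
    intro a b ha hb
    change l (a + b) ξ = 0
    rw [map_add]
    change l a ξ + l b ξ = 0
    rw [show l a ξ = 0 from ha, show l b ξ = 0 from hb, add_zero]
  zero_mem' := by
    change l 0 ξ = 0
    rw [map_zero]; rfl
  smul_mem' := by
    intro a b hb
    change l (a • b) ξ = 0
    rw [smul_eq_mul, map_mul]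
    change l a (l b ξ) = 0
    rw [show l b ξ = 0 from hb, map_zero]

theorem vs_iff [T2Space Z] (l : C(Z, ℂ) →⋆ₐ[ℂ] (K →L[ℂ] K)) (ξ : K) (h : C(Z, ℂ)) :
    l h ξ = 0 ↔ ∀ z ∈ vs l ξ, h z = 0 := by
  constructor
  · exact fun e z hz => hz h e
  · intro e
    have hcl : IsClosed (idl l ξ : Set C(Z, ℂ)) := by
      have : (idl l ξ : Set C(Z, ℂ)) = (fun f => l f ξ) ⁻¹' {0} := rfl
      rw [this]
      exact isClosed_singleton.preimage
        ((ContinuousLinearMap.apply ℂ K ξ).continuous.comp (hom_cont l))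
    have hid := ContinuousMap.idealOfSet_ofIdeal_isClosed (𝕜 := ℂ) hcl
    have hm : h ∈ ContinuousMap.idealOfSet ℂ (ContinuousMap.setOfIdeal (idl l ξ)) := by
      rw [ContinuousMap.mem_idealOfSet]
      intro z hz
      refine e z fun f hf => ?_
      by_contra hne
      exact hz (ContinuousMap.mem_setOfIdeal.2 ⟨f, hf, hne⟩)
    rw [hid] at hm
    exact hm

/-- a bump function: `h z = 1`, support off the closed set `C`. -/
theorem exists_bump [T2Space Z] {C : Set Z} (hC : IsClosed C) {z : Z} (hz : z ∉ C) :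
    ∃ h : C(Z, ℂ), h z = 1 ∧ Disjoint (tsupport h) C := by
  obtain ⟨U, V, hU, hV, hzU, hCV, hUV⟩ := (hC.isCompact).separation_of_notMem hz |>
    fun ⟨U, V, hU, hV, hCU, hzV, hUV⟩ =>
      (⟨V, U, hV, hU, hzV, hCU, hUV.symm⟩ : ∃ U V : Set Z, IsOpen U ∧ IsOpen V ∧ z ∈ U ∧ C ⊆ V ∧
        Disjoint U V)
  obtain ⟨f, hf1, hf0, hf⟩ := exists_continuous_one_zero_of_isCompact
    (isCompact_singleton (x := z)) (hU.isClosed_compl) (by
      rw [Set.disjoint_compl_right_iff_subset]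
      exact Set.singleton_subset_iff.2 hzU)
  refine ⟨⟨fun x => (f x : ℂ), Complex.continuous_ofReal.comp f.continuous⟩, ?_, ?_⟩
  · change ((f z : ℝ) : ℂ) = 1
    rw [hf1 (Set.mem_singleton z)]
    simp
  · rw [Set.disjoint_left]
    intro x hx hxC
    have hsub : tsupport (fun x => (f x : ℂ)) ⊆ Vᶜ := by
      refine closure_minimal ?_ hV.isClosed_compl
      intro y hy hyV
      apply hy
      have : y ∈ Uᶜ := fun hyU => (Set.disjoint_left.1 hUV) hyU hyV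
      change ((f y : ℝ) : ℂ) = 0
      rw [hf0 this]
      simp
    exact hsub hx (hCV hxC)

/-! ### The subspaces `R` -/

variable {ι : Type*} (lm : ι → (C(Z, ℂ) →⋆ₐ[ℂ] (K →L[ℂ] K))) (I : Set ι)

/-- the operators of the family -/
def Sx : Set (K →L[ℂ] K) := {a | ∃ i ∈ I, ∃ f : C(Z, ℂ), lm i f = a}

variable {lm I}

theorem Sx_star : ∀ a ∈ Sx lm I, star a ∈ Sx lm I := by
  rintro _ ⟨i, hi, f, rfl⟩
  exact ⟨i, hi, star f, map_star _ _⟩

theorem Sx_mono {I' : Set ι} (h : I' ⊆ I) : Sx lm I' ⊆ Sx lm I := by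
  rintro _ ⟨i, hi, f, rfl⟩
  exact ⟨i, h hi, f, rfl⟩

theorem mem_Sx {i : ι} (hi : i ∈ I) (f : C(Z, ℂ)) : lm i f ∈ Sx lm I := ⟨i, hi, f, rfl⟩

variable (lm I)

/-- the subspace where all `lm i`, `i ∈ I`, live on `C`, after every word -/
def R (C : Set Z) : Submodule ℂ K where
  carrier := {ζ | ∀ W ∈ Submonoid.closure (Sx lm I), ∀ i ∈ I, ∀ h : C(Z, ℂ),
    (∀ z ∈ C, h z = 0) → lm i h (W ζ) = 0}
  add_mem' := by
    intro a b ha hb W hW i hi h hh
    rw [map_add, map_add, ha W hW i hi h hh, hb W hW i hi h hh, add_zero]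
  zero_mem' := by
    intro W _ i _ h _
    rw [map_zero, map_zero]
  smul_mem' := by
    intro c a ha W hW i hi h hh
    rw [map_smul, map_smul, ha W hW i hi h hh, smul_zero]

variable {lm I}

theorem mem_R {C : Set Z} {ζ : K} : ζ ∈ R lm I C ↔ ∀ W ∈ Submonoid.closure (Sx lm I), ∀ i ∈ I,
    ∀ h : C(Z, ℂ), (∀ z ∈ C, h z = 0) → lm i h (W ζ) = 0 := Iff.rfl

theorem R_closed (C : Set Z) : IsClosed (R lm I C : Set K) := by
  have : (R lm I C : Set K) = ⋂ (W ∈ Submonoid.closure (Sx lm I)) (i ∈ I) (h : C(Z, ℂ))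
      (_ : ∀ z ∈ C, h z = 0), {ζ | lm i h (W ζ) = 0} := by
    ext ζ
    simp only [SetLike.mem_coe, mem_R, Set.mem_iInter]
    rfl
  rw [this]
  exact isClosed_iInter fun W => isClosed_iInter fun _ => isClosed_iInter fun i =>
    isClosed_iInter fun _ => isClosed_iInter fun h => isClosed_iInter fun _ =>
    isClosed_eq ((lm i h).continuous.comp W.continuous) continuous_const

theorem comm_word {b : K →L[ℂ] K} (hb : ∀ a ∈ Sx lm I, b * a = a * b) {W : K →L[ℂ] K}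
    (hW : W ∈ Submonoid.closure (Sx lm I)) : b * W = W * b := by
  induction hW using Submonoid.closure_induction with
  | mem a ha => exact hb a ha
  | one => rw [mul_one, one_mul]
  | mul x y _ _ hx hy => rw [← mul_assoc, hx, mul_assoc, hy, mul_assoc]

theorem good_R (C : Set Z) : Good (Sx lm I) (R lm I C) := by
  refine ⟨R_closed C, ?_, ?_⟩
  · intro a ha v hv W hW i hi h hh
    exact hv (W * a) (Submonoid.mul_mem _ hW (Submonoid.subset_closure ha)) i hi h hh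
  · intro b hb v hv W hW i hi h hh
    have h1 : W (b v) = b (W v) :=
      congrArg (fun T : K →L[ℂ] K => T v) (comm_word hb hW).symm
    have h2 : lm i h (b (W v)) = b (lm i h (W v)) :=
      congrArg (fun T : K →L[ℂ] K => T (W v)) (hb _ (mem_Sx hi h)).symm
    rw [h1, h2, hv W hW i hi h hh, map_zero]

theorem R_mono {C D : Set Z} (h : C ⊆ D) : R lm I C ≤ R lm I D :=
  fun _ hζ W hW i hi f hf => hζ W hW i hi f fun z hz => hf z (h hz)

theorem R_anti {I' : Set ι} (h : I' ⊆ I) (C : Set Z) : R lm I C ≤ R lm I' C :=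
  fun _ hζ W hW i hi f hf => hζ W (Submonoid.closure_mono (Sx_mono h) hW) i (h hi) f hf

theorem mem_R_iff [T2Space Z] {C : Set Z} (hC : IsClosed C) {ζ : K} :
    ζ ∈ R lm I C ↔ ∀ W ∈ Submonoid.closure (Sx lm I), ∀ i ∈ I, vs (lm i) (W ζ) ⊆ C := by
  constructor
  · intro hζ W hW i hi z hz
    by_contra hzC
    obtain ⟨h, h1, h2⟩ := exists_bump hC hzC
    have := hz h (hζ W hW i hi h fun x hx => by
      by_contra hne
      exact (Set.disjoint_left.1 h2) (subset_tsupport _ hne) hx)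
    rw [h1] at this
    exact one_ne_zero this
  · intro hζ W hW i hi h hh
    rw [vs_iff]
    exact fun z hz => hh z (hζ W hW i hi hz)

/-- it is enough to test functions with support off `C` -/
theorem mem_R_of_tsupport [T2Space Z] {C : Set Z} (hC : IsClosed C) {ζ : K}
    (h : ∀ W ∈ Submonoid.closure (Sx lm I), ∀ i ∈ I, ∀ h : C(Z, ℂ), Disjoint (tsupport h) C →
      lm i h (W ζ) = 0) : ζ ∈ R lm I C := by
  rw [mem_R_iff hC]
  intro W hW i hi z hz
  by_contra hzC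
  obtain ⟨f, h1, h2⟩ := exists_bump hC hzC
  have := hz f (h W hW i hi f h2)
  rw [h1] at this
  exact one_ne_zero this

theorem R_iInter [T2Space Z] {κ : Sort*} {C : κ → Set Z} (hC : ∀ a, IsClosed (C a)) :
    R lm I (⋂ a, C a) = ⨅ a, R lm I (C a) := by
  ext ζ
  rw [mem_R_iff (isClosed_iInter hC), Submodule.mem_iInf]
  constructor
  · intro h a
    rw [mem_R_iff (hC a)]
    exact fun W hW i hi => (h W hW i hi).trans (Set.iInter_subset _ a)
  · intro h W hW i hi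
    exact Set.subset_iInter fun a => (mem_R_iff (hC a)).1 (h a) W hW i hi

theorem R_inter [T2Space Z] {C D : Set Z} (hC : IsClosed C) (hD : IsClosed D) :
    R lm I C ⊓ R lm I D = R lm I (C ∩ D) := by
  ext ζ
  rw [mem_R_iff (hC.inter hD)]
  constructor
  · rintro ⟨h1, h2⟩ W hW i hi
    exact Set.subset_inter ((mem_R_iff hC).1 h1 W hW i hi) ((mem_R_iff hD).1 h2 W hW i hi)
  · intro h
    exact ⟨(mem_R_iff hC).2 fun W hW i hi => (h W hW i hi).trans Set.inter_subset_left,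
      (mem_R_iff hD).2 fun W hW i hi => (h W hW i hi).trans Set.inter_subset_right⟩

theorem R_empty (hI : I.Nonempty) : R lm I (∅ : Set Z) = ⊥ := by
  rw [eq_bot_iff]
  intro ζ hζ
  obtain ⟨i, hi⟩ := hI
  have := hζ 1 (Submonoid.one_mem _) i hi 1 (fun z hz => hz.elim)
  rw [map_one] at this
  exact (Submodule.mem_bot ℂ).2 this

theorem R_univ : R lm I (Set.univ : Set Z) = ⊤ := by
  rw [eq_top_iff]
  intro ζ _ W _ i _ h hh
  have : h = 0 := by ext z; exact hh z trivial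
  rw [this, map_zero]
  rfl

/-- covariance of `R` under an operator that intertwines the families (several spaces allowed) -/
theorem R_map {K' : Type*} [NormedAddCommGroup K'] [InnerProductSpace ℂ K'] [CompleteSpace K']
    {Z' : Type*} [TopologicalSpace Z'] [CompactSpace Z']
    {ι' : Type*} {lm' : ι' → (C(Z', ℂ) →⋆ₐ[ℂ] (K' →L[ℂ] K'))} {I' : Set ι'}
    (U : K →L[ℂ] K') (σ : ι' → ι) (τ : C(Z, Z')) (hσ : ∀ i ∈ I', σ i ∈ I)
    (hU : ∀ i ∈ I', ∀ (f : C(Z', ℂ)) (ξ : K), lm' i f (U ξ) = U (lm (σ i) (f.comp τ) ξ))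
    {C : Set Z} {C' : Set Z'} (hC : ∀ z ∈ C, τ z ∈ C') :
    ∀ ζ ∈ R lm I C, U ζ ∈ R lm' I' C' := by
  have hword : ∀ W ∈ Submonoid.closure (Sx lm' I'), ∃ W' ∈ Submonoid.closure (Sx lm I),
      ∀ ξ, W (U ξ) = U (W' ξ) := by
    intro W hW
    induction hW using Submonoid.closure_induction with
    | mem a ha =>
      obtain ⟨i, hi, f, rfl⟩ := ha
      exact ⟨_, Submonoid.subset_closure (mem_Sx (hσ i hi) (f.comp τ)), hU i hi f⟩
    | one => exact ⟨1, Submonoid.one_mem _, fun _ => rfl⟩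
    | mul x y _ _ hx hy =>
      obtain ⟨a, ha, ha'⟩ := hx
      obtain ⟨b, hb, hb'⟩ := hy
      refine ⟨a * b, Submonoid.mul_mem _ ha hb, fun ξ => ?_⟩
      change x (y (U ξ)) = U (a (b ξ))
      rw [hb', ha']
  intro ζ hζ W hW i hi h hh
  obtain ⟨W', hW', e⟩ := hword W hW
  rw [e, hU i hi, hζ W' hW' (σ i) (hσ i hi) _ (fun z hz => hh _ (hC z hz)), map_zero]

/-! ### Small sets of `Y` and the subspaces `Qe`, `q` -/

variable {Y : Type*} [PseudoMetricSpace Y]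

/-- the hyperplanes which contain some `L ∈ O` -/
def hyp (inc : Y → Z → Prop) (O : Set Y) : Set Z := {z | ∃ y ∈ O, inc y z}

theorem hyp_mono {inc : Y → Z → Prop} {O O' : Set Y} (h : O ⊆ O') : hyp inc O ⊆ hyp inc O' :=
  fun _ ⟨y, hy, e⟩ => ⟨y, h hy, e⟩

theorem isClosed_hyp [CompactSpace Y] {inc : Y → Z → Prop}
    (hinc : IsClosed {p : Y × Z | inc p.1 p.2}) {O : Set Y} (hO : IsClosed O) :
    IsClosed (hyp inc O) := by
  have : hyp inc O = Prod.snd '' ((O ×ˢ (Set.univ : Set Z)) ∩ {p : Y × Z | inc p.1 p.2}) := by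
    ext z
    constructor
    · rintro ⟨y, hy, e⟩
      exact ⟨(y, z), ⟨⟨hy, trivial⟩, e⟩, rfl⟩
    · rintro ⟨⟨y, z'⟩, ⟨⟨hy, _⟩, e⟩, rfl⟩
      exact ⟨y, hy, e⟩
  rw [this]
  exact isClosedMap_snd_of_compactSpace _ ((hO.prod isClosed_univ).inter hinc)

/-- closed sets of diameter at most `ε` -/
def Sm (ε : ℝ) : Set (Set Y) := {O | IsClosed O ∧ ∀ x ∈ O, ∀ y ∈ O, dist x y ≤ ε}

variable (lm I)

/-- closed span of the `R (hyp O)`, `O` closed of diameter at most `ε` meeting `B` -/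
noncomputable def Qb (inc : Y → Z → Prop) (B : Set Y) (ε : ℝ) : Submodule ℂ K :=
  sp fun O : {O : Set Y // O ∈ Sm (Y := Y) ε ∧ (O ∩ B).Nonempty} => R lm I (hyp inc O.1)

/-- `G lm I inc B` : the closed-set calculus of the subspaces -/
noncomputable def G (inc : Y → Z → Prop) (B : Set Y) : Submodule ℂ K :=
  ⨅ ε : {ε : ℝ // 0 < ε}, Qb lm I inc B ε.1

/-- `q` = the intersection over `ε` of the closed spans of `R (hyp O)`, `diam O ≤ ε` -/
noncomputable def q (inc : Y → Z → Prop) : Submodule ℂ K := G lm I inc Set.univ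

variable {lm I}

theorem good_Qb (inc : Y → Z → Prop) (B : Set Y) (ε : ℝ) : Good (Sx lm I) (Qb lm I inc B ε) :=
  good_sp fun _ => good_R _

theorem good_G (inc : Y → Z → Prop) (B : Set Y) : Good (Sx lm I) (G lm I inc B) :=
  good_iInf fun _ => good_Qb _ _ _

theorem good_q (inc : Y → Z → Prop) : Good (Sx lm I) (q lm I inc) := good_G _ _

theorem Qb_mono {inc : Y → Z → Prop} {B B' : Set Y} (h : B ⊆ B') {ε ε' : ℝ} (hε : ε ≤ ε') :
    Qb lm I inc B ε ≤ Qb lm I inc B' ε' := by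
  refine sp_le (isClosed_sp _) fun O => ?_
  exact le_sp (fun O : {O : Set Y // O ∈ Sm (Y := Y) ε' ∧ (O ∩ B').Nonempty} =>
    R lm I (hyp inc O.1)) ⟨O.1, ⟨O.2.1.1, fun x hx y hy => (O.2.1.2 x hx y hy).trans hε⟩,
      O.2.2.mono (Set.inter_subset_inter_right _ h)⟩

theorem G_mono {inc : Y → Z → Prop} {B B' : Set Y} (h : B ⊆ B') :
    G lm I inc B ≤ G lm I inc B' :=
  iInf_mono fun _ => Qb_mono h le_rfl

theorem G_le_Qb {inc : Y → Z → Prop} {B : Set Y} {ε : ℝ} (hε : 0 < ε) :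
    G lm I inc B ≤ Qb lm I inc B ε :=
  iInf_le (fun ε : {ε : ℝ // 0 < ε} => Qb lm I inc B ε.1) ⟨ε, hε⟩

theorem Qb_anti {I' : Set ι} (h : I' ⊆ I) (inc : Y → Z → Prop) (B : Set Y) (ε : ℝ) :
    Qb lm I inc B ε ≤ Qb lm I' inc B ε :=
  sp_le (isClosed_sp _) fun O => (R_anti h _).trans
    (le_sp (fun O : {O : Set Y // O ∈ Sm (Y := Y) ε ∧ (O ∩ B).Nonempty} =>
      R lm I' (hyp inc O.1)) O)

/-- `X ⊂ X'` (fewer hyperplanes): `G_X ≤ G_X'`, in particular `q_X ≤ q_X'`. -/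
theorem G_anti {I' : Set ι} (h : I' ⊆ I) (inc : Y → Z → Prop) (B : Set Y) :
    G lm I inc B ≤ G lm I' inc B :=
  iInf_mono fun _ => Qb_anti h _ _ _

theorem q_anti {I' : Set ι} (h : I' ⊆ I) (inc : Y → Z → Prop) :
    q lm I inc ≤ q lm I' inc := G_anti h _ _

/-- covariance of `G` -/
theorem G_map {K' : Type*} [NormedAddCommGroup K'] [InnerProductSpace ℂ K'] [CompleteSpace K']
    {Z' : Type*} [TopologicalSpace Z'] [CompactSpace Z']
    {Y' : Type*} [PseudoMetricSpace Y'] [CompactSpace Y]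
    [T2Space Y']
    {ι' : Type*} {lm' : ι' → (C(Z', ℂ) →⋆ₐ[ℂ] (K' →L[ℂ] K'))} {I' : Set ι'}
    {inc : Y → Z → Prop} {inc' : Y' → Z' → Prop}
    (U : K →L[ℂ] K') (σ : ι' → ι) (τ : C(Z, Z')) (g : C(Y, Y')) (hσ : ∀ i ∈ I', σ i ∈ I)
    (hU : ∀ i ∈ I', ∀ (f : C(Z', ℂ)) (ξ : K), lm' i f (U ξ) = U (lm (σ i) (f.comp τ) ξ))
    (hg : ∀ y z, inc y z → inc' (g y) (τ z)) {B : Set Y} {B' : Set Y'}
    (hB : ∀ y ∈ B, g y ∈ B') :
    ∀ ζ ∈ G lm I inc B, U ζ ∈ G lm' I' inc' B' := by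
  intro ζ hζ
  rw [G, Submodule.mem_iInf]
  rintro ⟨ε, hε⟩
  have huc := CompactSpace.uniformContinuous_of_continuous g.continuous
  obtain ⟨δ, hδ, hd⟩ := Metric.uniformContinuous_iff.1 huc ε hε
  have hζ' : ζ ∈ Qb lm I inc B (δ / 2) := G_le_Qb (by positivity) hζ
  refine map_sp (isClosed_sp _) U (fun O v hv => ?_) ζ hζ'
  have hO : g '' O.1 ∈ Sm (Y := Y') ε ∧ (g '' O.1 ∩ B').Nonempty := by
    refine ⟨⟨?_, ?_⟩, ?_⟩
    · exact (O.2.1.1.isCompact.image g.continuous).isClosed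
    · rintro _ ⟨x, hx, rfl⟩ _ ⟨y, hy, rfl⟩
      exact (hd (lt_of_le_of_lt (O.2.1.2 x hx y hy) (by linarith))).le
    · obtain ⟨y, hy, hyB⟩ := O.2.2
      exact ⟨g y, ⟨y, hy, rfl⟩, hB y hyB⟩
  refine le_sp (fun O : {O : Set Y' // O ∈ Sm (Y := Y') ε ∧ (O ∩ B').Nonempty} =>
    R lm' I' (hyp inc' O.1)) ⟨_, hO⟩ ?_
  refine R_map U σ τ hσ hU ?_ v hv
  rintro z ⟨y, hy, e⟩
  exact ⟨g y, ⟨y, hy, rfl⟩, hg y z e⟩

theorem q_map {K' : Type*} [NormedAddCommGroup K'] [InnerProductSpace ℂ K'] [CompleteSpace K']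
    {Z' : Type*} [TopologicalSpace Z'] [CompactSpace Z']
    {Y' : Type*} [PseudoMetricSpace Y'] [CompactSpace Y]
    [T2Space Y']
    {ι' : Type*} {lm' : ι' → (C(Z', ℂ) →⋆ₐ[ℂ] (K' →L[ℂ] K'))} {I' : Set ι'}
    {inc : Y → Z → Prop} {inc' : Y' → Z' → Prop}
    (U : K →L[ℂ] K') (σ : ι' → ι) (τ : C(Z, Z')) (g : C(Y, Y')) (hσ : ∀ i ∈ I', σ i ∈ I)
    (hU : ∀ i ∈ I', ∀ (f : C(Z', ℂ)) (ξ : K), lm' i f (U ξ) = U (lm (σ i) (f.comp τ) ξ))
    (hg : ∀ y z, inc y z → inc' (g y) (τ z)) :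
    ∀ ζ ∈ q lm I inc, U ζ ∈ q lm' I' inc' :=
  G_map U σ τ g hσ hU hg fun _ _ => trivial

end Vale.Agent.P092.H729.Rk
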