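import Vale.Agent.P092.H729.Rk1
import Vale.Agent.P092.H218.Loc

/-!
P092 (helper729), Team N, block [N-RK], part 3: from a closed-set calculus to a `*`-hom.

`G : Set Y → Submodule ℂ K` on the closed sets of a compact space, `G B` good, `G B ⊓ G C = ⊥`
for disjoint sets, `G (B ∪ C)` in the closed span, `G univ = ⊤`.  Then there is exactly one
`hom : C(Y, ℂ) →⋆ₐ[ℂ] B(K)` with `‖hom f ζ - c ζ‖ ≤ r ‖ζ‖` for `ζ ∈ G B`, `|f - c| ≤ r` on `B`.
-/

set_option linter.unusedSectionVars false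
set_option linter.unusedVariables false

namespace Vale.Agent.P092.H729.Rk

open scoped InnerProductSpace

variable {K : Type*} [NormedAddCommGroup K] [InnerProductSpace ℂ K] [CompleteSpace K]
variable {Y : Type*} [TopologicalSpace Y] [CompactSpace Y]

/-- closed-set calculus -/
structure GC (S : Set (K →L[ℂ] K)) (G : Set Y → Submodule ℂ K) : Prop where
  good : ∀ B, IsClosed B → Good S (G B)
  mono : ∀ B C, IsClosed B → IsClosed C → B ⊆ C → G B ≤ G C
  disj : ∀ B C, IsClosed B → IsClosed C → Disjoint B C → G B ⊓ G C = ⊥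
  union : ∀ B C, IsClosed B → IsClosed C → G (B ∪ C) ≤ (G B ⊔ G C).topologicalClosure
  top : G Set.univ = ⊤

/-- the closed span over a finite set -/
noncomputable def fs {κ : Type*} (t : Finset κ) (V : κ → Submodule ℂ K) : Submodule ℂ K :=
  (⨆ i ∈ t, V i).topologicalClosure

theorem isClosed_fs {κ : Type*} (t : Finset κ) (V : κ → Submodule ℂ K) :
    IsClosed (fs t V : Set K) := Submodule.isClosed_topologicalClosure _

theorem le_fs {κ : Type*} {t : Finset κ} (V : κ → Submodule ℂ K) {i : κ} (hi : i ∈ t) :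
    V i ≤ fs t V := by
  refine le_trans ?_ (Submodule.le_topologicalClosure _)
  exact le_iSup₂_of_le (f := fun (j : κ) (_ : j ∈ t) => V j) i hi le_rfl

theorem map_fs {κ : Type*} {t : Finset κ} {V : κ → Submodule ℂ K} {W : Submodule ℂ K}
    (hW : IsClosed (W : Set K)) (a : K →L[ℂ] K)
    (h : ∀ i ∈ t, ∀ v ∈ V i, a v ∈ W) : ∀ v ∈ fs t V, a v ∈ W := by
  have : fs t V ≤ W.comap (a : K →ₗ[ℂ] K) := by
    refine Submodule.topologicalClosure_minimal _ (iSup₂_le fun i hi v hv => h i hi v hv) ?_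
    exact hW.preimage a.continuous
  exact fun v hv => this hv

theorem map_fs_insert {κ : Type*} [DecidableEq κ] {t : Finset κ} {V : κ → Submodule ℂ K} {i : κ}
    {S : Set (K →L[ℂ] K)} (hS : ∀ a ∈ S, star a ∈ S) (hV : ∀ i, Good S (V i)) {ζ : K}
    (hζ : ζ ∈ fs (insert i t) V) : ζ - pj (V i) ζ ∈ fs t V := by
  refine map_fs (isClosed_fs t V) (1 - pj (V i)) (fun j hj v hv => ?_) ζ hζ
  change v - pj (V i) v ∈ fs t V
  rw [Finset.mem_insert] at hj
  rcases hj with rfl | hj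
  · rw [pj_self hv, sub_self]; exact Submodule.zero_mem _
  · refine Submodule.sub_mem _ (le_fs V hj hv) (le_fs V hj ?_)
    exact mem_of_comm (hV j).cl (Good.comm hS (hV j) (hV i)) hv

/-- the pinching lemma -/
theorem pinch {κ : Type*} {S : Set (K →L[ℂ] K)} (hS : ∀ a ∈ S, star a ∈ S)
    {V : κ → Submodule ℂ K} (hV : ∀ i, Good S (V i)) {A : K →L[ℂ] K}
    (hA : ∀ i, pj (V i) * A = A * pj (V i)) {r : ℝ} (hr0 : 0 ≤ r) (t : Finset κ)
    (hr : ∀ i ∈ t, ∀ ζ ∈ V i, ‖A ζ‖ ≤ r * ‖ζ‖) : ∀ ζ ∈ fs t V, ‖A ζ‖ ≤ r * ‖ζ‖ := by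
  classical
  induction t using Finset.induction_on with
  | empty =>
    intro ζ hζ
    have : fs (∅ : Finset κ) V = ⊥ := by
      unfold fs
      simp only [Finset.notMem_empty, iSup_false, iSup_bot]
      exact cl_eq (by rw [Submodule.bot_coe]; exact isClosed_singleton)
    rw [this, Submodule.mem_bot] at hζ
    rw [hζ, map_zero, norm_zero, mul_zero]
  | insert i t hi ih =>
    intro ζ hζ
    have ih' := ih fun j hj => hr j (Finset.mem_insert_of_mem hj)
    have h1 : ‖A (pj (V i) ζ)‖ ≤ r * ‖pj (V i) ζ‖ :=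
      hr i (Finset.mem_insert_self _ _) _ (pj_mem (hV i).cl ζ)
    have h2 : ‖A (ζ - pj (V i) ζ)‖ ≤ r * ‖ζ - pj (V i) ζ‖ :=
      ih' _ (map_fs_insert hS hV hζ)
    have h3 : pj (V i) (A ζ) = A (pj (V i) ζ) := congrArg (fun T : K →L[ℂ] K => T ζ) (hA i)
    have h4 := pj_pyth (V i) (A ζ)
    rw [h3, ← map_sub] at h4
    have h5 := pj_pyth (V i) ζ
    have h6 : ‖A ζ‖ ^ 2 ≤ (r * ‖ζ‖) ^ 2 := by
      rw [h4, mul_pow, h5, mul_add]
      have e1 := pow_le_pow_left₀ (norm_nonneg _) h1 2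
      have e2 := pow_le_pow_left₀ (norm_nonneg _) h2 2
      rw [mul_pow] at e1 e2
      exact add_le_add e1 e2
    exact le_of_sq_le_sq h6 (by positivity)

/-- existence of the step operator -/
theorem exists_step {κ : Type*} {S : Set (K →L[ℂ] K)} (hS : ∀ a ∈ S, star a ∈ S)
    {V : κ → Submodule ℂ K} (hV : ∀ i, Good S (V i)) (c : κ → ℂ) (t : Finset κ) :
    ∃ T : K →L[ℂ] K, Cen S T ∧ ∀ M : Submodule ℂ K, Good S M → ∀ (c0 : ℂ) (r : ℝ), 0 ≤ r →
      (∀ i ∈ t, V i ⊓ M ≠ ⊥ → ‖c i - c0‖ ≤ r) →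
      ∀ ζ ∈ M, ζ ∈ fs t V → ‖T ζ - c0 • ζ‖ ≤ r * ‖ζ‖ := by
  classical
  induction t using Finset.induction_on with
  | empty =>
    refine ⟨0, cen_zero S, fun M _ c0 r hr _ ζ _ hζ => ?_⟩
    have : fs (∅ : Finset κ) V = ⊥ := by
      unfold fs
      simp only [Finset.notMem_empty, iSup_false, iSup_bot]
      exact cl_eq (by rw [Submodule.bot_coe]; exact isClosed_singleton)
    rw [this, Submodule.mem_bot] at hζ
    rw [hζ, map_zero, smul_zero, sub_zero, norm_zero, mul_zero]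
  | insert i t hi ih =>
    obtain ⟨T, hT, h⟩ := ih
    have hP := (hV i).cen hS
    refine ⟨c i • pj (V i) + (1 - pj (V i)) * T,
      (hP.smul _).add (((cen_one S).sub hP).mul hT), fun M hM c0 r hr hc ζ hζM hζ => ?_⟩
    have hid : ∀ x, pj (V i) (pj (V i) x) = pj (V i) x := fun x => pj_self (pj_mem (hV i).cl x)
    have hPT : ∀ x, pj (V i) (T x) = T (pj (V i) x) :=
      fun x => congrArg (fun T : K →L[ℂ] K => T x) (hP.comm₂ hT)
    have hPM : pj (V i) ζ ∈ M := mem_of_comm hM.cl (Good.comm hS hM (hV i)) hζM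
    have h1 : ‖(c i - c0) • pj (V i) ζ‖ ≤ r * ‖pj (V i) ζ‖ := by
      by_cases h0 : V i ⊓ M = ⊥
      · have : pj (V i) ζ ∈ V i ⊓ M := ⟨pj_mem (hV i).cl ζ, hPM⟩
        rw [h0, Submodule.mem_bot] at this
        rw [this, smul_zero, norm_zero, mul_zero]
      · rw [norm_smul]
        exact mul_le_mul_of_nonneg_right (hc i (Finset.mem_insert_self _ _) h0) (norm_nonneg _)
    have h2 : ‖T (ζ - pj (V i) ζ) - c0 • (ζ - pj (V i) ζ)‖ ≤ r * ‖ζ - pj (V i) ζ‖ :=
      h M hM c0 r hr (fun j hj => hc j (Finset.mem_insert_of_mem hj)) _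
        (Submodule.sub_mem _ hζM hPM) (map_fs_insert hS hV hζ)
    set x := (c i • pj (V i) + (1 - pj (V i)) * T) ζ - c0 • ζ with hx
    have hx' : x = c i • pj (V i) ζ + (T ζ - pj (V i) (T ζ)) - c0 • ζ := rfl
    have e1 : pj (V i) x = (c i - c0) • pj (V i) ζ := by
      rw [hx', map_sub, map_add, map_smul, hid, map_sub, hid, sub_self, add_zero, map_smul,
        sub_smul]
    have e2 : x - pj (V i) x = T (ζ - pj (V i) ζ) - c0 • (ζ - pj (V i) ζ) := by
      rw [e1, hx', map_sub, hPT, sub_smul, smul_sub]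
      abel
    have h4 := pj_pyth (V i) x
    rw [e2, e1] at h4
    have h5 := pj_pyth (V i) ζ
    have h6 : ‖x‖ ^ 2 ≤ (r * ‖ζ‖) ^ 2 := by
      rw [h4, mul_pow, h5, mul_add]
      have e1 := pow_le_pow_left₀ (norm_nonneg _) h1 2
      have e2 := pow_le_pow_left₀ (norm_nonneg _) h2 2
      rw [mul_pow] at e1 e2
      exact add_le_add e1 e2
    exact le_of_sq_le_sq h6 (by positivity)

/-! ### Approximate values -/

/-- `T` is the value of `f` up to `ε` -/
structure Ap (G : Set Y → Submodule ℂ K) (f : C(Y, ℂ)) (ε : ℝ) (T : K →L[ℂ] K) : Prop where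
  comm : ∀ B, IsClosed B → pj (G B) * T = T * pj (G B)
  loc : ∀ C, IsClosed C → ∀ (c0 : ℂ) (r : ℝ), 0 ≤ r → (∀ y ∈ C, ‖f y - c0‖ ≤ r) →
    ∀ ζ ∈ G C, ‖T ζ - c0 • ζ‖ ≤ (r + ε) * ‖ζ‖

theorem exists_cover {M : Type*} [PseudoMetricSpace M] {F : Y → M} (hF : Continuous F) {δ : ℝ}
    (hδ : 0 < δ) : ∃ t : Finset M, ∀ y, ∃ c ∈ t, dist (F y) c ≤ δ := by
  obtain ⟨t, ht⟩ := isCompact_univ.elim_finite_subcover (fun c : M => F ⁻¹' Metric.ball c δ)
    (fun c => Metric.isOpen_ball.preimage hF)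
    (fun y _ => Set.mem_iUnion.2 ⟨F y, Metric.mem_ball_self hδ⟩)
  refine ⟨t, fun y => ?_⟩
  obtain ⟨c, hc, h⟩ := Set.mem_iUnion₂.1 (ht (Set.mem_univ y))
  exact ⟨c, hc, (Metric.mem_ball.1 h).le⟩

theorem inner_star_sub (T : K →L[ℂ] K) (c0 : ℂ) (x ζ : K) :
    ⟪x, star T ζ - c0 • ζ⟫_ℂ = ⟪T x - star c0 • x, ζ⟫_ℂ := by
  rw [inner_sub_right, inner_sub_left, inner_smul_right, inner_smul_left,
    ContinuousLinearMap.star_eq_adjoint, ContinuousLinearMap.adjoint_inner_right,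
    Complex.star_def, Complex.conj_conj]

namespace GC

variable {S : Set (K →L[ℂ] K)} {G : Set Y → Submodule ℂ K}

theorem empty (h : GC S G) : G ∅ = ⊥ := by
  have := h.disj ∅ ∅ isClosed_empty isClosed_empty (Set.disjoint_empty _)
  rwa [inf_idem] at this

theorem cover (h : GC S G) {κ : Type*} (t : Finset κ) {B : κ → Set Y} (hB : ∀ i, IsClosed (B i)) :
    G (⋃ i ∈ t, B i) ≤ fs t fun i => G (B i) := by
  classical
  induction t using Finset.induction_on with
  | empty =>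
    simp only [Finset.notMem_empty, Set.iUnion_of_empty, Set.iUnion_empty]
    rw [h.empty]
    exact bot_le
  | insert i t hi ih =>
    rw [Finset.set_biUnion_insert]
    refine (h.union _ _ (hB i) (t.finite_toSet.isClosed_biUnion fun j _ => hB j)).trans ?_
    refine Submodule.topologicalClosure_minimal _ (sup_le ?_ ?_) (isClosed_fs _ _)
    · exact le_fs (fun i => G (B i)) (Finset.mem_insert_self _ _)
    · refine ih.trans (Submodule.topologicalClosure_minimal _ ?_ (isClosed_fs _ _))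
      exact iSup₂_le fun j hj => le_fs (fun i => G (B i)) (Finset.mem_insert_of_mem hj)

theorem fs_top (h : GC S G) {M : Type*} [PseudoMetricSpace M] {F : Y → M} (hF : Continuous F)
    {δ : ℝ} {t : Finset M} (ht : ∀ y, ∃ c ∈ t, dist (F y) c ≤ δ) (ζ : K) :
    ζ ∈ fs t fun c => G (F ⁻¹' Metric.closedBall c δ) := by
  have h1 := h.cover t (B := fun c => F ⁻¹' Metric.closedBall c δ)
    fun c => Metric.isClosed_closedBall.preimage hF
  have h2 : (⋃ c ∈ t, F ⁻¹' Metric.closedBall c δ) = Set.univ := by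
    rw [Set.eq_univ_iff_forall]
    intro y
    obtain ⟨c, hc, hd⟩ := ht y
    exact Set.mem_iUnion₂.2 ⟨c, hc, hd⟩
  rw [h2, h.top] at h1
  exact h1 trivial

/-- an operator which commutes with the projections is small if it is small on small sets -/
theorem norm_le (h : GC S G) (hS : ∀ a ∈ S, star a ∈ S) {A : K →L[ℂ] K}
    (hA : ∀ B, IsClosed B → pj (G B) * A = A * pj (G B)) {r : ℝ} (hr : 0 ≤ r)
    {M : Type*} [PseudoMetricSpace M] {F : Y → M} (hF : Continuous F) {δ : ℝ} (hδ : 0 < δ)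
    (hl : ∀ c, ∀ ζ ∈ G (F ⁻¹' Metric.closedBall c δ), ‖A ζ‖ ≤ r * ‖ζ‖) : ‖A‖ ≤ r := by
  obtain ⟨t, ht⟩ := exists_cover hF hδ
  refine A.opNorm_le_bound hr fun ζ => ?_
  have hc : ∀ c, IsClosed (F ⁻¹' Metric.closedBall c δ) := fun c =>
    Metric.isClosed_closedBall.preimage hF
  exact pinch hS (fun c => h.good _ (hc c)) (fun c => hA _ (hc c)) hr t (fun c _ => hl c) ζ
    (h.fs_top hF ht ζ)

theorem exists_ap (h : GC S G) (hS : ∀ a ∈ S, star a ∈ S) (f : C(Y, ℂ)) {ε : ℝ} (hε : 0 < ε) :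
    ∃ T, Cen S T ∧ Ap G f ε T := by
  obtain ⟨t, ht⟩ := exists_cover f.continuous hε
  have hc : ∀ c, IsClosed (f ⁻¹' Metric.closedBall c ε) := fun c =>
    Metric.isClosed_closedBall.preimage f.continuous
  obtain ⟨T, hT, hl⟩ := exists_step hS (V := fun c : ℂ => G (f ⁻¹' Metric.closedBall c ε))
    (fun c => h.good _ (hc c)) id t
  refine ⟨T, hT, ⟨fun B hB => ((h.good B hB).cen hS).comm₂ hT, ?_⟩⟩
  intro C hC c0 r hr hf ζ hζ
  refine hl (G C) (h.good C hC) c0 (r + ε) (by positivity) (fun c hc' hne => ?_) ζ hζ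
    (h.fs_top f.continuous ht ζ)
  have : ¬ Disjoint (f ⁻¹' Metric.closedBall c ε) C := fun hd => hne (h.disj _ _ (hc c) hC hd)
  obtain ⟨y, hy, hyC⟩ := Set.not_disjoint_iff.1 this
  have h1 : dist (f y) c ≤ ε := hy
  have h2 := hf y hyC
  rw [id, ← dist_eq_norm]
  rw [← dist_eq_norm] at h2
  calc dist c c0 ≤ dist c (f y) + dist (f y) c0 := dist_triangle _ _ _
    _ ≤ r + ε := by rw [dist_comm c]; linarith

theorem ap_close (h : GC S G) (hS : ∀ a ∈ S, star a ∈ S) {f : C(Y, ℂ)} {ε ε' : ℝ} (hε : 0 ≤ ε)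
    (hε' : 0 ≤ ε') {T T' : K →L[ℂ] K} (hT : Ap G f ε T) (hT' : Ap G f ε' T') :
    ‖T - T'‖ ≤ ε + ε' := by
  refine le_of_forall_pos_le_add fun δ hδ => ?_
  refine h.norm_le hS (A := T - T') (fun B hB => ?_) (by positivity) f.continuous
    (half_pos hδ) fun c ζ hζ => ?_
  · rw [mul_sub, sub_mul, hT.comm B hB, hT'.comm B hB]
  · have hc : IsClosed (f ⁻¹' Metric.closedBall c (δ / 2)) :=
      Metric.isClosed_closedBall.preimage f.continuous
    have hf : ∀ y ∈ f ⁻¹' Metric.closedBall c (δ / 2), ‖f y - c‖ ≤ δ / 2 := by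
      intro y hy
      rw [← dist_eq_norm]
      exact hy
    have h1 := hT.loc _ hc c (δ / 2) (by positivity) hf ζ hζ
    have h2 := hT'.loc _ hc c (δ / 2) (by positivity) hf ζ hζ
    calc ‖(T - T') ζ‖ = ‖(T ζ - c • ζ) - (T' ζ - c • ζ)‖ := by
          rw [sub_sub_sub_cancel_right]; rfl
      _ ≤ ‖T ζ - c • ζ‖ + ‖T' ζ - c • ζ‖ := norm_sub_le _ _
      _ ≤ (δ / 2 + ε) * ‖ζ‖ + (δ / 2 + ε') * ‖ζ‖ := add_le_add h1 h2
      _ = (ε + ε' + δ) * ‖ζ‖ := by ring

theorem ap_unique (h : GC S G) (hS : ∀ a ∈ S, star a ∈ S) {f : C(Y, ℂ)} {T T' : K →L[ℂ] K}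
    (hT : Ap G f 0 T) (hT' : Ap G f 0 T') : T = T' := by
  have := h.ap_close hS le_rfl le_rfl hT hT'
  rw [add_zero] at this
  exact sub_eq_zero.1 (norm_le_zero_iff.1 this)

theorem exists_val (h : GC S G) (hS : ∀ a ∈ S, star a ∈ S) (f : C(Y, ℂ)) :
    ∃ T, Cen S T ∧ Ap G f 0 T := by
  have hpos : ∀ n : ℕ, (0 : ℝ) < 1 / ((n : ℝ) + 1) := fun n => by positivity
  choose T hT hA using fun n : ℕ => h.exists_ap hS f (hpos n)
  have hlim : Filter.Tendsto (fun n : ℕ => 1 / ((n : ℝ) + 1)) Filter.atTop (nhds 0) :=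
    tendsto_one_div_add_atTop_nhds_zero_nat
  have hcau : CauchySeq T := by
    refine cauchySeq_of_le_tendsto_0 (fun n : ℕ => 1 / ((n : ℝ) + 1) + 1 / ((n : ℝ) + 1)) ?_ ?_
    · intro n m N hn hm
      rw [dist_eq_norm]
      refine (h.ap_close hS (hpos n).le (hpos m).le (hA n) (hA m)).trans ?_
      exact add_le_add (one_div_le_one_div_of_le (by positivity) (by simpa using hn))
        (one_div_le_one_div_of_le (by positivity) (by simpa using hm))
    · simpa using hlim.add hlim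
  obtain ⟨T₀, h0⟩ := cauchySeq_tendsto_of_complete hcau
  refine ⟨T₀, cen_of_tendsto hT h0, ⟨fun B hB => ?_, ?_⟩⟩
  · exact tendsto_nhds_unique (h0.const_mul _)
      ((h0.mul_const _).congr fun n => ((hA n).comm B hB).symm)
  · intro C hC c0 r hr hf ζ hζ
    have h1 : Filter.Tendsto (fun n => ‖T n ζ - c0 • ζ‖) Filter.atTop
        (nhds ‖T₀ ζ - c0 • ζ‖) := by
      refine (Filter.Tendsto.sub ?_ tendsto_const_nhds).norm
      exact ((ContinuousLinearMap.apply ℂ K ζ).continuous.tendsto T₀).comp h0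
    have h2 : Filter.Tendsto (fun n : ℕ => (r + 1 / ((n : ℝ) + 1)) * ‖ζ‖) Filter.atTop
        (nhds ((r + 0) * ‖ζ‖)) := (hlim.const_add r).mul_const _
    exact le_of_tendsto_of_tendsto' h1 h2 fun n => (hA n).loc C hC c0 r hr hf ζ hζ

/-- the value of `f` -/
noncomputable def val (h : GC S G) (hS : ∀ a ∈ S, star a ∈ S) (f : C(Y, ℂ)) : K →L[ℂ] K :=
  (h.exists_val hS f).choose

theorem val_cen (h : GC S G) (hS : ∀ a ∈ S, star a ∈ S) (f : C(Y, ℂ)) : Cen S (h.val hS f) :=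
  (h.exists_val hS f).choose_spec.1

theorem val_ap (h : GC S G) (hS : ∀ a ∈ S, star a ∈ S) (f : C(Y, ℂ)) :
    Ap G f 0 (h.val hS f) :=
  (h.exists_val hS f).choose_spec.2

theorem val_eq (h : GC S G) (hS : ∀ a ∈ S, star a ∈ S) {f : C(Y, ℂ)} {T : K →L[ℂ] K}
    (hT : Ap G f 0 T) : h.val hS f = T :=
  h.ap_unique hS (h.val_ap hS f) hT

theorem val_loc (h : GC S G) (hS : ∀ a ∈ S, star a ∈ S) (f : C(Y, ℂ)) {C : Set Y}
    (hC : IsClosed C) {c0 : ℂ} {r : ℝ} (hr : 0 ≤ r) (hf : ∀ y ∈ C, ‖f y - c0‖ ≤ r) {ζ : K}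
    (hζ : ζ ∈ G C) : ‖h.val hS f ζ - c0 • ζ‖ ≤ r * ‖ζ‖ := by
  have := (h.val_ap hS f).loc C hC c0 r hr hf ζ hζ
  rwa [add_zero] at this

theorem val_comm (h : GC S G) (hS : ∀ a ∈ S, star a ∈ S) (f : C(Y, ℂ)) {B : Set Y}
    (hB : IsClosed B) : pj (G B) * h.val hS f = h.val hS f * pj (G B) :=
  (h.val_ap hS f).comm B hB

theorem ap_const (h : GC S G) (c : ℂ) (f : C(Y, ℂ)) (hf : ∀ y, f y = c) :
    Ap G f 0 (c • (1 : K →L[ℂ] K)) := by
  refine ⟨fun B _ => by rw [mul_smul_comm, smul_mul_assoc, mul_one, one_mul], ?_⟩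
  intro C hC c0 r hr hC' ζ hζ
  rw [add_zero]
  change ‖c • ζ - c0 • ζ‖ ≤ r * ‖ζ‖
  rcases C.eq_empty_or_nonempty with rfl | ⟨y, hy⟩
  · rw [h.empty, Submodule.mem_bot] at hζ
    rw [hζ, smul_zero, smul_zero, sub_zero, norm_zero, mul_zero]
  · rw [← sub_smul, norm_smul, ← hf y]
    exact mul_le_mul_of_nonneg_right (hC' y hy) (norm_nonneg _)

theorem val_add (h : GC S G) (hS : ∀ a ∈ S, star a ∈ S) (f g : C(Y, ℂ)) :
    h.val hS (f + g) = h.val hS f + h.val hS g := by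
  rw [eq_comm, ← sub_eq_zero, ← norm_le_zero_iff]
  refine le_of_forall_pos_le_add fun δ hδ => ?_
  rw [zero_add]
  refine h.norm_le hS (A := h.val hS f + h.val hS g - h.val hS (f + g)) (fun B hB => ?_) hδ.le
    (F := fun y => (f y, g y)) (f.continuous.prodMk g.continuous) (δ := δ / 4) (by positivity)
    fun c ζ hζ => ?_
  · rw [mul_sub, sub_mul, mul_add, add_mul, h.val_comm hS f hB, h.val_comm hS g hB,
      h.val_comm hS (f + g) hB]
  · have hc : IsClosed ((fun y => (f y, g y)) ⁻¹' Metric.closedBall c (δ / 4)) :=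
      Metric.isClosed_closedBall.preimage (f.continuous.prodMk g.continuous)
    have hfg : ∀ y ∈ (fun y => (f y, g y)) ⁻¹' Metric.closedBall c (δ / 4),
        ‖f y - c.1‖ ≤ δ / 4 ∧ ‖g y - c.2‖ ≤ δ / 4 := by
      intro y hy
      rw [← dist_eq_norm, ← dist_eq_norm]
      have : dist (f y, g y) c ≤ δ / 4 := hy
      rw [Prod.dist_eq] at this
      exact ⟨(le_max_left _ _).trans this, (le_max_right _ _).trans this⟩
    have h1 := h.val_loc hS f hc (by positivity) (fun y hy => (hfg y hy).1) hζ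
    have h2 := h.val_loc hS g hc (by positivity) (fun y hy => (hfg y hy).2) hζ
    have h3 := h.val_loc hS (f + g) hc (c0 := c.1 + c.2) (r := δ / 4 + δ / 4) (by positivity)
      (fun y hy => by
        have e : (f + g) y - (c.1 + c.2) = (f y - c.1) + (g y - c.2) := by
          rw [ContinuousMap.add_apply]; ring
        rw [e]
        exact (norm_add_le _ _).trans (add_le_add (hfg y hy).1 (hfg y hy).2)) hζ
    have e : (h.val hS f + h.val hS g - h.val hS (f + g)) ζ =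
        (h.val hS f ζ - c.1 • ζ) + (h.val hS g ζ - c.2 • ζ) -
          (h.val hS (f + g) ζ - (c.1 + c.2) • ζ) := by
      change h.val hS f ζ + h.val hS g ζ - h.val hS (f + g) ζ = _
      rw [add_smul]; abel
    rw [e]
    calc _ ≤ ‖(h.val hS f ζ - c.1 • ζ) + (h.val hS g ζ - c.2 • ζ)‖ +
          ‖h.val hS (f + g) ζ - (c.1 + c.2) • ζ‖ := norm_sub_le _ _
      _ ≤ (‖h.val hS f ζ - c.1 • ζ‖ + ‖h.val hS g ζ - c.2 • ζ‖) +
          ‖h.val hS (f + g) ζ - (c.1 + c.2) • ζ‖ := by gcongr; exact norm_add_le _ _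
      _ ≤ (δ / 4 * ‖ζ‖ + δ / 4 * ‖ζ‖) + (δ / 4 + δ / 4) * ‖ζ‖ := by
          exact add_le_add (add_le_add h1 h2) h3
      _ = δ * ‖ζ‖ := by ring

theorem val_mul (h : GC S G) (hS : ∀ a ∈ S, star a ∈ S) (f g : C(Y, ℂ)) :
    h.val hS (f * g) = h.val hS f * h.val hS g := by
  rw [eq_comm, ← sub_eq_zero, ← norm_le_zero_iff]
  set L : ℝ := ‖h.val hS f‖ + ‖f‖ + 2 * (‖g‖ + 1) with hL
  have hL0 : 0 < L := by positivity
  have key : ∀ δ : ℝ, 0 < δ → δ ≤ 1 →
      ‖h.val hS f * h.val hS g - h.val hS (f * g)‖ ≤ L * δ := by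
    intro δ hδ hδ1
    refine h.norm_le hS (A := h.val hS f * h.val hS g - h.val hS (f * g)) (fun B hB => ?_)
      (by positivity) (F := fun y => (f y, g y)) (f.continuous.prodMk g.continuous) hδ
      fun c ζ hζ => ?_
    · rw [mul_sub, sub_mul, ← mul_assoc, h.val_comm hS f hB, mul_assoc, h.val_comm hS g hB,
        ← mul_assoc, h.val_comm hS (f * g) hB]
    · have hc : IsClosed ((fun y => (f y, g y)) ⁻¹' Metric.closedBall c δ) :=
        Metric.isClosed_closedBall.preimage (f.continuous.prodMk g.continuous)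
      have hfg : ∀ y ∈ (fun y => (f y, g y)) ⁻¹' Metric.closedBall c δ,
          ‖f y - c.1‖ ≤ δ ∧ ‖g y - c.2‖ ≤ δ := by
        intro y hy
        rw [← dist_eq_norm, ← dist_eq_norm]
        have : dist (f y, g y) c ≤ δ := hy
        rw [Prod.dist_eq] at this
        exact ⟨(le_max_left _ _).trans this, (le_max_right _ _).trans this⟩
      rcases ((fun y => (f y, g y)) ⁻¹' Metric.closedBall c δ).eq_empty_or_nonempty with
        he | ⟨y0, hy0⟩
      · rw [he, h.empty, Submodule.mem_bot] at hζ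
        rw [hζ, map_zero, norm_zero, mul_zero]
      have hc2 : ‖c.2‖ ≤ ‖g‖ + 1 := by
        have e : c.2 = g y0 - (g y0 - c.2) := by ring
        rw [e]
        exact (norm_sub_le _ _).trans (add_le_add (g.norm_coe_le_norm y0)
          ((hfg y0 hy0).2.trans hδ1))
      have h1 := h.val_loc hS f hc hδ.le (fun y hy => (hfg y hy).1) hζ
      have h2 := h.val_loc hS g hc hδ.le (fun y hy => (hfg y hy).2) hζ
      have h3 := h.val_loc hS (f * g) hc (c0 := c.1 * c.2) (r := (‖f‖ + (‖g‖ + 1)) * δ)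
        (by positivity) (fun y hy => by
          have e : (f * g) y - c.1 * c.2 = f y * (g y - c.2) + c.2 * (f y - c.1) := by
            rw [ContinuousMap.mul_apply]; ring
          rw [e]
          refine (norm_add_le _ _).trans ?_
          rw [norm_mul, norm_mul, add_mul]
          refine add_le_add ?_ ?_
          · exact mul_le_mul (f.norm_coe_le_norm y) (hfg y hy).2 (norm_nonneg _) (norm_nonneg _)
          · exact mul_le_mul hc2 (hfg y hy).1 (norm_nonneg _) (by positivity)) hζ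
      have e : (h.val hS f * h.val hS g - h.val hS (f * g)) ζ =
          h.val hS f (h.val hS g ζ - c.2 • ζ) + c.2 • (h.val hS f ζ - c.1 • ζ) -
            (h.val hS (f * g) ζ - (c.1 * c.2) • ζ) := by
        change h.val hS f (h.val hS g ζ) - h.val hS (f * g) ζ = _
        rw [map_sub, map_smul, smul_sub, smul_smul, mul_comm c.2 c.1]; abel
      rw [e]
      calc _ ≤ ‖h.val hS f (h.val hS g ζ - c.2 • ζ) + c.2 • (h.val hS f ζ - c.1 • ζ)‖ +
            ‖h.val hS (f * g) ζ - (c.1 * c.2) • ζ‖ := norm_sub_le _ _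
        _ ≤ (‖h.val hS f (h.val hS g ζ - c.2 • ζ)‖ + ‖c.2 • (h.val hS f ζ - c.1 • ζ)‖) +
            ‖h.val hS (f * g) ζ - (c.1 * c.2) • ζ‖ := by gcongr; exact norm_add_le _ _
        _ ≤ (‖h.val hS f‖ * (δ * ‖ζ‖) + (‖g‖ + 1) * (δ * ‖ζ‖)) +
            (‖f‖ + (‖g‖ + 1)) * δ * ‖ζ‖ := by
            refine add_le_add (add_le_add ?_ ?_) h3
            · exact ((h.val hS f).le_opNorm _).trans
                (mul_le_mul_of_nonneg_left h2 (norm_nonneg _))
            · rw [norm_smul]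
              exact mul_le_mul hc2 h1 (norm_nonneg _) (by positivity)
        _ = L * δ * ‖ζ‖ := by rw [hL]; ring
  refine le_of_forall_pos_le_add fun ε hε => ?_
  rw [zero_add]
  have h1 := key (min 1 (ε / L)) (lt_min one_pos (by positivity)) (min_le_left _ _)
  refine h1.trans ?_
  calc L * min 1 (ε / L) ≤ L * (ε / L) := by gcongr; exact min_le_right _ _
    _ = ε := by field_simp

theorem val_star (h : GC S G) (hS : ∀ a ∈ S, star a ∈ S) (f : C(Y, ℂ)) :
    h.val hS (star f) = star (h.val hS f) := by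
  refine h.val_eq hS ⟨fun B hB => ?_, ?_⟩
  · have := congrArg star (h.val_comm hS f hB)
    rw [star_mul, star_mul, pj_star] at this
    exact this.symm
  · intro C hC c0 r hr hf ζ hζ
    rw [add_zero]
    set x := star (h.val hS f) ζ - c0 • ζ with hx
    have hxC : x ∈ G C := by
      refine Submodule.sub_mem _ ?_ (Submodule.smul_mem _ _ hζ)
      exact (h.good C hC).cinv _ ((h.val_cen hS f).star hS).comm ζ hζ
    have h1 : ‖h.val hS f x - star c0 • x‖ ≤ r * ‖x‖ := by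
      refine h.val_loc hS f hC hr (fun y hy => ?_) hxC
      have := hf y hy
      rw [← norm_star, star_sub, star_star]
      rwa [ContinuousMap.star_apply] at this
    have h2 : ((‖x‖ ^ 2 : ℝ) : ℂ) = ⟪h.val hS f x - star c0 • x, ζ⟫_ℂ := by
      have e1 : ((‖x‖ ^ 2 : ℝ) : ℂ) = ⟪x, x⟫_ℂ := by
        rw [inner_self_eq_norm_sq_to_K]; norm_cast
      have e2 : ⟪x, x⟫_ℂ = ⟪x, star (h.val hS f) ζ - c0 • ζ⟫_ℂ := by rw [← hx]
      rw [e1, e2, inner_star_sub]
    have h3 : ‖x‖ ^ 2 ≤ r * ‖x‖ * ‖ζ‖ := by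
      have : ‖((‖x‖ ^ 2 : ℝ) : ℂ)‖ ≤ r * ‖x‖ * ‖ζ‖ := by
        rw [h2]
        exact (norm_inner_le_norm _ _).trans (mul_le_mul_of_nonneg_right h1 (norm_nonneg _))
      rwa [Complex.norm_real, Real.norm_of_nonneg (sq_nonneg _)] at this
    by_cases h0 : ‖x‖ = 0
    · rw [h0]; positivity
    · have hp : 0 < ‖x‖ := lt_of_le_of_ne (norm_nonneg _) (Ne.symm h0)
      have : ‖x‖ * ‖x‖ ≤ ‖x‖ * (r * ‖ζ‖) := by nlinarith [h3]
      exact le_of_mul_le_mul_left this hp

/-- the `*`-hom of the calculus -/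
noncomputable def hom (h : GC S G) (hS : ∀ a ∈ S, star a ∈ S) :
    C(Y, ℂ) →⋆ₐ[ℂ] (K →L[ℂ] K) where
  toFun := h.val hS
  map_one' := by
    have := h.val_eq hS (h.ap_const 1 (1 : C(Y, ℂ)) fun _ => rfl)
    rw [one_smul] at this
    exact this
  map_mul' := h.val_mul hS
  map_zero' := by
    have := h.val_eq hS (h.ap_const 0 (0 : C(Y, ℂ)) fun _ => rfl)
    rw [zero_smul] at this
    exact this
  map_add' := h.val_add hS
  commutes' := by
    intro c
    have := h.val_eq hS (h.ap_const c (algebraMap ℂ C(Y, ℂ) c) fun _ => rfl)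
    rw [this, Algebra.algebraMap_eq_smul_one]
  map_star' := h.val_star hS

end GC

end Vale.Agent.P092.H729.Rk
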